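import Crest.Agent.N233.PS.Gr
import Crest.Agent.N233.Defs
import Crest.Agent.N255.Pt.Dt

-- ▼ part N233/PS/Re
section

/-!
# Row 233, block PS (helper98): the subdivision is rectilinear

`Cone X` is the cone over the complex `X` (product topology), `Rl X` its geometric realisation.
The linear map `Pb` sends the vertex `a` of `X*` to the point `pos a / sz a` of its carrier; it is a
bijection `Cone X* → Cone X`, and a homeomorphism if `X` is locally finite.
-/

set_option autoImplicit false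

open scoped goldenRatio Topology
open Finsupp Set Filter

namespace Crest.Agent.N233.PS

variable {V U : Type*}

/-- the cone over the complex -/
def Cone (X : Set V → Prop) : Set (V → ℝ) := {x | (∀ v, 0 ≤ x v) ∧ X (Function.support x)}

/-- the geometric realisation -/
def Rl (X : Set V → Prop) : Set (V → ℝ) := {x | x ∈ Cone X ∧ ∑ᶠ v, x v = 1}

variable {X : Set V → Prop}

theorem Cx.isClosed_cone (hX : Cx X) : IsClosed (Cone X) := by
  refine isClosed_iff_clusterPt.2 fun x hx => ?_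
  have hx' : x ∈ closure (Cone X) := mem_closure_iff_clusterPt.2 hx
  have key : ∀ σ : Finset V, ↑σ ⊆ Function.support x → X σ := by
    intro σ hσ
    have : ∀ᶠ y in 𝓝 x, ∀ v ∈ σ, y v ≠ 0 :=
      (eventually_all_finset σ).2 fun v hv =>
        (continuous_apply v).continuousAt.eventually_ne (hσ hv)
    obtain ⟨y, hy, hy'⟩ := mem_closure_iff_nhds.1 hx' _ this
    exact hX.down (fun v hv => hy v hv) hy'.2
  refine ⟨fun v => ?_, ?_⟩
  · exact closure_minimal (fun y (hy : y ∈ Cone X) => hy.1 v)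
      (isClosed_le continuous_const (continuous_apply v)) hx'
  · have hf : (Function.support x).Finite := by
      by_contra hf
      obtain ⟨t, ht, hc⟩ := Set.Infinite.exists_subset_card_eq hf 5
      obtain ⟨p, hp⟩ := hX.dim (key t ht)
      have := Finset.card_le_card_of_injOn p (t := Finset.univ) (fun _ _ => by simp) hp
      simp [hc] at this
    simpa using key hf.toFinset (by simp)

/-- the linear map sending the vertex `a` to `pos a` -/
noncomputable def Ph (μ : PV X → ℝ) : V → ℝ := fun v => ∑ᶠ a, μ a * wt (a.1 v)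

theorem Ph_eq {μ : PV X → ℝ} {T : Finset (PV X)} (h : Function.support μ ⊆ T) :
    Ph μ = ∑ a ∈ T, μ a • pos a.1 := by
  funext v
  rw [Ph, finsum_eq_sum_of_support_subset _ ((Function.support_mul_subset_left _ _).trans h),
    Finset.sum_apply]
  rfl

theorem Ph_ne_zero (hX : Cx X) {μ : PV X → ℝ} (hμ : μ ∈ Cone (ps X).IsClique) {v : V} :
    Ph μ v ≠ 0 ↔ ∃ a, μ a ≠ 0 ∧ v ∈ car a := by
  have hf := (cx_ps hX).finite hμ.2
  rw [Ph_eq (T := hf.toFinset) (by simp), Finset.sum_apply, ne_eq,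
    Finset.sum_eq_zero_iff_of_nonneg (f := fun a => (μ a • pos a.1) v)
      fun a _ => mul_nonneg (hμ.1 a) (wt_nonneg _)]
  simp [pos, wt_eq_zero, mem_car]

theorem Ph_nonneg {μ : PV X → ℝ} (hμ : ∀ a, 0 ≤ μ a) (v : V) : 0 ≤ Ph μ v :=
  finsum_nonneg fun a => mul_nonneg (hμ a) (wt_nonneg _)

/-- the support of the image is the carrier of the top vertex -/
theorem Ph_support (hX : Cx X) {μ : PV X → ℝ} (hμ : μ ∈ Cone (ps X).IsClique) (h : μ ≠ 0) :
    ∃ a, μ a ≠ 0 ∧ Function.support (Ph μ) = car a := by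
  obtain ⟨a, ha, hm⟩ := exists_top hX hμ.2 ((cx_ps hX).finite hμ.2)
    (Function.support_nonempty_iff.2 h)
  refine ⟨a, ha, Set.ext fun v => ?_⟩
  rw [Function.mem_support, Ph_ne_zero hX hμ]
  exact ⟨fun ⟨b, hb, hv⟩ => hm b hb hv, fun hv => ⟨a, ha, hv⟩⟩

theorem Ph_zero : Ph (0 : PV X → ℝ) = 0 := by
  funext v
  simp [Ph]

theorem Ph_mem (hX : Cx X) (h0 : X ∅) {μ : PV X → ℝ} (hμ : μ ∈ Cone (ps X).IsClique) :
    Ph μ ∈ Cone X := by
  refine ⟨Ph_nonneg hμ.1, ?_⟩
  by_cases h : μ = 0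
  · simpa [h, Ph_zero] using h0
  · obtain ⟨a, -, e⟩ := Ph_support hX hμ h
    rw [e]
    exact car_face a

theorem le_Ph (hX : Cx X) {μ : PV X → ℝ} (hμ : μ ∈ Cone (ps X).IsClique) {a : PV X} {v : V}
    (hv : v ∈ car a) : μ a ≤ Ph μ v := by
  classical
  have hf := (cx_ps hX).finite hμ.2
  rw [Ph_eq (T := insert a hf.toFinset) (by simp), Finset.sum_apply]
  refine le_trans ?_ (Finset.single_le_sum (f := fun b => (μ b • pos b.1) v)
    (fun b _ => mul_nonneg (hμ.1 b) (wt_nonneg _)) (Finset.mem_insert_self _ _))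
  exact le_mul_of_one_le_right (hμ.1 a) (one_le_wt (mem_car.1 hv))

theorem Ph_le_aux (hX : Cx X) {μ ν : PV X → ℝ} (hμ : μ ∈ Cone (ps X).IsClique)
    (hν : ν ∈ Cone (ps X).IsClique) (e : Ph μ = Ph ν) {T : Finset (PV X)}
    (h1 : Function.support μ ⊆ T) (h2 : Function.support ν ⊆ T)
    (hs : ∑ a ∈ T, ν a ≤ ∑ a ∈ T, μ a) (a : PV X) : μ a ≤ ν a := by
  classical
  by_cases ha : μ a = 0
  · rw [ha]
    exact hν.1 a
  obtain ⟨b, -, hb⟩ := Ph_support hX hμ fun h => ha (congrFun h a)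
  obtain ⟨p, hp⟩ := hX.dim (car_face b)
  have hm : ∀ c, μ c ≠ 0 → car c ⊆ car b := fun c hc v hv =>
    hb ▸ (Ph_ne_zero hX hμ).2 ⟨c, hc, hv⟩
  have hn : ∀ c, ν c ≠ 0 → car c ⊆ car b := fun c hc v hv =>
    hb ▸ e ▸ (Ph_ne_zero hX hν).2 ⟨c, hc, hv⟩
  have e1 : el b.1.support a.1 (Ph μ) =
      ∑ c ∈ T, (ht a.1 * μ c + if c = a then (φ + 1) * μ a else 0) := by
    rw [Ph_eq h1, map_sum]
    refine Finset.sum_congr rfl fun c _ => ?_
    by_cases hc : μ c = 0
    · have : c ≠ a := fun h => ha (h ▸ hc)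
      simp [hc, this]
    rw [map_smul, el_pos (Finset.coe_subset.1 (hm a ha)) (Finset.coe_subset.1 (hm c hc)),
      smul_eq_mul]
    split_ifs with h
    · rw [h, a.2.2.RR_sub]
      ring
    · rw [(hμ.2 ha hc (Ne.symm h)).2.RR_sub]
      ring
  have e2 : el b.1.support a.1 (Ph ν) ≤
      ∑ c ∈ T, (ht a.1 * ν c + if c = a then (φ + 1) * ν a else 0) := by
    rw [Ph_eq h2, map_sum]
    refine Finset.sum_le_sum fun c _ => ?_
    by_cases hc : ν c = 0
    · by_cases h : c = a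
      · simp [← h, hc]
      · simp [hc, h]
    rw [map_smul, el_pos (Finset.coe_subset.1 (hm a ha)) (Finset.coe_subset.1 (hn c hc)),
      smul_eq_mul]
    split_ifs with h
    · rw [h, a.2.2.RR_sub]
      exact le_of_eq (by ring)
    · have := loc_le hp (hm a ha) (hn c hc) a.2.2 c.2.2 fun e => h (PV.ext e.symm)
      have h3 := hν.1 c
      nlinarith
  have haT : a ∈ T := h1 ha
  rw [← e, e1] at e2
  simp only [Finset.sum_add_distrib, ← Finset.mul_sum, Finset.sum_ite_eq', haT, if_true] at e2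
  have h3 := ht_pos a.1
  have h4 := Real.goldenRatio_pos
  by_contra hlt
  nlinarith [mul_le_mul_of_nonneg_left hs h3.le]

theorem Ph_injOn (hX : Cx X) : InjOn Ph (Cone (ps X).IsClique) := by
  intro μ hμ ν hν e
  have hf := ((cx_ps hX).finite hμ.2).union ((cx_ps hX).finite hν.2)
  have h1 : Function.support μ ⊆ hf.toFinset := by simp
  have h2 : Function.support ν ⊆ hf.toFinset := by simp
  funext a
  rcases le_total (∑ a ∈ hf.toFinset, ν a) (∑ a ∈ hf.toFinset, μ a) with h | h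
  · have h3 := Ph_le_aux hX hμ hν e h1 h2 h
    exact le_antisymm (h3 a)
      (Ph_le_aux hX hν hμ e.symm h2 h1 (Finset.sum_le_sum fun a _ => h3 a) a)
  · have h3 := Ph_le_aux hX hν hμ e.symm h2 h1 h
    exact le_antisymm
      (Ph_le_aux hX hμ hν e h1 h2 (Finset.sum_le_sum fun a _ => h3 a) a) (h3 a)

/-- the cells of the block -/
abbrev Cell : Type :=
  {a : Fin 4 → Fin 4 →₀ Fin 8 // (∀ i, Vx (a i)) ∧ ∀ i j, i ≠ j → Ad (a i) (a j)}

theorem Cell.span (a : Cell) (x : Fin 4 → ℝ) : ∃ c : Fin 4 → ℝ, ∑ j, c j • pos (a.1 j) = x := by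
  have := (indep a.2.1 a.2.2).span_eq_top_of_card_eq_finrank' (by simp)
  rw [← Submodule.mem_span_range_iff_exists_fun, this]
  trivial

/-- the cells of the block cover the tetrahedron -/
theorem blk_surj {x : Fin 4 → ℝ} (hx : ∀ t, 0 ≤ x t) :
    ∃ (a : Cell) (c : Fin 4 → ℝ), (∀ j, 0 ≤ c j) ∧ ∑ j, c j • pos (a.1 j) = x := by
  have : Nonempty Cell := ⟨⟨_, blk_cell.choose_spec⟩⟩
  choose c hc using fun a : Cell => a.span x
  obtain ⟨a, ha⟩ := Finite.exists_max fun a : Cell => ∑ j, c a j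
  refine ⟨a, c a, fun j => ?_, hc a⟩
  by_contra hj
  rw [not_le] at hj
  have hne : ∀ z z' : Fin 3, z ≠ z' → Ad (a.1 (j.succAbove z)) (a.1 (j.succAbove z')) :=
    fun z z' h => a.2.2 _ _ fun e => h (Fin.succAbove_right_injective e)
  have hj' : ∀ z : Fin 3, Ad (a.1 (j.succAbove z)) (a.1 j) :=
    fun z => a.2.2 _ _ (Fin.succAbove_ne j z)
  have hall : ∀ P : Fin 4 → Prop, P (j.succAbove 0) ∧ P (j.succAbove 1) ∧ P (j.succAbove 2) →
      ∀ i, i ≠ j → P i := by
    intro P h i hi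
    obtain ⟨z, rfl⟩ := Fin.exists_succAbove_eq hi
    fin_cases z
    exacts [h.1, h.2.1, h.2.2]
  rcases blk_tri (a.2.1 _) (a.2.1 _) (a.2.1 _) (a.2.1 j) (hne 0 1 (by decide))
    (hne 0 2 (by decide)) (hne 1 2 (by decide)) (hj' 0) (hj' 1) (hj' 2) with
    ⟨t, ht⟩ | ⟨e, ve, hej, he⟩
  · have h1 := hall (fun i => a.1 i t = 0) ht
    have h2 : ∀ d : Fin 4 → ℝ, (∑ i, d i • pos (a.1 i)) t = d j * wt (a.1 j t) := by
      intro d
      rw [Finset.sum_apply, Finset.sum_eq_single j (fun i _ hi => by simp [pos, h1 i hi])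
        (by simp)]
      rfl
    have h3 := h2 (c a)
    rw [hc a] at h3
    obtain ⟨d, hd⟩ := a.span 1
    have h4 := h2 d
    rw [hd] at h4
    have h5 : wt (a.1 j t) = 0 := by nlinarith [hx t, wt_nonneg (a.1 j t)]
    simp [h5] at h4
  · have h1 := hall (fun i => Ad (a.1 i) e) he
    let a' : Cell := ⟨Function.update a.1 j e, fun i => by
      by_cases h : i = j
      · simpa [h] using ve
      · simpa [h] using a.2.1 i, fun i k hik => by
      by_cases h : i = j
      · have h' : k ≠ j := fun e => hik (h.trans e.symm)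
        simpa [h, h'] using (h1 k h').symm
      · by_cases h' : k = j
        · simpa [h, h'] using h1 i h
        · simpa [h, h'] using a.2.2 i k hik⟩
    have hs := ha a'
    have hκ : 0 < φ + 1 := by linarith [Real.goldenRatio_pos]
    have h2 : ∀ i, i ≠ j → c a i ≤ c a' i := by
      intro i hi
      have e1 := el_comb (fun _ => Finset.subset_univ _) a.2.1 a.2.2 (c a) i
      have e2 := el_comb (fun _ => Finset.subset_univ _) a'.2.1 a'.2.2 (c a') i
      have e3 : a'.1 i = a.1 i := Function.update_of_ne hi _ _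
      rw [hc] at e1 e2
      rw [e3, e1] at e2
      by_contra hlt
      nlinarith [mul_le_mul_of_nonneg_left hs (ht_pos (a.1 i)).le]
    have h3 : c a' j < 0 := by
      have := Finset.sum_le_sum (s := Finset.univ.erase j) fun i hi =>
        h2 i (Finset.ne_of_mem_erase hi)
      rw [Finset.sum_erase_eq_sub (Finset.mem_univ j),
        Finset.sum_erase_eq_sub (Finset.mem_univ j)] at this
      linarith
    have e2 := el_comb (fun _ => Finset.subset_univ _) a'.2.1 a'.2.2 (c a') j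
    have e3 : a'.1 j = e := Function.update_self _ _ _
    rw [hc, e3, ← hc a, map_sum] at e2
    have e4 : ∑ i, ht e * c a i ≤ ∑ i, el Finset.univ e (c a i • pos (a.1 i)) := by
      refine Finset.sum_le_sum fun i _ => ?_
      rw [map_smul, el_pos (Finset.subset_univ _) (Finset.subset_univ _), smul_eq_mul]
      by_cases hi : i = j
      · have := blk_le ve (a.2.1 j) hej
        rw [hi]
        nlinarith
      · rw [(h1 i hi).symm.RR_sub]
        exact le_of_eq (by ring)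
    rw [e2, ← Finset.mul_sum] at e4
    nlinarith [mul_le_mul_of_nonneg_left hs (ht_pos e).le]

theorem Ph_surjOn (hX : Cx X) : SurjOn Ph (Cone (ps X).IsClique) (Cone X) := by
  classical
  intro x hx
  obtain ⟨p, hp⟩ := hX.dim hx.2
  have hf := hX.finite hx.2
  obtain ⟨a, c, hc, e⟩ := blk_surj (x := fun t => ∑ v ∈ hf.toFinset, if p v = t then x v else 0)
    fun t => Finset.sum_nonneg fun v _ => by split_ifs; exacts [hx.1 v, le_rfl]
  have h1 : ∀ j, c j ≠ 0 → ↑(a.1 j).support ⊆ p '' Function.support x := by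
    intro j hj t ht
    by_contra hn
    have h2 := congrFun e t
    rw [Finset.sum_eq_zero (s := hf.toFinset) fun v hv => if_neg fun h =>
      hn ⟨v, by simpa using hv, h⟩, Finset.sum_apply,
      Finset.sum_eq_zero_iff_of_nonneg (f := fun i => (c i • pos (a.1 i)) t)
        fun i _ => mul_nonneg (hc i) (wt_nonneg _)] at h2
    simpa [pos, hj, wt_eq_zero, mem_support_iff.1 ht] using h2 j (Finset.mem_univ j)
  choose b hb hb' using fun j : {j // c j ≠ 0} => exists_map hp (h1 j j.2)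
  let B : {j // c j ≠ 0} → PV X := fun j =>
    ⟨b j, hX.down (hb j) hx.2, (vx_map (hp.mono (hb j))).1 (hb' j ▸ a.2.1 j)⟩
  have hs : Function.support (fun d : PV X => ∑ j, if B j = d then c j else 0) ⊆
      Finset.univ.image B := by
    intro d hd
    obtain ⟨j, -, hj⟩ := Finset.exists_ne_zero_of_sum_ne_zero hd
    simp only [Finset.coe_image, Finset.coe_univ, image_univ]
    exact ⟨j, by_contra fun h => hj (if_neg h)⟩
  refine ⟨fun d => ∑ j, if B j = d then c j else 0, ⟨fun d => Finset.sum_nonneg fun j _ => by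
    split_ifs; exacts [hc j, le_rfl], fun d hd d' hd' hne => ?_⟩, ?_⟩
  · obtain ⟨j, -, rfl⟩ := Finset.mem_image.1 (hs hd)
    obtain ⟨k, -, rfl⟩ := Finset.mem_image.1 (hs hd')
    refine adj_of_ad hX hx.2 (hb j) (hb k) ((ad_map hp (hb j) (hb k)).1 ?_)
    rw [hb', hb']
    exact a.2.2 _ _ fun e => hne (congrArg B (Subtype.ext e))
  · rw [Ph_eq hs]
    funext v
    have h2 : (∑ d ∈ Finset.univ.image B, (∑ j, if B j = d then c j else 0) • pos d.1) v =
        ∑ j : {j // c j ≠ 0}, c j * wt (b j v) := by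
      simp only [Finset.sum_apply, Pi.smul_apply, smul_eq_mul, Finset.sum_mul, ite_mul, zero_mul]
      rw [Finset.sum_comm]
      refine Finset.sum_congr rfl fun j _ => ?_
      rw [Finset.sum_ite_eq, if_pos (Finset.mem_image_of_mem _ (Finset.mem_univ j))]
      rfl
    rw [h2]
    by_cases hv : x v = 0
    · rw [hv]
      refine Finset.sum_eq_zero fun j _ => ?_
      have : b j v = 0 := by_contra fun h => hb j (mem_support_iff.2 h) hv
      simp [this]
    · have h3 := congrFun e (p v)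
      rw [Finset.sum_eq_single v (fun w hw hwv => if_neg fun h =>
        hwv (hp (by simpa using hw) hv h)) (fun h => absurd (by simpa using hv) h), if_pos rfl,
        Finset.sum_apply] at h3
      rw [← h3, ← Finset.sum_filter_of_ne (p := fun j => c j ≠ 0) (fun j _ h h' => h (by simp [h'])),
        Finset.sum_subtype (p := fun j => c j ≠ 0) _ (by simp)]
      refine Finset.sum_congr rfl fun j _ => ?_
      rw [← hb' j]
      simp only [Pi.smul_apply, smul_eq_mul, pos]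
      rw [mapDomain_apply' _ _ (hb j) hp hv]

theorem Ph_bijOn (hX : Cx X) (h0 : X ∅) : BijOn Ph (Cone (ps X).IsClique) (Cone X) :=
  ⟨fun _ => Ph_mem hX h0, Ph_injOn hX, Ph_surjOn hX⟩

end Crest.Agent.N233.PS
end

-- ▼ part N233/PS/Ho
section

/-!
# Row 233, block PS (helper98): the homeomorphism `|X*| ≃ₜ |X|`

`Pb` is linear, preserves the sum of the coordinates, and restricts to homeomorphisms
`Cone X* ≃ₜ Cone X`, `Rl X* ≃ₜ Rl X` compatible with subcomplexes and simplicial maps.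
-/

set_option autoImplicit false

open scoped goldenRatio Topology
open Finsupp Set Filter

namespace Crest.Agent.N233.PS

variable {V U : Type*} {X : Set V → Prop} {Y : Set U → Prop}

/-- locally finite complexes -/
def LF (X : Set V → Prop) : Prop := ∀ v, {w | X {v, w}}.Finite


theorem finite_car_sub {S : Set V} (hS : S.Finite) : {a : PV X | car a ⊆ S}.Finite := by
  have := hS.to_subtype
  refine Set.Finite.of_injOn (f := fun a (s : S) => a.1 s) (t := univ) (mapsTo_univ _ _)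
    (fun a ha b hb e => PV.ext (Finsupp.ext fun v => ?_)) finite_univ
  by_cases hv : v ∈ S
  · exact congrFun e ⟨v, hv⟩
  · have h1 : a.1 v = 0 := by_contra fun h => hv (ha (mem_car.2 h))
    have h2 : b.1 v = 0 := by_contra fun h => hv (hb (mem_car.2 h))
    rw [h1, h2]

theorem finite_mem_car (hX : Cx X) (hl : LF X) (v : V) : {a : PV X | v ∈ car a}.Finite :=
  (finite_car_sub (hl v)).subset fun a ha _ hw =>
    hX.down (insert_subset ha (singleton_subset_iff.2 hw)) (car_face a)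



theorem Ph_eq_sum (hX : Cx X) (hl : LF X) (μ : PV X → ℝ) (v : V) :
    Ph μ v = ∑ a ∈ (finite_mem_car hX hl v).toFinset, μ a * wt (a.1 v) := by
  refine finsum_eq_sum_of_support_subset _ fun a ha => ?_
  have : a.1 v ≠ 0 := fun h => ha (by simp [h])
  simpa [mem_car] using this

theorem continuous_Ph (hX : Cx X) (hl : LF X) : Continuous (Ph : (PV X → ℝ) → V → ℝ) := by
  refine continuous_pi fun v => ?_
  simp only [Ph_eq_sum hX hl]
  fun_prop

theorem sz_pos (a : PV X) : 0 < sz a.1 := by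
  obtain ⟨v, hv⟩ := car_nonempty a
  refine lt_of_lt_of_le (by linarith [one_le_wt (mem_car.1 hv)]) (Finset.single_le_sum
    (f := fun v => wt (a.1 v)) (fun _ _ => wt_nonneg _) (Finset.mem_coe.1 hv))

/-- the barycentric coordinates of the vertex `a` -/
noncomputable def bar (a : PV X) (v : V) : ℝ := wt (a.1 v) / sz a.1

theorem bar_nonneg (a : PV X) (v : V) : 0 ≤ bar a v := div_nonneg (wt_nonneg _) (sz_pos a).le

theorem bar_ne_zero {a : PV X} {v : V} : bar a v ≠ 0 ↔ v ∈ car a := by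
  simp [bar, (sz_pos a).ne', wt_eq_zero, mem_car]

theorem sum_bar {a : PV X} {K : Finset V} (h : car a ⊆ K) : ∑ v ∈ K, bar a v = 1 := by
  simp only [bar]
  rw [← Finset.sum_div, ← sz_eq (Finset.coe_subset.1 h), div_self (sz_pos a).ne']

/-- the linear map sending the vertex `a` to its barycentric position -/
noncomputable def Pb (μ : PV X → ℝ) : V → ℝ := fun v => ∑ᶠ a, μ a * bar a v

theorem Pb_eq_Ph (μ : PV X → ℝ) : Pb μ = Ph fun a => μ a / sz a.1 := by
  funext v
  exact finsum_congr fun a => by rw [bar]; ring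

theorem Pb_eq {μ : PV X → ℝ} {T : Finset (PV X)} (h : Function.support μ ⊆ T) (v : V) :
    Pb μ v = ∑ a ∈ T, μ a * bar a v :=
  finsum_eq_sum_of_support_subset _ ((Function.support_mul_subset_left _ _).trans h)

theorem scale_mem {ι : Type*} {Z : Set ι → Prop} {μ r : ι → ℝ} (hr : ∀ a, 0 < r a)
    (hμ : μ ∈ Cone Z) : (fun a => μ a * r a) ∈ Cone Z := by
  refine ⟨fun a => mul_nonneg (hμ.1 a) (hr a).le, ?_⟩
  have : (Function.support fun a => μ a * r a) = Function.support μ := by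
    ext a
    simp [(hr a).ne']
  rw [this]
  exact hμ.2

theorem div_mem {μ : PV X → ℝ} (hμ : μ ∈ Cone (ps X).IsClique) :
    (fun a => μ a / sz a.1) ∈ Cone (ps X).IsClique :=
  scale_mem (fun a => inv_pos.2 (sz_pos a)) hμ

theorem Pb_bijOn (hX : Cx X) (h0 : X ∅) : BijOn Pb (Cone (ps X).IsClique) (Cone X) := by
  have h : BijOn (fun (μ : PV X → ℝ) a => μ a / sz a.1) (Cone (ps X).IsClique)
      (Cone (ps X).IsClique) := by
    refine ⟨fun μ => div_mem, fun μ _ ν _ e => funext fun a => ?_, fun μ hμ =>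
      ⟨_, scale_mem sz_pos hμ, funext fun a => mul_div_cancel_right₀ _ (sz_pos a).ne'⟩⟩
    exact (div_left_inj' (sz_pos a).ne').1 (congrFun e a)
  rw [funext Pb_eq_Ph]
  exact (Ph_bijOn hX h0).comp h



theorem Pb_zero : Pb (0 : PV X → ℝ) = 0 := by
  funext v
  simp [Pb]



theorem Pb_smul (r : ℝ) (μ : PV X → ℝ) : Pb (r • μ) = r • Pb μ := by
  funext v
  simp only [Pb, Pi.smul_apply, smul_eq_mul, mul_assoc]
  exact (smul_finsum r fun a => μ a * bar a v).symm



theorem finsum_Pb {μ : PV X → ℝ} (hf : (Function.support μ).Finite) :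
    ∑ᶠ v, Pb μ v = ∑ᶠ a, μ a := by
  classical
  have h1 : Function.support μ ⊆ hf.toFinset := by simp
  have h2 : ∀ a ∈ hf.toFinset, car a ⊆ hf.toFinset.biUnion fun a => a.1.support :=
    fun a ha => Finset.coe_subset.2 (Finset.subset_biUnion_of_mem (fun a => a.1.support) ha)
  rw [finsum_eq_sum_of_support_subset _ h1,
    finsum_eq_sum_of_support_subset (s := hf.toFinset.biUnion fun a => a.1.support)]
  · simp only [Pb_eq h1]
    rw [Finset.sum_comm]
    refine Finset.sum_congr rfl fun a ha => ?_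
    rw [← Finset.mul_sum, sum_bar (h2 a ha), mul_one]
  · intro v hv
    rw [Function.mem_support, Pb_eq h1] at hv
    obtain ⟨a, ha, hv⟩ := Finset.exists_ne_zero_of_sum_ne_zero hv
    exact h2 a ha (bar_ne_zero.1 (right_ne_zero_of_mul hv))

theorem continuous_Pb (hX : Cx X) (hl : LF X) : Continuous (Pb : (PV X → ℝ) → V → ℝ) := by
  rw [funext Pb_eq_Ph]
  exact (continuous_Ph hX hl).comp (by fun_prop)

/-- the inverse of `Pb` -/
noncomputable def Qb (X : Set V → Prop) : (V → ℝ) → PV X → ℝ :=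
  Function.invFunOn Pb (Cone (ps X).IsClique)

theorem Qb_mem (hX : Cx X) (h0 : X ∅) {x : V → ℝ} (hx : x ∈ Cone X) :
    Qb X x ∈ Cone (ps X).IsClique := Function.invFunOn_mem ((Pb_bijOn hX h0).surjOn hx)

theorem Pb_Qb (hX : Cx X) (h0 : X ∅) {x : V → ℝ} (hx : x ∈ Cone X) : Pb (Qb X x) = x :=
  Function.invFunOn_eq ((Pb_bijOn hX h0).surjOn hx)

theorem Qb_Pb (hX : Cx X) (h0 : X ∅) {μ : PV X → ℝ} (hμ : μ ∈ Cone (ps X).IsClique) :
    Qb X (Pb μ) = μ := (Pb_bijOn hX h0).injOn.leftInvOn_invFunOn hμ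

theorem continuousOn_Qb (hX : Cx X) (h0 : X ∅) (hl : LF X) : ContinuousOn (Qb X) (Cone X) := by
  intro x hx
  rw [ContinuousWithinAt, tendsto_iff_ultrafilter]
  intro g hg
  have h1 : ∀ᶠ y in (g : Filter (V → ℝ)), y ∈ Cone X := hg self_mem_nhdsWithin
  have h2 : (g : Filter (V → ℝ)) ≤ 𝓝 x := hg.trans nhdsWithin_le_nhds
  have h3 : ∀ a, ∃ m, Tendsto (fun y => Qb X y a) g (𝓝 m) := by
    intro a
    obtain ⟨v, hv⟩ := car_nonempty a
    have h4 : ∀ᶠ y in (g : Filter (V → ℝ)), y v < x v + 1 :=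
      h2 ((continuous_apply v).continuousAt.eventually_lt continuousAt_const (lt_add_one _))
    obtain ⟨m, -, hm⟩ := (isCompact_Icc (a := (0 : ℝ)) (b := (x v + 1) * sz a.1)).ultrafilter_le_nhds
      (g.map fun y => Qb X y a) (by
        rw [Ultrafilter.coe_map, le_principal_iff, mem_map]
        filter_upwards [h1, h4] with y hy hy'
        refine ⟨(Qb_mem hX h0 hy).1 a, ?_⟩
        have := le_Ph hX (div_mem (Qb_mem hX h0 hy)) hv
        rw [← Pb_eq_Ph, Pb_Qb hX h0 hy] at this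
        exact (div_le_iff₀ (sz_pos a)).1 (this.trans hy'.le))
    exact ⟨m, hm⟩
  choose m hm using h3
  have h4 : Tendsto (Qb X) g (𝓝 m) := tendsto_pi_nhds.2 hm
  have h5 : m ∈ Cone (ps X).IsClique :=
    (cx_ps hX).isClosed_cone.mem_of_tendsto h4 (h1.mono fun y hy => Qb_mem hX h0 hy)
  have h6 : Pb m = x :=
    tendsto_nhds_unique (((continuous_Pb hX hl).tendsto m).comp h4)
      (Tendsto.congr' (h1.mono fun y hy => (Pb_Qb hX h0 hy).symm) h2)
  rwa [← h6, Qb_Pb hX h0 h5]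

/-- corresponding subsets of the two cones are homeomorphic -/
noncomputable def subHomeo (hX : Cx X) (h0 : X ∅) (hl : LF X) {A : Set (PV X → ℝ)}
    {B : Set (V → ℝ)} (hA : A ⊆ Cone (ps X).IsClique) (hB : B ⊆ Cone X)
    (h : ∀ μ ∈ Cone (ps X).IsClique, μ ∈ A ↔ Pb μ ∈ B) : A ≃ₜ B where
  toFun μ := ⟨Pb μ.1, (h _ (hA μ.2)).1 μ.2⟩
  invFun x := ⟨Qb X x.1, (h _ (Qb_mem hX h0 (hB x.2))).2 (by
    rw [Pb_Qb hX h0 (hB x.2)]; exact x.2)⟩
  left_inv μ := Subtype.ext (Qb_Pb hX h0 (hA μ.2))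
  right_inv x := Subtype.ext (Pb_Qb hX h0 (hB x.2))
  continuous_toFun := ((continuous_Pb hX hl).comp continuous_subtype_val).subtype_mk _
  continuous_invFun := ((continuousOn_Qb hX h0 hl).mono hB).domRestrict.subtype_mk _

/-- the cones over `X*` and `X` are homeomorphic by the linear map `Pb` -/
noncomputable def coneHomeo (hX : Cx X) (h0 : X ∅) (hl : LF X) :
    Cone (ps X).IsClique ≃ₜ Cone X :=
  subHomeo hX h0 hl subset_rfl subset_rfl fun _ hμ =>
    ⟨fun _ => (Pb_bijOn hX h0).mapsTo hμ, fun _ => hμ⟩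

theorem Pb_mem_Rl (hX : Cx X) (h0 : X ∅) {μ : PV X → ℝ} (hμ : μ ∈ Cone (ps X).IsClique) :
    μ ∈ Rl (ps X).IsClique ↔ Pb μ ∈ Rl X := by
  simp only [Rl, mem_ofPred_eq, hμ, (Pb_bijOn hX h0).mapsTo hμ, true_and,
    finsum_Pb ((cx_ps hX).finite hμ.2)]

/-- `|X*| ≃ₜ |X|` -/
noncomputable def rlHomeo (hX : Cx X) (h0 : X ∅) (hl : LF X) : Rl (ps X).IsClique ≃ₜ Rl X :=
  subHomeo hX h0 hl (fun _ h => h.1) (fun _ h => h.1) fun _ hμ => Pb_mem_Rl hX h0 hμ

@[simp] theorem coe_coneHomeo (hX : Cx X) (h0 : X ∅) (hl : LF X) (μ : Cone (ps X).IsClique) :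
    (coneHomeo hX h0 hl μ : V → ℝ) = Pb μ.1 := rfl

@[simp] theorem coe_rlHomeo (hX : Cx X) (h0 : X ∅) (hl : LF X) (μ : Rl (ps X).IsClique) :
    (rlHomeo hX h0 hl μ : V → ℝ) = Pb μ.1 := rfl

/-! ### naturality -/


theorem bar_pm_of_injective {f : V → U} (hf : Nd X Y f) (hi : Function.Injective f) (a : PV X)
    (v : V) : bar (pm hf a) (f v) = bar a v := by
  rw [bar, bar, show (pm hf a).1 (f v) = a.1 v from mapDomain_apply hi _ _]
  exact congrArg _ (sz_map (hf _ a.2.1).1)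

/-- `Pb` commutes with isomorphisms of complexes -/
theorem Pb_iso (e : V ≃ U) (h : Nd X Y e) (h' : Nd Y X e.symm) (ν : PV Y → ℝ) :
    Pb (ν ∘ pm h) = Pb ν ∘ e := by
  funext v
  rw [Function.comp_apply, Pb, Pb, ← finsum_comp_equiv (pmIso e h h').toEquiv]
  exact finsum_congr fun a => by
    rw [← bar_pm_of_injective h e.injective a v]
    rfl

/-- the linear extension of a vertex map -/
noncomputable def pf (f : V → U) (x : V → ℝ) : U → ℝ := fun u => ∑ᶠ (v) (_ : f v = u), x v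







end Crest.Agent.N233.PS
end

-- ▼ part N233/PS/Tr
section

/-!
# Row 233, block PS (helper98): transport of fillings and hyperbolicity

`Pb` and its inverse `Qb` are Lipschitz for the sup norms on the cones, so a filling of the cone on
`X` is a filling of the cone on the flag complex `X*` (`Fill.sub`).  For a tree of chambers with
disjoint walls the group `W (X*) ⋊ F` is hyperbolic (`hyp_ps`).
-/

set_option autoImplicit false

open scoped goldenRatio Topology ENNReal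
open Finsupp Set Filter

namespace Crest.Agent.N233.PS

variable {V U : Type*} {X : Set V → Prop} {Y : Set U → Prop}

theorem Cx.card_le (hX : Cx X) {K : Finset V} (hK : X K) : K.card ≤ 4 := by
  obtain ⟨p, hp⟩ := hX.dim hK
  simpa using Finset.card_le_card_of_injOn p (t := Finset.univ) (fun _ _ => by simp) hp

theorem wt_le (k : Fin 8) : wt k ≤ 8 := by
  have h : ∀ k : Fin 8, w0 k ≤ 2 ∧ w1 k ≤ 3 := by decide
  have h0 : (w0 k : ℝ) ≤ 2 := by exact_mod_cast (h k).1
  have h1 : (w1 k : ℝ) ≤ 3 := by exact_mod_cast (h k).2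
  have h2 : (0 : ℝ) ≤ w1 k := Nat.cast_nonneg _
  have := Real.goldenRatio_lt_two
  have := Real.goldenRatio_pos
  unfold wt
  nlinarith

theorem sum_le_of_card {ι : Type*} {K : Finset ι} {n : ℕ} (hK : K.card ≤ n) {f : ι → ℝ} {c : ℝ}
    (hc : 0 ≤ c) (h : ∀ v ∈ K, f v ≤ c) : ∑ v ∈ K, f v ≤ n * c := by
  refine (Finset.sum_le_card_nsmul _ _ _ h).trans ?_
  rw [nsmul_eq_mul]
  exact mul_le_mul_of_nonneg_right (by exact_mod_cast hK) hc

theorem sz_le (hX : Cx X) (a : PV X) : sz a.1 ≤ 32 := by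
  have := sum_le_of_card (hX.card_le (car_face a)) (f := fun v => wt (a.1 v)) (c := 8)
    (by norm_num) fun v _ => wt_le _
  rw [sz_eq subset_rfl]
  norm_num at this
  exact this

theorem el_le (hX : Cx X) {K : Finset V} (hK : X K) (a : PV X) {z : V → ℝ} {ε : ℝ} (hε : 0 ≤ ε)
    (hz : ∀ v, |z v| ≤ ε) : el K a.1 z ≤ 260 * ε := by
  have h1 := sz_le hX a
  have h2 := sz_nonneg a.1
  have h3 := Real.goldenRatio_lt_two
  have h4 := Real.goldenRatio_pos
  have := sum_le_of_card (hX.card_le hK)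
    (f := fun v => (φ ^ 4 * wt (a.1 v) - (φ * sz a.1 + 1)) * z v) (c := 65 * ε)
    (by positivity) fun v _ => by
      refine (le_abs_self _).trans ?_
      rw [abs_mul]
      refine mul_le_mul (abs_le.2 ⟨?_, ?_⟩) (hz v) (abs_nonneg _) (by norm_num)
      · have := wt_nonneg (a.1 v)
        rw [phi4]
        nlinarith
      · have := wt_le (a.1 v)
        have := wt_nonneg (a.1 v)
        rw [phi4]
        nlinarith
  refine this.trans (le_of_eq ?_)
  push_cast
  ring

theorem Ph_sub_le (hX : Cx X) {μ ν : PV X → ℝ} (hμ : μ ∈ Cone (ps X).IsClique)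
    (hν : ν ∈ Cone (ps X).IsClique) {K : Finset V} (hK : X K)
    (hm : Function.support (Ph μ) ⊆ K) (hn : Function.support (Ph ν) ⊆ K) {ε δ : ℝ} (hε : 0 ≤ ε)
    (hδ : 0 ≤ δ) (e : ∀ v, |Ph μ v - Ph ν v| ≤ ε) {T : Finset (PV X)}
    (h1 : Function.support μ ⊆ T) (h2 : Function.support ν ⊆ T)
    (hs : ∑ a ∈ T, ν a - ∑ a ∈ T, μ a ≤ δ) (a : PV X) : μ a - ν a ≤ 260 * ε + 33 * δ := by
  classical
  by_cases ha : μ a = 0
  · have := hν.1 a
    rw [ha]
    nlinarith
  obtain ⟨p, hp⟩ := hX.dim hK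
  have hm : ∀ c, μ c ≠ 0 → car c ⊆ K := fun c hc v hv => hm ((Ph_ne_zero hX hμ).2 ⟨c, hc, hv⟩)
  have hn : ∀ c, ν c ≠ 0 → car c ⊆ K := fun c hc v hv => hn ((Ph_ne_zero hX hν).2 ⟨c, hc, hv⟩)
  have e1 : el K a.1 (Ph μ) =
      ∑ c ∈ T, (ht a.1 * μ c + if c = a then (φ + 1) * μ a else 0) := by
    rw [Ph_eq h1, map_sum]
    refine Finset.sum_congr rfl fun c _ => ?_
    by_cases hc : μ c = 0
    · have : c ≠ a := fun h => ha (h ▸ hc)
      simp [hc, this]
    rw [map_smul, el_pos (Finset.coe_subset.1 (hm a ha)) (Finset.coe_subset.1 (hm c hc)),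
      smul_eq_mul]
    split_ifs with h
    · rw [h, a.2.2.RR_sub]
      ring
    · rw [(hμ.2 ha hc (Ne.symm h)).2.RR_sub]
      ring
  have e2 : el K a.1 (Ph ν) ≤
      ∑ c ∈ T, (ht a.1 * ν c + if c = a then (φ + 1) * ν a else 0) := by
    rw [Ph_eq h2, map_sum]
    refine Finset.sum_le_sum fun c _ => ?_
    by_cases hc : ν c = 0
    · by_cases h : c = a
      · simp [← h, hc]
      · simp [hc, h]
    rw [map_smul, el_pos (Finset.coe_subset.1 (hm a ha)) (Finset.coe_subset.1 (hn c hc)),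
      smul_eq_mul]
    split_ifs with h
    · rw [h, a.2.2.RR_sub]
      exact le_of_eq (by ring)
    · have := loc_le hp (hm a ha) (hn c hc) a.2.2 c.2.2 fun e => h (PV.ext e.symm)
      have h3 := hν.1 c
      nlinarith
  have haT : a ∈ T := h1 ha
  have e3 := el_le hX hK a hε (z := Ph μ - Ph ν) e
  rw [map_sub, e1] at e3
  simp only [Finset.sum_add_distrib, ← Finset.mul_sum, Finset.sum_ite_eq', haT, if_true] at e2 e3
  have h3 := ht_pos a.1
  have h4 := Real.goldenRatio_pos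
  have h5 : ht a.1 ≤ 33 := by
    have := sz_le hX a
    have := Real.goldenRatio_lt_two
    unfold ht
    linarith
  have h6 : (φ + 1) * (μ a - ν a) ≤ 260 * ε + 33 * δ := by
    nlinarith [mul_le_mul_of_nonneg_left hs h3.le, mul_le_mul_of_nonneg_right h5 hδ]
  by_contra hlt
  nlinarith

theorem Ph_lip_face (hX : Cx X) {μ ν : PV X → ℝ} (hμ : μ ∈ Cone (ps X).IsClique)
    (hν : ν ∈ Cone (ps X).IsClique) {K : Set V} (hK : X K)
    (hm : Function.support (Ph μ) ⊆ K) (hn : Function.support (Ph ν) ⊆ K) {ε : ℝ} (hε : 0 ≤ ε)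
    (e : ∀ v, |Ph μ v - Ph ν v| ≤ ε) (a : PV X) : |μ a - ν a| ≤ 35000 * ε := by
  classical
  lift K to Finset V using hX.finite hK
  have hf := ((cx_ps hX).finite hμ.2).union ((cx_ps hX).finite hν.2)
  obtain ⟨T, h1, h2⟩ : ∃ T : Finset (PV X), Function.support μ ⊆ T ∧ Function.support ν ⊆ T :=
    ⟨hf.toFinset, by simp, by simp⟩
  clear hf
  wlog h : ∑ a ∈ T, ν a ≤ ∑ a ∈ T, μ a generalizing μ ν
  · rw [abs_sub_comm]
    exact this hν hμ (fun v => by rw [abs_sub_comm]; exact e v) hn hm h2 h1 (not_le.1 h).le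
  have h3 := Ph_sub_le hX hμ hν hK hm hn hε le_rfl e h1 h2 (sub_nonpos.2 h)
  have h4 : ∑ a ∈ T, μ a - ∑ a ∈ T, ν a ≤ 1040 * ε := by
    have h5 := sum_le_of_card (K := T.filter fun a => μ a ≠ 0) (n := 4)
      (card_le hX _ (hμ.2.subset fun a ha => by simpa using (Finset.mem_filter.1 ha).2))
      (f := fun a => μ a - ν a) (c := 260 * ε) (by positivity) fun a _ => by simpa using h3 a
    rw [Finset.sum_sub_distrib, Finset.sum_filter_ne_zero] at h5
    have h6 : ∑ a ∈ T with μ a ≠ 0, ν a ≤ ∑ a ∈ T, ν a :=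
      Finset.sum_le_sum_of_subset_of_nonneg (Finset.filter_subset _ _) fun a _ _ => hν.1 a
    push_cast at h5
    linarith
  have h5 := Ph_sub_le hX hν hμ hK hn hm hε (by positivity)
    (fun v => by rw [abs_sub_comm]; exact e v) h2 h1 h4 a
  have h6 := h3 a
  rw [abs_le]
  constructor <;> linarith

theorem Ph_lip (hX : Cx X) (h0 : X ∅) {μ ν : PV X → ℝ} (hμ : μ ∈ Cone (ps X).IsClique)
    (hν : ν ∈ Cone (ps X).IsClique) {ε : ℝ} (hε : 0 ≤ ε)
    (e : ∀ v, |Ph μ v - Ph ν v| ≤ ε) (a : PV X) : |μ a - ν a| ≤ 70000 * ε := by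
  classical
  have hx := Ph_mem hX h0 hμ
  have hy := Ph_mem hX h0 hν
  have s1 : (Function.support fun v => if Ph ν v = 0 then 0 else Ph μ v) ⊆
      Function.support (Ph μ) := fun v hv h => hv (by simp [h])
  have s2 : (Function.support fun v => if Ph ν v = 0 then 0 else Ph μ v) ⊆
      Function.support (Ph ν) := fun v hv h => hv (by simp [h])
  obtain ⟨ξ, hξ, e'⟩ := Ph_surjOn hX (show (fun v => if Ph ν v = 0 then 0 else Ph μ v) ∈ Cone X from
    ⟨fun v => by beta_reduce; split_ifs; exacts [le_rfl, hx.1 v], hX.down s1 hx.2⟩)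
  have h1 := Ph_lip_face hX hμ hξ hx.2 subset_rfl (e' ▸ s1) hε (fun v => by
    rw [e']
    by_cases h : Ph ν v = 0
    · simpa [h] using e v
    · simpa [h] using hε) a
  have h2 := Ph_lip_face hX hξ hν hy.2 (e' ▸ s2) subset_rfl hε (fun v => by
    rw [e']
    by_cases h : Ph ν v = 0
    · simpa [h] using hε
    · simpa [h] using e v) a
  have := abs_sub_le (μ a) (ξ a) (ν a)
  linarith

/-- the inverse of `Pb` is Lipschitz for the sup norms -/
theorem Qb_lip (hX : Cx X) (h0 : X ∅) {x y : V → ℝ} (hx : x ∈ Cone X) (hy : y ∈ Cone X) {ε : ℝ}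
    (hε : 0 ≤ ε) (e : ∀ v, |x v - y v| ≤ ε) (a : PV X) :
    |Qb X x a - Qb X y a| ≤ 2240000 * ε := by
  have h := Ph_lip hX h0 (div_mem (Qb_mem hX h0 hx)) (div_mem (Qb_mem hX h0 hy)) hε
    (by rw [← Pb_eq_Ph, ← Pb_eq_Ph, Pb_Qb hX h0 hx, Pb_Qb hX h0 hy]; exact e) a
  rw [← sub_div, abs_div, abs_of_pos (sz_pos a), div_le_iff₀ (sz_pos a)] at h
  have := sz_le hX a
  nlinarith

theorem bar_le_one (a : PV X) (v : V) : bar a v ≤ 1 := by
  classical
  rw [← sum_bar (a := a) (K := insert v a.1.support) (by simp [car])]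
  exact Finset.single_le_sum (fun w _ => bar_nonneg a w) (Finset.mem_insert_self _ _)

/-- `Pb` is Lipschitz for the sup norms -/
theorem Pb_lip (hX : Cx X) {μ ν : PV X → ℝ} (hμ : μ ∈ Cone (ps X).IsClique)
    (hν : ν ∈ Cone (ps X).IsClique) {ε : ℝ} (hε : 0 ≤ ε) (e : ∀ a, |μ a - ν a| ≤ ε) (v : V) :
    |Pb μ v - Pb ν v| ≤ 8 * ε := by
  classical
  have h1 := (cx_ps hX).finite hμ.2
  have h2 := (cx_ps hX).finite hν.2
  rw [Pb_eq (T := h1.toFinset ∪ h2.toFinset) (by simp),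
    Pb_eq (μ := ν) (T := h1.toFinset ∪ h2.toFinset) (by simp), ← Finset.sum_sub_distrib]
  refine (Finset.abs_sum_le_sum_abs _ _).trans ((sum_le_of_card (n := 8) ?_ hε fun a _ => ?_).trans
    (by norm_num))
  · have := card_le hX h1.toFinset (by simpa using hμ.2)
    have := card_le hX h2.toFinset (by simpa using hν.2)
    have := Finset.card_union_le h1.toFinset h2.toFinset
    omega
  · rw [← sub_mul, abs_mul, abs_of_nonneg (bar_nonneg a v)]
    exact (mul_le_of_le_one_right (abs_nonneg _) (bar_le_one a v)).trans (e a)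

theorem zero_mem_cone (h0 : X ∅) : (0 : V → ℝ) ∈ Cone X := ⟨fun _ => le_rfl, by simpa using h0⟩

theorem smul_mem_cone {r : ℝ} (hr : 0 < r) {x : V → ℝ} (hx : x ∈ Cone X) : r • x ∈ Cone X := by
  have := scale_mem (r := fun _ => r) (fun _ => hr) hx
  rwa [show (fun a => x a * r) = r • x from funext fun a => mul_comm _ _] at this

theorem Qb_zero (hX : Cx X) (h0 : X ∅) : Qb X 0 = 0 := by
  rw [← Pb_zero (X := X), Qb_Pb hX h0 (zero_mem_cone (by simp))]


theorem Qb_iso (hX : Cx X) (h0 : X ∅) (hY : Cx Y) (e : V ≃ U) (h : Nd X Y e)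
    (h' : Nd Y X e.symm) {y : U → ℝ} (hy : y ∈ Cone Y) : Qb Y y ∘ pm h = Qb X (y ∘ e) := by
  have hY0 : Y ∅ := hY.down (empty_subset _) hy.2
  have h1 := Qb_mem hY hY0 hy
  have h2 : Qb Y y ∘ pm h ∈ Cone (ps X).IsClique := ⟨fun a => h1.1 _, fun a ha b hb hne =>
    (pmIso e h h').map_rel_iff.1 (h1.2 ha hb fun e' => hne ((pmIso e h h').injective e'))⟩
  rw [← Qb_Pb hX h0 h2, Pb_iso e h h', Pb_Qb hY hY0 hy]


/-! ### group actions -/

section act

variable {F : Type*} [Group F] (σ : F →* Equiv.Perm V) (hσ : ∀ f s, X s → X (σ f '' s))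

include hσ in
theorem nd_act (f : F) : Nd X X (σ f) := fun s hs => ⟨(σ f).injective.injOn, hσ f s hs⟩

include hσ in
theorem nd_act' (f : F) : Nd X X (σ f).symm := by
  have := nd_act σ hσ f⁻¹
  rwa [map_inv] at this

/-- the induced action on the subdivision -/
noncomputable def psHom : F →* (ps X ≃g ps X) :=
  MonoidHom.mk' (fun f => pmIso (σ f) (nd_act σ hσ f) (nd_act' σ hσ f)) fun f g =>
    RelIso.ext fun a => (pm_congr (nd_act σ hσ (f * g)) ((nd_act σ hσ f).comp (nd_act σ hσ g))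
      fun v _ => by simp).trans (pm_comp (nd_act σ hσ f) (nd_act σ hσ g) a)


theorem car_psHom (f : F) (a : PV X) : car (psHom σ hσ f a) = σ f '' car a :=
  car_pm (nd_act σ hσ f) a

end act

/-! ### the sup norm -/

section li

variable {S : Type} {X : Set S → Prop}

open Classical in
/-- a bounded function as an element of `LI` -/
noncomputable def toLI (f : S → ℝ) : LI S := if h : Memℓp f ∞ then ⟨f, h⟩ else 0

theorem coe_toLI {f : S → ℝ} (h : (Function.support f).Finite) : ⇑(toLI f) = f := by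
  have : Memℓp f ∞ := (memℓp_zero h).of_exponent_ge zero_le
  rw [toLI, dif_pos this]

theorem toLI_coe (y : LI S) : toLI y = y := by
  rw [toLI, dif_pos (lp.memℓp y)]

theorem mem_cone_iff {y : LI S} : y ∈ N233.Cone X ↔ ⇑y ∈ Cone X := Iff.rfl

theorem mem_cone_fl (hX : Cx X) {μ : LI (PV X)} :
    μ ∈ N233.Cone (Fl (ps X)) ↔ ⇑μ ∈ Cone (ps X).IsClique :=
  ⟨fun h => ⟨h.1, h.2.2⟩, fun h => ⟨h.1, (cx_ps hX).finite h.2, h.2⟩⟩

theorem abs_sub_le_norm (y z : LI S) (s : S) : |y s - z s| ≤ ‖y - z‖ := by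
  simpa using lp.norm_apply_le_norm ENNReal.top_ne_zero (y - z) s

theorem norm_sub_le_of {y z : LI S} {C : ℝ} (hC : 0 ≤ C) (h : ∀ s, |y s - z s| ≤ C) :
    ‖y - z‖ ≤ C :=
  lp.norm_le_of_forall_le hC fun s => by simpa using h s

/-- `Cone X → Cone X*` -/
noncomputable def up (X : Set S → Prop) (y : LI S) : LI (PV X) := toLI ((8 : ℝ) • Qb X y)

/-- `Cone X* → Cone X` -/
noncomputable def dn (μ : LI (PV X)) : LI S := toLI ((8 : ℝ)⁻¹ • Pb μ)

theorem coe_up (hX : Cx X) {y : LI S} (hy : y ∈ N233.Cone X) : ⇑(up X y) = (8 : ℝ) • Qb X y :=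
  coe_toLI ((cx_ps hX).finite (smul_mem_cone (by norm_num)
    (Qb_mem hX (hX.down (empty_subset _) hy.2) hy)).2)

theorem coe_dn (hX : Cx X) (h0 : X ∅) {μ : LI (PV X)} (hμ : μ ∈ N233.Cone (Fl (ps X))) :
    ⇑(dn μ) = (8 : ℝ)⁻¹ • Pb μ :=
  coe_toLI (hX.finite (smul_mem_cone (by norm_num)
    ((Pb_bijOn hX h0).mapsTo ((mem_cone_fl hX).1 hμ))).2)

theorem up_mem (hX : Cx X) {y : LI S} (hy : y ∈ N233.Cone X) : up X y ∈ N233.Cone (Fl (ps X)) := by
  rw [mem_cone_fl hX, coe_up hX hy]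
  exact smul_mem_cone (by norm_num) (Qb_mem hX (hX.down (empty_subset _) hy.2) hy)

theorem dn_mem (hX : Cx X) (h0 : X ∅) {μ : LI (PV X)} (hμ : μ ∈ N233.Cone (Fl (ps X))) :
    dn μ ∈ N233.Cone X := by
  rw [mem_cone_iff, coe_dn hX h0 hμ]
  exact smul_mem_cone (by norm_num) ((Pb_bijOn hX h0).mapsTo ((mem_cone_fl hX).1 hμ))

theorem dn_up (hX : Cx X) {y : LI S} (hy : y ∈ N233.Cone X) : dn (up X y) = y := by
  have h0 := hX.down (empty_subset _) hy.2
  rw [dn, coe_up hX hy, Pb_smul, Pb_Qb hX h0 hy, inv_smul_smul₀ (by norm_num), toLI_coe]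

theorem up_dn (hX : Cx X) (h0 : X ∅) {μ : LI (PV X)} (hμ : μ ∈ N233.Cone (Fl (ps X))) :
    up X (dn μ) = μ := by
  rw [up, coe_dn hX h0 hμ, ← Pb_smul, Qb_Pb hX h0 (smul_mem_cone (by norm_num)
    ((mem_cone_fl hX).1 hμ)), smul_inv_smul₀ (by norm_num), toLI_coe]

theorem up_zero (hX : Cx X) (h0 : X ∅) : up X 0 = 0 := by
  rw [up, lp.coeFn_zero, Qb_zero hX h0, smul_zero]
  exact toLI_coe 0

theorem dn_zero : dn (0 : LI (PV X)) = 0 := by
  rw [dn, lp.coeFn_zero, Pb_zero, smul_zero]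
  exact toLI_coe 0

theorem up_eq_zero (hX : Cx X) {y : LI S} (hy : y ∈ N233.Cone X) : up X y = 0 ↔ y = 0 :=
  ⟨fun h => by rw [← dn_up hX hy, h, dn_zero], fun h => by
    rw [h, up_zero hX (hX.down (empty_subset _) hy.2)]⟩

theorem dn_eq_zero (hX : Cx X) (h0 : X ∅) {μ : LI (PV X)} (hμ : μ ∈ N233.Cone (Fl (ps X))) :
    dn μ = 0 ↔ μ = 0 :=
  ⟨fun h => by rw [← up_dn hX h0 hμ, h, up_zero hX h0], fun h => by rw [h, dn_zero]⟩


theorem norm_up_sub (hX : Cx X) {y z : LI S} (hy : y ∈ N233.Cone X) (hz : z ∈ N233.Cone X) :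
    ‖up X y - up X z‖ ≤ 17920000 * ‖y - z‖ := by
  refine norm_sub_le_of (by positivity) fun a => ?_
  have := Qb_lip hX (hX.down (empty_subset _) hy.2) hy hz (norm_nonneg _) (abs_sub_le_norm y z) a
  rw [coe_up hX hy, coe_up hX hz, Pi.smul_apply, Pi.smul_apply, smul_eq_mul, smul_eq_mul,
    ← mul_sub, abs_mul, abs_of_pos (by norm_num : (0 : ℝ) < 8)]
  linarith

theorem norm_dn_sub (hX : Cx X) (h0 : X ∅) {μ ν : LI (PV X)} (hμ : μ ∈ N233.Cone (Fl (ps X)))
    (hν : ν ∈ N233.Cone (Fl (ps X))) : ‖dn μ - dn ν‖ ≤ ‖μ - ν‖ := by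
  refine norm_sub_le_of (norm_nonneg _) fun v => ?_
  have := Pb_lip hX ((mem_cone_fl hX).1 hμ) ((mem_cone_fl hX).1 hν) (norm_nonneg _)
    (abs_sub_le_norm μ ν) v
  rw [coe_dn hX h0 hμ, coe_dn hX h0 hν, Pi.smul_apply, Pi.smul_apply, smul_eq_mul, smul_eq_mul,
    ← mul_sub, abs_mul, abs_of_pos (by norm_num : (0 : ℝ) < 8⁻¹)]
  linarith

theorem continuousOn_up (hX : Cx X) : ContinuousOn (up X) (N233.Cone X) :=
  (LipschitzOnWith.of_dist_le_mul (K := 17920000) fun y hy z hz => by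
    simpa [dist_eq_norm] using norm_up_sub hX hy hz).continuousOn

theorem continuousOn_dn (hX : Cx X) (h0 : X ∅) :
    ContinuousOn (dn (X := X)) (N233.Cone (Fl (ps X))) :=
  (LipschitzOnWith.of_dist_le_mul (K := 1) fun y hy z hz => by
    simpa [dist_eq_norm] using norm_dn_sub hX h0 hy hz).continuousOn

theorem norm_le_up (hX : Cx X) {y : LI S} (hy : y ∈ N233.Cone X) : ‖y‖ ≤ ‖up X y‖ := by
  have h0 := hX.down (empty_subset _) hy.2
  have := norm_dn_sub hX h0 (up_mem hX hy) (ν := 0) ((mem_cone_fl hX).2 (zero_mem_cone (by simp)))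
  rwa [dn_up hX hy, dn_zero, sub_zero, sub_zero] at this


/-- `up` commutes with isomorphisms of complexes -/
theorem up_iso {S' : Type} {Y : Set S' → Prop} (hX : Cx X) (hY : Cx Y) (e : S ≃ S') (h : Nd X Y e)
    (h' : Nd Y X e.symm) {x : LI S} {y : LI S'} (hx : x ∈ N233.Cone X) (hy : y ∈ N233.Cone Y)
    (hxy : ∀ s, y (e s) = x s) (a : PV X) : up Y y (pm h a) = up X x a := by
  have := congrFun (Qb_iso hX (hX.down (empty_subset _) hx.2) hY e h h' hy) a
  rw [show ⇑y ∘ e = x from funext hxy] at this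
  rw [coe_up hX hx, coe_up hY hy, Pi.smul_apply, Pi.smul_apply, ← this]
  rfl

variable {F T : Type} [Group F] [TopologicalSpace T] [MulAction F T]

/-- **a filling of the cone on `X` is a filling of the cone on the flag complex `X*`** -/
noncomputable def _root_.Crest.Agent.N233.Fill.sub (hX : Cx X) (σ : F →* Equiv.Perm S)
    (hσ : ∀ f s, X s → X (σ f '' s)) (P : Fill X F (fun f s => σ f s) T) :
    Fill (Fl (ps X)) F (fun f a => psHom σ hσ f a) T :=
  have h0 : X ∅ := hX.down (empty_subset _) (P.p_mem (Classical.arbitrary _)).2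
  { X := P.X
    free := P.free
    p := ⟨fun x => up X (P.p x), (continuousOn_up hX).comp_continuous P.p.continuous P.p_mem⟩
    p_mem := fun x => up_mem hX (P.p_mem x)
    p_smul := fun f x a => up_iso hX hX (σ f) (nd_act σ hσ f) (nd_act' σ hσ f) (P.p_mem x)
      (P.p_mem _) (P.p_smul f x) a
    j := fun μ => P.j (dn μ)
    j_cont := P.j_cont.comp ((continuousOn_dn hX h0).mono sdiff_subset) fun μ hμ =>
      ⟨dn_mem hX h0 hμ.1, fun h => hμ.2 ((dn_eq_zero hX h0 hμ.1).1 h)⟩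
    pj := fun μ hμ hne => by
      change up X (P.p (P.j (dn μ))) = μ
      rw [P.pj _ (dn_mem hX h0 hμ) fun h => hne ((dn_eq_zero hX h0 hμ).1 h), up_dn hX h0 hμ]
    jp := fun x hx => by
      change P.j (dn (up X (P.p x))) = x
      rw [dn_up hX (P.p_mem x), P.jp x fun h => hx ((up_eq_zero hX (P.p_mem x)).2 h)]
    cpt := P.cpt.imp fun K hK => ⟨hK.1, fun x hx => hK.2 x ((norm_le_up hX (P.p_mem x)).trans hx)⟩
    a := P.a
    b := P.b
    h := P.h
    a_smul := P.a_smul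
    b_smul := P.b_smul
    h_smul := P.h_smul
    h_zero := P.h_zero
    h_one := P.h_one }

end li

/-! ### trees of chambers -/

section mir

open Hyp

variable {S N Ed : Type} {X : Set S → Prop} {src tgt : Ed → N}

/-- the chambers containing a vertex of the subdivision -/
def Ts (T : S → Set N) (a : PV X) : Set N := {t | ∀ s ∈ car a, t ∈ T s}

variable {T : S → Set N}

theorem wl_Ts {e : Ed} {a : PV X} :
    Wl src tgt (Ts T) e a ↔ car a ⊆ {s | Wl src tgt T e s} :=
  ⟨fun h s hs => ⟨h.1 s hs, h.2 s hs⟩, fun h => ⟨fun _ hs => (h hs).1, fun _ hs => (h hs).2⟩⟩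

theorem mir_ps (hc : Coc src tgt)
    (hn : ∀ t t', Relation.ReflTransGen (fun u v => ∃ e, End src tgt e u v) t t')
    (h1 : ∀ s, X s → ∃ t, ∀ v ∈ s, t ∈ T v)
    (h2 : ∀ s, ∀ t ∈ T s, ∀ t' ∈ T s, t = t' ∨ ∃ e, End src tgt e t t') :
    Mir (ps X) src tgt (Ts T) where
  coc := hc
  conn := hn
  Tconn a t ht t' ht' := by
    obtain ⟨v, hv⟩ := car_nonempty a
    rcases h2 v t (ht v hv) t' (ht' v hv) with rfl | ⟨e, he⟩
    · rfl
    · refine .single ⟨e, he, ?_⟩
      rcases he with ⟨rfl, rfl⟩ | ⟨rfl, rfl⟩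
      exacts [⟨ht, ht'⟩, ⟨ht', ht⟩]
  Tne a := h1 _ (car_face a)
  Tadj a b h := (h1 _ h.1).imp fun _ ht => ⟨fun s hs => ht s (Or.inl hs), fun s hs => ht s (Or.inr hs)⟩

theorem noSq_cone_ps (hX : Cx X) (h3 : ∀ e e' s, Wl src tgt T e s → Wl src tgt T e' s → e = e') :
    NoSq (cone (ps X) src tgt (Ts T)) := by
  refine noSq_cone (noSq_ps hX) (fun e e' a _ hne h h' => ?_) fun e a b d hb hd hne hab had => ?_
  · obtain ⟨v, hv⟩ := car_nonempty a
    exact absurd (h3 e e' v (wl_Ts.1 h hv) (wl_Ts.1 h' hv)) hne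
  · rw [or_iff_not_imp_left]
    exact fun hbd => wl_Ts.2 (two_convex hX (wl_Ts.1 hb) (wl_Ts.1 hd) hne hbd hab had)


end mir

end Crest.Agent.N233.PS
end

-- ▼ part N233/Hi/Hy

/-!
# Row 233 (helper25): the tree of chambers of the subdivided cover, and hyperbolicity

`X` = the cliques of `D.Gt`, chambers = the copies `cp t`, tree = Cayley tree of the free group,
`F` any group with an injective `j : F →* FreeGroup ι` of finite index.
-/

set_option autoImplicit false

noncomputable section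

namespace Crest.Agent.N233.Hi

open Crest.GroupTheory Crest.Agent.N255.Ra Crest.Agent.N255.Pt Crest.Agent.N233.Hyp
  Crest.Agent.N233.PS Relation

/-! ### the action on `W × N` -/

section act

variable {S N Ed F : Type} {Γ : SimpleGraph S} [Group F] [MulAction F N] (ρ : F →* (Γ ≃g Γ))

/-- the action of `W ⋊ F` on the vertices `W × N` -/
@[reducible] def actW : MulAction (W Γ ⋊[autHom ρ] F) (W Γ × N) where
  smul g x := (g.left * autHom ρ g.right x.1, g.right • x.2)
  one_smul x := Prod.ext (by change _ * _ = _; simp) (one_smul F x.2)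
  mul_smul g h x := Prod.ext (by change _ * _ = _ * autHom ρ _ (_ * _); simp [mul_assoc])
    (mul_smul g.right h.right x.2)

attribute [local instance] actW

theorem actW_def (g : W Γ ⋊[autHom ρ] F) (x : W Γ × N) :
    g • x = (g.left * autHom ρ g.right x.1, g.right • x.2) := rfl

variable {src tgt : Ed → N} {T : S → Set N}

theorem actW_inl (hT : ∀ (g : F) s t, t ∈ T s → g • t ∈ T (ρ g s)) (g : W Γ ⋊[autHom ρ] F)
    {x y : W Γ × N} {s : S} (h : mst Γ src tgt T x (.inl s) y) :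
    mst Γ src tgt T (g • x) (.inl (ρ g.right s)) (g • y) := by
  obtain ⟨h, rfl⟩ := h
  exact ⟨hT _ _ _ h, by simp [actW_def, autHom_apply, mul_assoc]⟩

theorem actW_inr {μ : F → Ed → Ed} (h1 : ∀ g e, src (μ g e) = g • src e)
    (h2 : ∀ g e, tgt (μ g e) = g • tgt e) (g : W Γ ⋊[autHom ρ] F)
    {x y : W Γ × N} {e : Ed} (h : mst Γ src tgt T x (.inr e) y) :
    mst Γ src tgt T (g • x) (.inr (μ g.right e)) (g • y) := by
  refine ⟨by simp only [actW_def, h.1], ?_⟩
  rcases h.2 with ⟨a, b⟩ | ⟨a, b⟩ <;> simp only [actW_def, a, b, End, h1, h2]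
  exacts [Or.inl ⟨trivial, trivial⟩, Or.inr ⟨trivial, trivial⟩]

theorem actW_free (hf : ∀ (g : F) (t : N), g • t = t → g = 1) (g : W Γ ⋊[autHom ρ] F)
    (x : W Γ × N) (h : g • x = x) : g = 1 := by
  have h2 := hf _ _ (congrArg Prod.snd h)
  have h1 := congrArg Prod.fst h
  simp only [actW_def, h2, map_one, MulAut.one_apply, mul_eq_right] at h1
  exact SemidirectProduct.ext h1 h2

theorem mst_finite (l1 : ∀ t, {s | t ∈ T s}.Finite) (l2 : ∀ t, {t' | ∃ e, End src tgt e t t'}.Finite)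
    (x : W Γ × N) : {y | ∃ a, mst Γ src tgt T x a y}.Finite := by
  refine (((l1 x.2).image fun s => (x.1 * gen Γ s, x.2)).union
    ((l2 x.2).image fun t => (x.1, t))).subset ?_
  rintro y ⟨s | e', h⟩
  · exact Or.inl ⟨s, h.1, h.2.symm⟩
  · exact Or.inr ⟨y.2, ⟨e', h.2⟩, Prod.ext h.1.symm rfl⟩

theorem actW_cof {B : Set N} (hB : B.Finite) (hD : ∀ t, ∃ g : F, g • t ∈ B) :
    ∃ C : Set (W Γ × N), C.Finite ∧ ∀ x, ∃ g : W Γ ⋊[autHom ρ] F, g • x ∈ C :=
  ⟨_, (Set.finite_singleton 1).prod hB, fun x => by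
    obtain ⟨g, hg⟩ := hD x.2
    exact ⟨⟨(autHom ρ g x.1)⁻¹, g⟩, by simpa [actW_def] using hg⟩⟩

end act

/-- finitely many orbits pass to subgroups of finite index -/
theorem cof_sub {G P : Type*} [Group G] [MulAction G P]
    (h : ∃ C : Set P, C.Finite ∧ ∀ x, ∃ g : G, g • x ∈ C) (H : Subgroup G) [H.FiniteIndex] :
    ∃ C : Set P, C.Finite ∧ ∀ x, ∃ g : H, g • x ∈ C := by
  obtain ⟨C, hC, h⟩ := h
  refine ⟨⋃ q : G ⧸ H, (q.out⁻¹ • ·) '' C, Set.finite_iUnion fun _ => hC.image _, fun x => ?_⟩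
  obtain ⟨g, hg⟩ := h x
  obtain ⟨k, hk⟩ := QuotientGroup.mk_out_eq_mul H g
  refine ⟨k⁻¹, Set.mem_iUnion.2 ⟨(g : G ⧸ H), g • x, hg, ?_⟩⟩
  simp only [hk, smul_smul, mul_inv_rev, inv_mul_cancel_right]
  rfl

/-! ### the Cayley tree -/

variable {ι I Tor K : Type}

/-- the origin of an edge -/
abbrev sr (ι : Type) : FreeGroup ι × ι → FreeGroup ι := fun e => e.1

/-- the end of an edge -/
abbrev tg (ι : Type) : FreeGroup ι × ι → FreeGroup ι := fun e => e.1 * FreeGroup.of e.2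

/-- the copies through a vertex -/
def Tc (s : St ι I Tor) : Set (FreeGroup ι) := {t | s ∈ Set.range (cp t)}

theorem end_x (v : FreeGroup ι) (j : ι × Bool) : End (sr ι) (tg ι) (og v j, j.1) v (v * x j) := by
  obtain ⟨i, _ | _⟩ := j
  · exact Or.inr ⟨by simp [tg, x_false], rfl⟩
  · exact Or.inl ⟨rfl, rfl⟩

theorem End.x {e : FreeGroup ι × ι} {t t' : FreeGroup ι} (h : End (sr ι) (tg ι) e t t') :
    ∃ j, t' = t * x j ∧ e = (og t j, j.1) := by
  rcases h with ⟨rfl, rfl⟩ | ⟨rfl, rfl⟩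
  · exact ⟨(e.2, true), rfl, rfl⟩
  · exact ⟨(e.2, false), by simp [x_false], by simp [x_false]⟩

theorem tc_adj (s : St ι I Tor) : ∀ t ∈ Tc s, ∀ t' ∈ Tc s, t = t' ∨ ∃ e, End (sr ι) (tg ι) e t t' :=
  fun t ht t' ht' => (eq_or_ne t t').imp_right fun e => by
    obtain ⟨j, -, rfl, -⟩ := two_cp ht ht' e.symm
    exact ⟨_, end_x t j⟩

theorem wl_tc {e : FreeGroup ι × ι} {s : St ι I Tor} :
    Wl (sr ι) (tg ι) Tc e s ↔ s ∈ Set.range (wl e.1 e.2) := by
  refine ⟨fun h => ?_, ?_⟩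
  · obtain ⟨j, t, e1, rfl⟩ := two_cp h.1 h.2 fun c => x_ne_one (e.2, true) (mul_eq_left.1 c)
    obtain rfl : (e.2, true) = j := x_injective (mul_left_cancel e1)
    exact ⟨t, rfl⟩
  · rintro ⟨t, rfl⟩
    exact ⟨⟨_, cp_true ..⟩, ⟨_, cp_false ..⟩⟩

theorem wl_disj (e e' : FreeGroup ι × ι) (s : St ι I Tor) (h : Wl (sr ι) (tg ι) Tc e s)
    (h' : Wl (sr ι) (tg ι) Tc e' s) : e = e' := by
  obtain ⟨t, rfl⟩ := wl_tc.1 h
  obtain ⟨t', c⟩ := wl_tc.1 h'
  exact Prod.ext (wl_inj.1 c).1.symm (wl_inj.1 c).2.1.symm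

theorem tc_smul (g : FreeGroup ι) (s : St ι I Tor) (t : FreeGroup ι) (h : t ∈ Tc s) :
    g * t ∈ Tc (g • s) := by
  obtain ⟨a, rfl⟩ := h
  exact ⟨a, (smul_cp ..).symm⟩

theorem tc_finite [Finite ι] [Finite I] [Finite Tor] (t : FreeGroup ι) :
    {s : St ι I Tor | t ∈ Tc s}.Finite := Set.finite_range _

theorem end_finite [Finite ι] (t : FreeGroup ι) : {t' | ∃ e, End (sr ι) (tg ι) e t t'}.Finite :=
  (Set.finite_range fun j => t * x j).subset fun _ ⟨_, h⟩ => (End.x h).imp fun _ h => h.1.symm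


variable (D : Dt ι I Tor K) {X : Set (St ι I Tor) → Prop} (hX : ∀ A, X A ↔ D.Gt.IsClique A)
include hX

theorem cxD : Cx X := by
  rw [show X = D.Gt.IsClique from funext fun A => propext (hX A)]
  exact cx_clique fun _ => D.card_le_four

theorem face_smul (g : FreeGroup ι) (A : Set (St ι I Tor)) (h : X A) : X ((g • ·) '' A) := by
  rw [hX] at h ⊢
  rintro _ ⟨a, ha, rfl⟩ _ ⟨b, hb, rfl⟩ e
  exact D.adj_smul' g (h ha hb fun c => e (c ▸ rfl))

/-- **the tree of chambers** -/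
theorem mirD : Mir (ps X) (sr ι) (tg ι) (Ts Tc) :=
  mir_ps (coc_free ι) (conn_free ι) (fun s hs => D.helly ((hX s).1 hs)) tc_adj

theorem nsqD : NoSq (cone (ps X) (sr ι) (tg ι) (Ts Tc)) := noSq_cone_ps (cxD D hX) wl_disj

theorem clbD : ClB (cone (ps X) (sr ι) (tg ι) (Ts Tc)) 5 := clB_cone (clB_ps (cxD D hX))

omit hX in
theorem ts_finite [Finite ι] [Finite I] [Finite Tor] (t : FreeGroup ι) :
    {a : PV X | t ∈ Ts Tc a}.Finite := finite_car_sub (tc_finite t)

omit hX in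
theorem mstD_finite [Finite ι] [Finite I] [Finite Tor] (z : W (ps X) × FreeGroup ι) :
    {y | ∃ a, mst (ps X) (sr ι) (tg ι) (Ts Tc) z a y}.Finite := mst_finite ts_finite end_finite z

omit hX

variable {F : Type} [Group F] (j : F →* FreeGroup ι)

/-- `F` acts on the tree through `j` -/
@[reducible] def actN : MulAction F (FreeGroup ι) := MulAction.compHom _ j

theorem actN_cof [j.range.FiniteIndex] :
    ∃ B : Set (FreeGroup ι), B.Finite ∧ ∀ t, ∃ g : F, j g * t ∈ B := by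
  obtain ⟨B, hB, h⟩ := cof_sub (G := FreeGroup ι) (P := FreeGroup ι)
    ⟨{1}, Set.finite_singleton _, fun t => ⟨t⁻¹, by simp⟩⟩ j.range
  refine ⟨B, hB, fun t => ?_⟩
  obtain ⟨⟨_, g, rfl⟩, hg⟩ := h t
  exact ⟨g, hg⟩

variable (ρ : F →* (ps X ≃g ps X)) (hρ : ∀ f a, car (ρ f a) = (j f • ·) '' car a)

/-- the action of `W ⋊ F` on the vertices of the cube complex -/
@[reducible] def actD : MulAction (W (ps X) ⋊[autHom ρ] F) (W (ps X) × FreeGroup ι) :=
  letI := actN j; actW ρ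

theorem actD_def (g : W (ps X) ⋊[autHom ρ] F) (z : W (ps X) × FreeGroup ι) :
    letI := actD j ρ; g • z = (g.left * autHom ρ g.right z.1, j g.right * z.2) := rfl

include hρ in
theorem ts_smul (g : F) (a : PV X) (t : FreeGroup ι) (h : t ∈ Ts Tc a) : j g * t ∈ Ts Tc (ρ g a) :=
  fun s hs => by
    rw [hρ] at hs
    obtain ⟨v, hv, rfl⟩ := hs
    exact tc_smul _ _ _ (h v hv)

/-- the action on labels -/
def lab (g : W (ps X) ⋊[autHom ρ] F) : PV X ⊕ FreeGroup ι × ι → PV X ⊕ FreeGroup ι × ι :=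
  Sum.map (ρ g.right) fun e => (j g.right * e.1, e.2)

include hρ in
theorem actD_st (g : W (ps X) ⋊[autHom ρ] F) {y z : W (ps X) × FreeGroup ι}
    {a : PV X ⊕ FreeGroup ι × ι} (h : mst (ps X) (sr ι) (tg ι) (Ts Tc) y a z) :
    letI := actD j ρ; mst (ps X) (sr ι) (tg ι) (Ts Tc) (g • y) (lab j ρ g a) (g • z) := by
  let := actN j
  rcases a with a | e
  · exact actW_inl ρ (ts_smul j ρ hρ) g h
  · exact actW_inr ρ (μ := fun f e => (j f * e.1, e.2)) (fun _ _ => rfl)
      (fun _ _ => mul_assoc _ _ _) g h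

theorem actD_free (hj : Function.Injective j) (g : W (ps X) ⋊[autHom ρ] F)
    (z : W (ps X) × FreeGroup ι) (h : letI := actD j ρ; g • z = z) : g = 1 := by
  let := actN j
  exact actW_free ρ (fun f t e => hj (by simpa using mul_eq_right.1 e)) g z h

theorem actD_cof [j.range.FiniteIndex] : letI := actD j ρ
    ∃ C : Set (W (ps X) × FreeGroup ι), C.Finite ∧ ∀ z, ∃ g : W (ps X) ⋊[autHom ρ] F, g • z ∈ C := by
  let := actN j
  obtain ⟨B, hB, h⟩ := actN_cof j
  exact actW_cof ρ hB h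

include hX hρ in
/-- **`W (ps X) ⋊ F` is hyperbolic** -/
theorem hypD [Finite ι] [Finite I] [Finite Tor] (hj : Function.Injective j) [j.range.FiniteIndex] :
    IsHyperbolicGroup (W (ps X) ⋊[autHom ρ] F) := by
  let := actN j
  obtain ⟨B, hB, h⟩ := actN_cof j
  exact (mirD D hX).hyp (nsqD D hX) (clB_ps (cxD D hX)) ρ (ts_smul j ρ hρ)
    (fun g e => ⟨(j g * e.1, e.2), Or.inl ⟨rfl, (mul_assoc _ _ _).symm⟩⟩) ts_finite end_finite hB h 1
    ((Set.finite_singleton 1).subset fun g e => hj (by simpa using mul_eq_right.1 e))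



/-! ### subgroups of the free group -/

/-- the action of a subgroup on the vertices -/
abbrev sg (I Tor : Type) (H : Subgroup (FreeGroup ι)) : H →* Equiv.Perm (St ι I Tor) :=
  MulAction.toPermHom H (St ι I Tor)

include hX in
theorem sg_face (H : Subgroup (FreeGroup ι)) (f : H) (A : Set (St ι I Tor)) (h : X A) :
    X (sg I Tor H f '' A) := face_smul D hX f A h


include hX in
/-- the form of `Wu.s60_con` (`H = Gn χ 2`) -/
theorem hyp_res [Finite ι] [Finite I] [Finite Tor] (ρ : FreeGroup ι →* (ps X ≃g ps X))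
    (hρ : ∀ f a, car (ρ f a) = (f • ·) '' car a) (H : Subgroup (FreeGroup ι)) [H.FiniteIndex] :
    IsHyperbolicGroup (W (ps X) ⋊[autHom (ρ.comp H.subtype)] H) :=
  have : H.subtype.range.FiniteIndex := by rwa [H.range_subtype]
  hypD D hX H.subtype _ (fun f a => hρ f a) H.subtype_injective

/-- subgroups containing `χ⁻¹(nℤ)` have finite index -/
theorem fi_of_dvd {G : Type*} [Group G] (χ : G →* Multiplicative ℤ) {n : ℕ} (hn : n ≠ 0)
    (H : Subgroup G) (h : ∀ g, (n : ℤ) ∣ (χ g).toAdd → g ∈ H) : H.FiniteIndex := by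
  have : NeZero n := ⟨hn⟩
  let ψ : G →* Multiplicative (ZMod n) := (Int.castAddHom (ZMod n)).toMultiplicative.comp χ
  have := Subgroup.finiteIndex_ker ψ
  exact Subgroup.finiteIndex_of_le (H := ψ.ker) fun g hg =>
    h g ((ZMod.intCast_zmod_eq_zero_iff_dvd _ n).1 hg)

end Crest.Agent.N233.Hi

end
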