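import Crest.Agent.N233.Wu.Rig_Mg
import Crest.Agent.N233.Ae.Nu
import Crest.Agent.N233.Pc.In1
import Crest.Agent.N233.Pc.TriM
import Crest.Agent.N233.Hi.Hy
import Crest.Agent.N233.Lp.Defs
import Crest.Agent.N233.Rg.Psm
import Crest.Agent.N233.Ou.R2b
import Crest.Agent.N233.Rr.Hy
import Mathlib
import Crest.Agent.N233.Rg.Hs
import Crest.Agent.N233.Ou.R2a

-- ▼ part N233/Wu/Inst
section

/-!
# Row 233 (helper62): the concrete data, `S0360` and `S0361` from the remaining group theory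
-/

set_option autoImplicit false
open Set

noncomputable section

namespace Crest.Agent.N233.Wu.I

open Crest.Agent.N255 Crest.Agent.N255.Uc Crest.Agent.N255.Ra Dv Pc Pc.In PS

/-- the faces of the cover -/
abbrev X : Set In.St → Prop := Da.D.Gt.IsClique

theorem hX (A : Set In.St) : X A ↔ Da.D.Gt.IsClique A := Iff.rfl

theorem cx : Cx X := Hi.cxD Da.D hX

/-- the flag-no-square graph -/
abbrev Γ : SimpleGraph (PV X) := ps X

/-- the action of the free group -/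
def ρ3 : F3 →* (Γ ≃g Γ) := psHom (MulAction.toPermHom F3 In.St) (Hi.face_smul Da.D hX)

theorem hρ (f : F3) (a : PV X) : car (ρ3 f a) = (f • ·) '' car a := car_psHom _ _ f a

theorem cnt_St : Countable In.St :=
  (show Function.Surjective fun p : F3 × Pt.SY (Fin 3) (Fin 112) (Fin 16) => (⟨p.1, p.2⟩ : In.St) from
    fun s => ⟨(s.1, s.2), rfl⟩).countable

theorem cnt : Countable (PV X) :=
  haveI := cnt_St
  (show Function.Injective fun a : PV X => a.1 from fun _ _ => PV.ext).countable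

theorem tm : TM := ⟨triB, triS 1, hB, hS 1⟩

theorem χτ : (In.χ (.of 0)).toAdd = 1 := χ_of 0

theorem fi2 : (Gn In.χ 2).FiniteIndex := Hi.fi_of_dvd In.χ (n := 2) (by decide) _ fun _ h => h

/-- the cover of the filling -/
abbrev P (L : FL) : Ae.Pre X F2 fun f s => f.1 • s := pre tm L hX

theorem nul (L : FL) : Ae.Null (P L).X := null tm

/-- **the filling** -/
def fillI (L : FL) : FillG (rn ρ3 In.χ 2) (P L).X :=
  Fill.sub cx (Hi.sg _ _ F2) (Hi.sg_face Da.D hX F2) ((P L).fill (P L) (nul L) (nul L))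

theorem hy : Crest.GroupTheory.IsHyperbolicGroup (G0 (rn ρ3 In.χ 2)) :=
  haveI := fi2
  Hi.hyp_res Da.D hX ρ3 hρ (Gn In.χ 2)

/-- the non-existence theorem for `N ⋊ χ⁻¹(nℤ)`, `n` odd -/
def No {N : Subgroup (W Γ)} (h : Inv ρ3 N) : Prop :=
  ∀ n : ℤ, Odd n → 1 ≤ n → ∀ (T : Type) [TopologicalSpace T] [MulAction (Gs In.χ h n) T],
    ¬GM 4 (Gs In.χ h n) T



end Crest.Agent.N233.Wu.I

end
end

-- ▼ part N233/Lp/Abs
section

/-!
# Row 233 (helper27): pseudomanifold links give `Rg.Loc`, `Ou.Lk1` and `Rr.Hy`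
-/

set_option autoImplicit false

namespace Crest.Agent.N233.Lp

open N233.Hyp Relation

variable {A : Type} [DecidableEq A] {Γ : SimpleGraph A} {L : Set A}

theorem clq2 {a b : A} (h : Γ.Adj a b) : Γ.IsClique (({a, b} : Finset A) : Set A) := by
  simp [h]

theorem ncl3 {a b c : A} (ab : Γ.Adj a b) (ac : Γ.Adj a c) (bc : Γ.Adj b c) :
    Γ.IsNClique 3 {a, b, c} := SimpleGraph.is3Clique_triple_iff.2 ⟨ab, ac, bc⟩

omit [DecidableEq A] in
/-- a clique with at most three vertices has a common neighbour -/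
theorem Psm.exists_lk (M : Psm Γ L) {τ : Finset A} (h : Γ.IsClique (τ : Set A)) (s : ↑τ ⊆ L)
    (c : τ.card ≤ 3) : ∃ d, Lk Γ L τ d := by
  obtain ⟨σ, h1, h2, h3⟩ := M.ext τ h s
  obtain ⟨d, d1, d2⟩ := Finset.exists_mem_notMem_of_card_lt_card (s := τ) (t := σ)
    (by rw [h1.card_eq]; omega)
  exact ⟨d, h3 d1, fun a ha => h1.isClique (h2 ha) d1 fun e => d2 (e ▸ ha)⟩

theorem Psm.rg (M : Psm Γ L) : Rg.Psm Γ L where
  no5 a ha b hb c hc d hd e he ab ac ad ae bc bd be cd ce de := by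
    have h : Γ.IsNClique 5 {a, b, c, d, e} :=
      ((ncl3 cd ce de).insert (by simp [bc, bd, be])).insert (by simp [ab, ac, ad, ae])
    have := M.le4 _ h.isClique (by simp [Set.insert_subset_iff, *])
    rw [h.card_eq] at this
    omega
  e1 a ha := by
    obtain ⟨d, h1, h2⟩ := M.exists_lk (τ := {a}) (by simp) (by simpa) (by simp)
    exact ⟨d, h1, h2 a (by simp)⟩
  e2 a ha b hb ab := by
    obtain ⟨d, h1, h2⟩ := M.exists_lk (clq2 ab) (by simp [Set.insert_subset_iff, *])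
      (Finset.card_le_two.trans (by omega))
    exact ⟨d, h1, h2 a (by simp), h2 b (by simp)⟩
  e3 a ha b hb c hc ab ac bc := by
    obtain ⟨d, h1, h2⟩ := M.exists_lk (ncl3 ab ac bc).isClique (by simp [Set.insert_subset_iff, *])
      Finset.card_le_three
    exact ⟨d, h1, h2 a (by simp), h2 b (by simp), h2 c (by simp)⟩
  oth a ha b hb c hc d _ ab ac bc _ _ _ := by
    obtain ⟨u, u', ne, h⟩ := M.two _ (ncl3 ab ac bc) (by simp [Set.insert_subset_iff, *])
    have k : ∀ u, Lk Γ L {a, b, c} u → u ≠ d →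
        ∃ d' ∈ L, d' ≠ d ∧ Γ.Adj a d' ∧ Γ.Adj b d' ∧ Γ.Adj c d' := fun u h n =>
      ⟨u, h.1, n, h.2 a (by simp), h.2 b (by simp), h.2 c (by simp)⟩
    by_cases e : u = d
    · exact k u' ((h _).2 (Or.inr rfl)) (e ▸ ne.symm)
    · exact k u ((h _).2 (Or.inl rfl)) e
  two a ha b hb c hc ab ac bc := by
    obtain ⟨u, u', -, h⟩ := M.two _ (ncl3 ab ac bc) (by simp [Set.insert_subset_iff, *])
    exact ⟨u, u', fun e he h1 h2 h3 => (h e).1 ⟨he, by simp [*]⟩⟩
  c0 x hx y hy := by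
    simpa [Lk] using M.lk ∅ (by simp) (by simp) (by simp) x y ⟨hx, by simp⟩ ⟨hy, by simp⟩
  c1 a ha x hx y hy := by
    simpa [Lk] using M.lk {a} (by simp) (by simpa) (by simp) x y (by simpa [Lk] using hx)
      (by simpa [Lk] using hy)
  c2 a ha b hb ab x hx y hy := by
    simp only [Set.mem_ofPred_eq]
    simpa [Lk] using M.lk {a, b} (clq2 ab) (by simp [Set.insert_subset_iff, *]) Finset.card_le_two x y
      ⟨hx.1, by simp [hx.2.1, hx.2.2]⟩ ⟨hy.1, by simp [hy.2.1, hy.2.2]⟩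
  fin a ha := by simpa [Lk] using M.fin a ha

section st
variable {P : Type} {st : P → A → P → Prop}

/-- **`Rg.Loc`** -/
theorem loc_of (hq : NoSq Γ) (M : ∀ x, Psm Γ {a | ∃ y, st x a y}) : Rg.Loc Γ st :=
  Rg.loc_of_psm hq fun x => (M x).rg

/-- **`Ou.Lk1`** -/
theorem lk1_of (M : ∀ x, Psm Γ {a | ∃ y, st x a y}) : Ou.Lk1 Γ st where
  ne x _ y e _ hσ := ((M x).rg.lk_ne ⟨y, e⟩ hσ).imp fun _ h => ⟨h.1, h.2⟩
  conn x a y e σ hσ c c' h h' := by
    have := (M x).rg.lk_con ⟨y, e⟩ hσ c ⟨⟨h.1, h.2.1⟩, h.2.2⟩ c' ⟨⟨h'.1, h'.2.1⟩, h'.2.2⟩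
    clear h'
    induction this with
    | refl => exact .refl
    | tail _ j ih => exact ih.tail ⟨j.1, j.2.1.1, j.2.1.2, j.2.2⟩

end st

/-- tetrahedra with a common face of codimension `k` are joined in the dual graph -/
theorem Psm.dual_aux (M : Psm Γ L) (k : ℕ) : ∀ τ : Finset A, τ.card + k = 4 → ∀ σ σ', Γ.IsNClique 4 σ →
    Γ.IsNClique 4 σ' → ↑σ ⊆ L → ↑σ' ⊆ L → τ ⊆ σ → τ ⊆ σ' → ReflTransGen
      (fun x y => (Γ.IsNClique 4 x ∧ ↑x ⊆ L) ∧ (Γ.IsNClique 4 y ∧ ↑y ⊆ L) ∧ (x ∩ y).card = 3) σ σ' := by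
  induction k with
  | zero =>
    intro τ c σ σ' h h' _ _ s s'
    rw [← Finset.eq_of_subset_of_card_le s (by rw [h.card_eq]; omega),
      ← Finset.eq_of_subset_of_card_le s' (by rw [h'.card_eq]; omega)]
  | succ k ih =>
    intro τ c σ σ' h h' l l' s s'
    rcases Nat.eq_zero_or_pos k with rfl | k0
    · by_cases e : σ = σ'
      · rw [e]
      refine .single ⟨⟨h, l⟩, ⟨h', l'⟩, le_antisymm (Nat.le_of_lt_succ ?_) ?_⟩
      · rw [Nat.succ_eq_add_one, show 3 + 1 = 4 from rfl, ← h.card_eq]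
        refine Finset.card_lt_card ⟨Finset.inter_subset_left, fun n => e ?_⟩
        exact Finset.eq_of_subset_of_card_le (n.trans Finset.inter_subset_right)
          (by rw [h.card_eq, h'.card_eq])
      · have := Finset.card_le_card (Finset.subset_inter s s')
        omega
    have ex : ∀ σ, Γ.IsNClique 4 σ → ↑σ ⊆ L → τ ⊆ σ → ∃ v ∈ σ, Lk Γ L τ v := fun σ h l s => by
      obtain ⟨d, d1, d2⟩ := Finset.exists_mem_notMem_of_card_lt_card (s := τ) (t := σ)
        (by rw [h.card_eq]; omega)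
      exact ⟨d, d1, l d1, fun a ha => h.isClique (s ha) d1 fun e => d2 (e ▸ ha)⟩
    have cd : ∀ v, Lk Γ L τ v → (insert v τ).card + k = 4 := fun v hv => by
      rw [Finset.card_insert_of_notMem fun m => (hv.2 v m).ne rfl]; omega
    have ct : Γ.IsClique (τ : Set A) := h.isClique.subset s
    obtain ⟨v, v1, v2⟩ := ex σ h l s
    obtain ⟨v', w1, w2⟩ := ex σ' h' l' s'
    have p := M.lk τ ct (Set.Subset.trans s l) (by omega) v v' v2 w2
    induction p generalizing σ' with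
    | refl => exact ih _ (cd v v2) σ σ' h h' l l' (Finset.insert_subset v1 s) (Finset.insert_subset w1 s')
    | @tail u w q j ih' =>
      have hu : Lk Γ L τ u := by
        cases q with
        | refl => exact v2
        | tail _ j => exact j.2
      obtain ⟨ρ, r1, r2, r3⟩ := M.ext (insert u (insert w τ)) (by
        rw [Finset.coe_insert, Finset.coe_insert]
        refine (ct.insert fun b hb _ => (w2.2 b hb).symm).insert ?_
        rintro b (rfl | hb) _
        exacts [j.1, (hu.2 b hb).symm]) (by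
        rw [Finset.coe_insert, Finset.coe_insert]
        exact Set.insert_subset hu.1 (Set.insert_subset w2.1 (Set.Subset.trans s l)))
      have t : insert w τ ⊆ ρ := (Finset.subset_insert _ _).trans r2
      exact (ih' ρ r1 r3 ((Finset.subset_insert _ _).trans t) (r2 (Finset.mem_insert_self _ _)) hu).trans
        (ih _ (cd w w2) ρ σ' r1 h' r3 l' t (Finset.insert_subset w1 s'))

/-- **`Rr.Hy`** -/
theorem Psm.hy (M : Psm Γ Set.univ) : Rr.Hy Γ where
  le4 τ h := M.le4 τ h (Set.subset_univ _)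
  ext τ h := (M.ext τ h (Set.subset_univ _)).imp fun _ h => ⟨h.1, h.2.1⟩
  two ρ h := by
    obtain ⟨a, a', ne, k⟩ := M.two ρ h (Set.subset_univ _)
    refine ⟨a, a', ne, fun s => Iff.trans ⟨fun e => ⟨trivial, fun b hb => ?_⟩,
      fun e => h.insert fun b hb => (e.2 b hb).symm⟩ (k s)⟩
    refine e.isClique (Finset.mem_insert_of_mem hb) (Finset.mem_insert_self _ _) fun r => ?_
    have := e.card_eq
    rw [Finset.insert_eq_of_mem (r ▸ hb), h.card_eq] at this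
    omega
  dual σ σ' h h' := by
    have := M.dual_aux 4 ∅ rfl σ σ' h h' (Set.subset_univ _) (Set.subset_univ _)
      (Finset.empty_subset _) (Finset.empty_subset _)
    clear h'
    induction this with
    | refl => exact .refl
    | tail _ j ih => exact ih.tail ⟨j.1.1, j.2.1.1, j.2.2⟩
  conn a c c' h h' := by
    have := M.rg.out_con (Set.mem_univ a) c ⟨trivial, h⟩ c' ⟨trivial, h'⟩
    clear h'
    induction this with
    | refl => exact .refl
    | tail q j ih =>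
      refine ih.tail ⟨j.1, ?_, j.2.2⟩
      cases q with
      | refl => exact h
      | tail _ j => exact j.2.2

end Crest.Agent.N233.Lp
end

-- ▼ part N233/Ou/Ws
section

/-!
# Row 233 (helper51): oriented median wall spaces without squares
-/

set_option autoImplicit false

namespace Crest.Agent.N233.Ou

variable {ι P : Type*}

/-- two walls cross: all four quadrants are inhabited -/
def Cr (σ : ι → P → Bool) (H K : ι) : Prop := ∀ p q : Bool, ∃ z, σ H z = p ∧ σ K z = q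

/-- a median wall space of dimension `≤ d` without squares; `σ H z = true` is the positive side -/
structure WS (σ : ι → P → Bool) (d : ℕ) : Prop where
  fin : ∀ x y, {H | σ H x ≠ σ H y}.Finite
  inj : ∀ x y, (∀ H, σ H x = σ H y) → x = y
  ext : ∀ H K, ((∀ z, σ H z = σ K z) ∨ ∀ z, σ H z ≠ σ K z) → H = K
  med : ∀ x y z, ∃ m, ∀ H, (σ H x = σ H y → σ H m = σ H x) ∧ (σ H y = σ H z → σ H m = σ H y) ∧
    (σ H x = σ H z → σ H m = σ H x)
  dim : ∀ T : Finset ι, (T : Set ι).Pairwise (Cr σ) → T.card ≤ d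
  nsq : ∀ H H' K K', H ≠ H' → K ≠ K' → Cr σ H K → Cr σ H K' → Cr σ H' K → Cr σ H' K' →
    Cr σ H H' ∨ Cr σ K K'

end Crest.Agent.N233.Ou
end

-- ▼ part N233/Rg/Rel
section

/-!
# Row 233 (helper27): a Lipschitz bijection that coarsely preserves hyperplanes acts on half spaces,
hence on vertices
-/

set_option autoImplicit false

noncomputable section

namespace Crest.Agent.N233.Rg

open N255.Ra N255.Fa N233.Hyp Relation

variable {A P : Type} {Γ : SimpleGraph A} {st : P → A → P → Prop}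

section defs
variable (φ : P → W Γ)

/-- `K`-Lipschitz maps -/
def Lip (K : ℕ) (q : P → P) : Prop := ∀ x y, dl φ (q x) (q y) ≤ K * dl φ x y

/-- points near the hyperplane of `h` go to points near the hyperplane of `h'` -/
def Cl (q : P → P) (h h' : Set P) : Prop := ∀ R, ∃ R', ∀ z, dp φ h z ≤ R → dp φ h' (q z) ≤ R'

/-- far from the hyperplane, `q` maps `h` to `h'` -/
def RelR (R : ℕ) (q : P → P) (h h' : Set P) : Prop := ∀ z, R ≤ dp φ h z → (q z ∈ h' ↔ z ∈ h)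

/-- `q` maps `h` coarsely onto `h'` -/
def Rel (q : P ≃ P) (h h' : Set P) : Prop := (∃ R, RelR φ R q h h') ∧ ∃ R, RelR φ R q.symm h' h

end defs

variable {φ : P → W Γ} {h k h' k' : Set P} {x y z : P} {a : A} {K R : ℕ}

theorem RelR.compl {q : P → P} (e : RelR φ R q h h') : RelR φ R q hᶜ h'ᶜ :=
  fun z hz => not_congr (e z (by rwa [dp_compl] at hz))

theorem RelR.mono {q : P → P} (e : RelR φ R q h h') {R' : ℕ} (l : R ≤ R') : RelR φ R' q h h' :=
  fun z hz => e z (l.trans hz)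

theorem Rel.compl {q : P ≃ P} (e : Rel φ q h h') : Rel φ q hᶜ h'ᶜ :=
  ⟨e.1.imp fun _ => RelR.compl, e.2.imp fun _ => RelR.compl⟩

theorem Rel.symm {q : P ≃ P} (e : Rel φ q h h') : Rel φ q.symm h' h := ⟨e.2, e.1⟩

theorem Cl.compl {q : P → P} (e : Cl φ q h h') : Cl φ q h h'ᶜ := fun R =>
  (e R).imp fun _ e z hz => by rw [dp_compl]; exact e z hz

theorem rel_of {q : P ≃ P} (e : RelR φ R q h h') (c : Cl φ q h h') : Rel φ q h h' := by
  obtain ⟨R', c⟩ := c R
  refine ⟨⟨R, e⟩, R' + 1, fun w hw => ?_⟩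
  have := e (q.symm w) (by_contra fun n => by
    have := c (q.symm w) (by omega)
    rw [q.apply_symm_apply] at this
    omega)
  rw [q.apply_symm_apply] at this
  exact this.symm

section lab
variable (H : Lab Γ st φ)
include H

theorem lip_of_st {q : P → P} (e : ∀ x a y, st x a y → dl φ (q x) (q y) ≤ K) : Lip φ K q := by
  intro x y
  generalize n : dl φ x y = m
  induction m generalizing y with
  | zero => rw [H.eq_of_dl n, dl_self]; omega
  | succ m ih =>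
    obtain ⟨a, w, h1, h2⟩ := H.step n
    have := ih w h2
    have := e _ _ _ (H.symm _ _ _ h1)
    have := dl_tri (φ := φ) (q x) (q w) (q y)
    rw [mul_add]
    omega

theorem cl_of_near {q : P → P} (l : Lip φ K q) (hh : IsH st φ h)
    (n : Near φ (q '' bd st h) (bd st h')) : Cl φ q h h' := fun R => by
  obtain ⟨D, n⟩ := n
  refine ⟨D + K * R + 1, fun z hz => ?_⟩
  obtain ⟨w, hw, e⟩ := hh.exists_bd H z
  obtain ⟨b, hb, e'⟩ := n _ ⟨w, hw, rfl⟩
  have := dp_le H hb (q z)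
  have := dl_tri (φ := φ) b (q w) (q z)
  have := (l w z).trans (Nat.mul_le_mul_left K (e.trans hz))
  rw [dl_comm] at e'
  omega

variable (L : Loc Γ st)
include L

/-- **two deep sides** -/
theorem side_const {q : P ≃ P} (l : Lip φ K q) (hh : IsH st φ h)
    (c : Cl φ q.symm h' h) : ∃ R, ∀ x y, R ≤ ns φ h x → R ≤ ns φ h y → (q x ∈ h' ↔ q y ∈ h') := by
  obtain ⟨R, c⟩ := c K
  refine ⟨R + 1, fun x y hx hy => ?_⟩
  have key : ∀ u v, Ab st φ h (R + 1) u v → q u ∈ h' → q v ∈ h' := fun u v ⟨⟨a, e⟩, hu, _⟩ m =>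
    by_contra fun n => by
      have e1 := dp_le_dl H m n
      have e2 := l u v
      rw [H.dl_st e, mul_one] at e2
      have := c _ (e1.trans e2)
      rw [q.symm_apply_apply, dp] at this
      omega
  have : ∀ x y, ReflTransGen (Ab st φ h (R + 1)) x y → q x ∈ h' → q y ∈ h' := fun x y p m => by
    induction p with
    | refl => exact m
    | tail _ j ih => exact key _ _ j ih
  exact ⟨this _ _ (conn_ab H L hh R _ _ hx hy), this _ _ (conn_ab H L hh R _ _ hy hx)⟩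

theorem exists_deep (hh : IsH st φ h) (R : ℕ) : ∃ z ∈ h, R ≤ dp φ h z := by
  obtain ⟨z, h1, h2, -⟩ := deep H L hh hh (by simpa using hh.ne H) R
  exact ⟨z, h1.1, h2⟩

theorem rel_or {q : P ≃ P} (l : Lip φ K q) (hh : IsH st φ h) (hh' : IsH st φ h')
    (c : Cl φ q h h') (c' : Cl φ q.symm h' h) : Rel φ q h h' ∨ Rel φ q h h'ᶜ := by
  obtain ⟨R1, s1⟩ := side_const H L l hh c'
  obtain ⟨R2, s2⟩ := side_const H L l (hh.compl H) c'.compl
  have e1 : ∀ z, z ∉ h → R1 + R2 ≤ dp φ h z → R1 ≤ ns φ h z := fun z m e => by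
    rw [dp, ns_zero (Q := hᶜ) m] at e; omega
  have e2 : ∀ z, z ∈ h → R1 + R2 ≤ dp φ h z → R2 ≤ ns φ hᶜ z := fun z m e => by
    rw [dp, ns_zero m] at e; omega
  obtain ⟨u, hu, du⟩ := exists_deep H L hh (R1 + R2)
  obtain ⟨v, hv, dv⟩ := exists_deep H L (hh.compl H) (R1 + R2)
  rw [dp_compl] at dv
  have f1 : ∀ z, z ∉ h → R1 + R2 ≤ dp φ h z → (q z ∈ h' ↔ q v ∈ h') := fun z m e =>
    s1 _ _ (e1 z m e) (e1 v hv dv)
  have f2 : ∀ z, z ∈ h → R1 + R2 ≤ dp φ h z → (q z ∈ h' ↔ q u ∈ h') := fun z m e =>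
    s2 _ _ (e2 z m e) (e2 u hu du)
  have ne : ¬(q u ∈ h' ↔ q v ∈ h') := fun i => by
    obtain ⟨R', c⟩ := c (R1 + R2)
    have f : ∀ w, R' + 1 ≤ dp φ h' w → (w ∈ h' ↔ q u ∈ h') := fun w e => by
      have d : R1 + R2 ≤ dp φ h (q.symm w) := by_contra fun n => by
        have := c (q.symm w) (by omega)
        rw [q.apply_symm_apply] at this
        omega
      rw [← q.apply_symm_apply w]
      by_cases m : q.symm w ∈ h
      · exact f2 _ m d
      · exact (f1 _ m d).trans i.symm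
    obtain ⟨w, hw, dw⟩ := exists_deep H L hh' (R' + 1)
    obtain ⟨w', hw', dw'⟩ := exists_deep H L (hh'.compl H) (R' + 1)
    rw [dp_compl] at dw'
    exact hw' ((f w' dw').2 ((f w dw).1 hw))
  by_cases m : q u ∈ h'
  · refine Or.inl (rel_of (R := R1 + R2) (fun z e => ?_) c)
    by_cases n : z ∈ h
    · have := f2 z n e; tauto
    · have := f1 z n e; tauto
  · refine Or.inr (rel_of (R := R1 + R2) (fun z e => ?_) c.compl)
    rw [Set.mem_compl_iff]
    by_cases n : z ∈ h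
    · have := f2 z n e; tauto
    · have := f1 z n e; tauto

theorem Rel.inter {q : P ≃ P} (hh : IsH st φ h) (hk : IsH st φ k) (e : Rel φ q h h')
    (e' : Rel φ q k k') (n : (h ∩ k).Nonempty) : (h' ∩ k').Nonempty := by
  obtain ⟨R, e⟩ := e.1
  obtain ⟨R', e'⟩ := e'.1
  obtain ⟨z, m, d, d'⟩ := deep H L hh hk n (R + R')
  exact ⟨q z, (e z (by omega)).2 m.1, (e' z (by omega)).2 m.2⟩

theorem Rel.unique {q : P ≃ P} (hh : IsH st φ h') (hk : IsH st φ k') (e : Rel φ q h h')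
    (e' : Rel φ q h k') : h' = k' := by
  have : ∀ h' k', IsH st φ h' → IsH st φ k' → Rel φ q h h' → Rel φ q h k' → h' ⊆ k' :=
    fun h' k' hh hk e e' z m => by_contra fun n => by
      simpa using Rel.inter H L hh (hk.compl H) e.symm e'.compl.symm ⟨z, m, n⟩
  exact (this _ _ hh hk e e').antisymm (this _ _ hk hh e' e)

omit L in
/-- a consistent orientation that differs from a vertex in finitely many places is a vertex -/
theorem exists_vertex {U : Set (Set P)} (u0 : ∀ h ∈ U, IsH st φ h)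
    (u1 : ∀ h, IsH st φ h → h ∈ U ∨ hᶜ ∈ U) (u2 : ∀ h ∈ U, ∀ k ∈ U, (h ∩ k).Nonempty)
    (x : P) (f : {h ∈ U | x ∉ h}.Finite) : ∃ y, ∀ h ∈ U, y ∈ h := by
  generalize n : {h ∈ U | x ∉ h}.ncard = m
  induction m using Nat.strong_induction_on generalizing x with
  | _ m ih =>
  by_cases c : ∀ h ∈ U, x ∈ h
  · exact ⟨x, c⟩
  push Not at c
  obtain ⟨k, hk, xk⟩ := c
  have cv := (u0 k hk).cvx H
  obtain ⟨a, y, e, s⟩ := exists_desc H cv.ne (cv.sep x xk)
  have e' := H.symm _ _ _ e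
  have sub : k ⊆ Hs φ y x := fun z hz => by
    rw [← Hs_compl H e]
    exact fun m => s z hz ((mem_Hs H e).1 m).symm
  have m1 : Hs φ y x ∈ U := (u1 _ ⟨_, _, _, e', rfl⟩).resolve_right fun m => by
    obtain ⟨z, z1, z2⟩ := u2 _ hk _ m
    exact z2 (sub z1)
  have ss : {h ∈ U | y ∉ h} ⊂ {h ∈ U | x ∉ h} := by
    refine ⟨fun h hh => ⟨hh.1, fun m => ?_⟩, fun s => (s ⟨m1, not_mem H e'⟩).2 (self_mem H e')⟩
    obtain ⟨z, z1, z2⟩ := u2 _ hh.1 _ m1
    rw [(u0 h hh.1).eq H e m hh.2] at z1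
    rw [← Hs_compl H e] at z2
    exact z2 z1
  exact ih _ (n ▸ Set.ncard_lt_ncard ss f) y (f.subset ss.1) rfl

omit L in
theorem near_finite (hl : ∀ x, {y | ∃ a, st x a y}.Finite) (x : P) (R : ℕ) :
    {h | IsH st φ h ∧ dp φ h x ≤ R}.Finite := by
  have b := ball_finite H.isGM (fun x => ((hl x).insert x).subset fun y hy => by
    change dl φ x y ≤ 1 at hy
    rcases Nat.eq_zero_or_pos (dl φ x y) with h | h
    · exact Or.inl (H.eq_of_dl h).symm
    · obtain ⟨a, z, h1, h2⟩ := H.step (n := 0) (x := x) (y := y) (by omega)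
      exact Or.inr ⟨a, H.eq_of_dl h2 ▸ H.symm _ _ _ h1⟩) x R
  refine (b.biUnion fun w _ => (hl w).image fun y => Hs φ w y).subset ?_
  rintro h ⟨hh, d⟩
  obtain ⟨w, ⟨w1, a, y, w2, w3⟩, e⟩ := hh.exists_bd H x
  exact Set.mem_biUnion (x := w) (by change dl φ x w ≤ R; rw [dl_comm]; omega)
    ⟨y, ⟨a, w2⟩, (hh.eq H w2 w1 w3).symm⟩

/-- **the cubical map at bounded distance from `q`** -/
theorem exists_tau (hl : ∀ x, {y | ∃ a, st x a y}.Finite) {q : P ≃ P}
    (t : ∀ h, IsH st φ h → ∃ h', IsH st φ h' ∧ Rel φ q h h' ∧ RelR φ R q h h')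
    (s : ∀ h', IsH st φ h' → ∃ h, IsH st φ h ∧ Rel φ q h h') :
    ∃ τ : P → P, Lip φ 1 τ ∧ ∀ x h h', IsH st φ h → IsH st φ h' → Rel φ q h h' → (τ x ∈ h' ↔ x ∈ h) := by
  choose! σ σ1 σ2 σ3 using t
  have key : ∀ x, ∃ y, ∀ h h', IsH st φ h → IsH st φ h' → Rel φ q h h' → x ∈ h → y ∈ h' := fun x => by
    obtain ⟨y, hy⟩ := exists_vertex H
      (U := {h' | IsH st φ h' ∧ ∃ h, IsH st φ h ∧ Rel φ q h h' ∧ x ∈ h}) (fun _ h => h.1)
      (fun h' hh' => by
        obtain ⟨h, hh, e⟩ := s h' hh'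
        by_cases m : x ∈ h
        · exact Or.inl ⟨hh', h, hh, e, m⟩
        · exact Or.inr ⟨hh'.compl H, hᶜ, hh.compl H, e.compl, m⟩)
      (fun _ ⟨_, _, h1, h2, h3⟩ _ ⟨_, _, k1, k2, k3⟩ => Rel.inter H L h1 k1 h2 k2 ⟨x, h3, k3⟩) (q x)
      (((near_finite H hl x R).image σ).subset fun h' ⟨⟨h0, h, h1, h2, h3⟩, n⟩ => by
        have e := Rel.unique H L (σ1 h h1) h0 (σ2 h h1) h2
        exact ⟨h, ⟨h1, by_contra fun d => n (e ▸ (σ3 h h1 x (by omega)).2 h3)⟩, e⟩)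
    exact ⟨y, fun h h' h1 h2 h3 h4 => hy h' ⟨h2, h, h1, h3, h4⟩⟩
  choose τ hτ using key
  have iff : ∀ x h h', IsH st φ h → IsH st φ h' → Rel φ q h h' → (τ x ∈ h' ↔ x ∈ h) :=
    fun x h h' h1 h2 h3 => ⟨fun m => by_contra fun n =>
      hτ x _ _ (h1.compl H) (h2.compl H) h3.compl n m, hτ x h h' h1 h2 h3⟩
  refine ⟨τ, lip_of_st H fun x a y e => dl_le_one H fun h' k' h1 k1 m1 n1 m2 n2 => ?_, iff⟩
  obtain ⟨h, h2, h3⟩ := s h' h1
  obtain ⟨k, k2, k3⟩ := s k' k1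
  rw [iff _ _ _ h2 h1 h3] at m1 n1
  rw [iff _ _ _ k2 k1 k3] at m2 n2
  rw [h2.eq H e m1 n1] at h3
  rw [k2.eq H e m2 n2] at k3
  exact Rel.unique H L h1 k1 h3 k3

end lab

end Crest.Agent.N233.Rg

end
end

-- ▼ part N233/Ou/Inst
section

/-!
# Row 233 (helper16): the wall space of a locally convex labelled graph
-/

set_option autoImplicit false

noncomputable section

namespace Crest.Agent.N233.Ou

open N255.Ra N255.Fa Hyp Rg Set
open scoped Classical Pointwise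

variable {A P : Type} {Γ : SimpleGraph A} {st : P → A → P → Prop} {φ : P → W Γ}

variable (st φ) in
/-- a choice of one side of every hyperplane -/
structure Ori (O : Set (Set P)) : Prop where
  isH : ∀ h ∈ O, IsH st φ h
  tot : ∀ h, IsH st φ h → h ∈ O ∨ hᶜ ∈ O
  not : ∀ h ∈ O, hᶜ ∉ O

/-- the side function -/
def sid (O : Set (Set P)) (h : O) (z : P) : Bool := decide (z ∈ h.1)

variable {O : Set (Set P)} {x y z : P} {a : A} {h h' k k' Q : Set P}

theorem sid_eq {i j : O} : sid O i x = sid O j y ↔ (x ∈ i.1 ↔ y ∈ j.1) := decide_eq_decide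

theorem Cr.ex {i j : O} (c : Cr (sid O) i j) (p q : Prop) : ∃ z, (z ∈ i.1 ↔ p) ∧ (z ∈ j.1 ↔ q) :=
  (c (decide p) (decide q)).imp fun _ e => ⟨decide_eq_decide.1 e.1, decide_eq_decide.1 e.2⟩

section lab
variable (H : Lab Γ st φ)
include H

theorem isH_edge (e : st x a y) (hh : IsH st φ h) (n : ¬(x ∈ h ↔ y ∈ h)) :
    h = Hs φ x y ∨ h = Hs φ y x := by
  by_cases c : x ∈ h
  exacts [.inl (hh.eq H e c (by tauto)), .inr (hh.eq H (H.symm _ _ _ e) (by tauto) c)]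

theorem sepH_finite (x y : P) : {h | IsH st φ h ∧ ¬(x ∈ h ↔ y ∈ h)}.Finite := by
  induction H.conn x y with
  | refl => simp
  | @tail u v _ e ih =>
    obtain ⟨a, e⟩ := e
    refine ((ih.insert (Hs φ u v)).insert (Hs φ v u)).subset fun h hh => ?_
    by_cases c : u ∈ h ↔ v ∈ h
    · exact .inr (.inr ⟨hh.1, fun m => hh.2 (m.trans c)⟩)
    · exact (isH_edge H e hh.1 c).elim (fun m => .inr (.inl m)) .inl

theorem exists_median (x y z : P) : ∃ m, ∀ h, IsH st φ h →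
    (x ∈ h ∧ y ∈ h ∨ y ∈ h ∧ z ∈ h ∨ x ∈ h ∧ z ∈ h) → m ∈ h := by
  obtain ⟨m, hm⟩ := exists_vertex H
    (U := {h | IsH st φ h ∧ (x ∈ h ∧ y ∈ h ∨ y ∈ h ∧ z ∈ h ∨ x ∈ h ∧ z ∈ h)}) (fun _ h => h.1)
    (fun h hh => by
      simp only [mem_ofPred_eq, hh, hh.compl H, true_and, mem_compl_iff]
      tauto)
    (fun h hh k hk => by
      rcases hh.2 with a | a | a <;> rcases hk.2 with b | b | b
      exacts [⟨x, a.1, b.1⟩, ⟨y, a.2, b.1⟩, ⟨x, a.1, b.1⟩, ⟨y, a.1, b.2⟩, ⟨y, a.1, b.1⟩,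
        ⟨z, a.2, b.2⟩, ⟨x, a.1, b.1⟩, ⟨z, a.2, b.2⟩, ⟨x, a.1, b.1⟩])
    x ((sepH_finite H x y).subset fun h hh => ⟨hh.1.1, by have := hh.1.2; have := hh.2; tauto⟩)
  exact ⟨m, fun h a b => hm h ⟨a, b⟩⟩

/-- a step towards a point of `Q` does not increase the distance to `Q` -/
theorem ns_step_le (e : st x a y) (hz : z ∈ Q) (m : z ∈ Hs φ y x) : ns φ Q y ≤ ns φ Q x := by
  by_cases v : Vert φ Q (hp φ x a)
  · rw [← Hs_compl H e, mem_compl_iff, mem_Hs H e] at m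
    exact (ns_desc H ⟨z, hz⟩ e fun w hw => v z hz w hw ▸ Ne.symm m) ▸ Nat.le_succ _
  · rw [ns, sep_hor H e v, ns]

theorem exists_toward (hh : IsH st φ h) (hx : x ∈ h) :
    ∃ a y, st x a y ∧ hᶜ ⊆ Hs φ y x ∧ ns φ hᶜ x = ns φ hᶜ y + 1 ∧ (y ∉ h → h = Hs φ x y) := by
  have cv := (hh.compl H).cvx H
  obtain ⟨a, y, e, s⟩ := exists_desc H cv.ne (cv.sep x (not_not.2 hx))
  refine ⟨a, y, e, fun z hz => ?_, ns_desc H cv.ne e s, hh.eq H e hx⟩
  rw [← Hs_compl H e]
  exact fun m => s z hz ((mem_Hs H e).1 m).symm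

/-- pairwise crossing hyperplanes touch a common vertex -/
theorem touch {ι : Type*} (T : Finset ι) (k : ι → Set P) (hk : ∀ i ∈ T, IsH st φ (k i))
    (c1 : ∀ i ∈ T, ∀ j ∈ T, i ≠ j → ((k i)ᶜ ∩ (k j)ᶜ).Nonempty)
    (c2 : ∀ i ∈ T, ∀ j ∈ T, i ≠ j → ((k i)ᶜ ∩ k j).Nonempty) (x : P) (hx : ∀ i ∈ T, x ∈ k i) :
    ∃ x, ∀ i ∈ T, ∃ a y, st x a y ∧ k i = Hs φ x y := by
  induction hn : ∑ i ∈ T, ns φ (k i)ᶜ x using Nat.strong_induction_on generalizing x with
  | _ n ih =>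
  by_cases c : ∀ i ∈ T, ∃ a y, st x a y ∧ k i = Hs φ x y
  · exact ⟨x, c⟩
  push Not at c
  obtain ⟨i, hi, c⟩ := c
  obtain ⟨a, y, e, sub, d, q⟩ := exists_toward H (hk i hi) (hx i hi)
  have hy : ∀ j ∈ T, y ∈ k j := fun j hj => by_contra fun m => by
    by_cases ij : i = j
    · exact c a y e (q (ij ▸ m))
    obtain ⟨z, z1, z2⟩ := c2 i hi j hj ij
    rw [(hk j hj).eq H e (hx j hj) m, ← Hs_compl H (H.symm _ _ _ e)] at z2
    exact z2 (sub z1)
  refine ih _ (hn ▸ Finset.sum_lt_sum (fun j hj => ?_) ⟨i, hi, by omega⟩) y hy rfl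
  by_cases ij : i = j
  · rw [← ij]; omega
  obtain ⟨z, z1, z2⟩ := c1 i hi j hj ij
  exact ns_step_le H e z2 (sub z1)

theorem adj_of_far {b : A} {u : P} (e : st x a y) (e' : st x b u) (n : a ≠ b)
    (m : ((Hs φ x y)ᶜ ∩ (Hs φ x u)ᶜ).Nonempty) : Γ.Adj a b := by
  obtain ⟨z, z1, z2⟩ := m
  rw [mem_compl_iff, mem_Hs H e] at z1
  rw [mem_compl_iff, mem_Hs H e'] at z2
  exact adj_of_sep (Ne.symm z1) (Ne.symm z2) n

theorem far_of_adj {b : A} {u : P} (e : st x a y) (e' : st x b u) (j : Γ.Adj a b) :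
    ((Hs φ x y)ᶜ ∩ (Hs φ x u)ᶜ).Nonempty := by
  obtain ⟨w, w1, w2⟩ := H.dia x a b y u j e e'
  refine ⟨w, fun m => ?_, fun m => ?_⟩
  · rw [mem_Hs H e, sd_st H w1 (by rw [hp_adj H e j]; exact fun q => j.ne (hw_inj q))] at m
    exact sd_st_ne H e m.symm
  · rw [mem_Hs H e', sd_st H w2 (by rw [hp_adj H e' j.symm]; exact fun q => j.ne' (hw_inj q))] at m
    exact sd_st_ne H e' m.symm

omit H in
variable (st φ) in
/-- a square of half spaces around `x` -/
structure Sq (h h' k k' : Set P) (x : P) : Prop where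
  i1 : IsH st φ h
  i2 : IsH st φ h'
  i3 : IsH st φ k
  i4 : IsH st φ k'
  m1 : x ∈ h
  m2 : x ∈ h'
  m3 : x ∈ k
  m4 : x ∈ k'
  d1 : ∀ z, z ∉ h → z ∈ h'
  d2 : ∀ z, z ∉ k → z ∈ k'
  c1 : (hᶜ ∩ kᶜ).Nonempty
  c2 : (hᶜ ∩ k'ᶜ).Nonempty
  c3 : (h'ᶜ ∩ kᶜ).Nonempty
  c4 : (h'ᶜ ∩ k'ᶜ).Nonempty

omit H in
theorem Sq.s1 (s : Sq st φ h h' k k' x) : Sq st φ h' h k' k x :=
  ⟨s.i2, s.i1, s.i4, s.i3, s.m2, s.m1, s.m4, s.m3, fun z m => by_contra fun n => m (s.d1 z n),
    fun z m => by_contra fun n => m (s.d2 z n), s.c4, s.c3, s.c2, s.c1⟩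

omit H in
theorem Sq.s2 (s : Sq st φ h h' k k' x) : Sq st φ k k' h h' x :=
  ⟨s.i3, s.i4, s.i1, s.i2, s.m3, s.m4, s.m1, s.m2, s.d2, s.d1, inter_comm _ _ ▸ s.c1,
    inter_comm _ _ ▸ s.c3, inter_comm _ _ ▸ s.c2, inter_comm _ _ ▸ s.c4⟩

theorem Sq.step (s : Sq st φ h h' k k' x) : (∃ a y, st x a y ∧ h = Hs φ x y) ∨
    ∃ g y, Sq st φ g h' k k' y ∧ ns φ gᶜ y + ns φ h'ᶜ y + (ns φ kᶜ y + ns φ k'ᶜ y) <
      ns φ hᶜ x + ns φ h'ᶜ x + (ns φ kᶜ x + ns φ k'ᶜ x) := by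
  obtain ⟨a, y, e, sub, d, q⟩ := exists_toward H s.i1 s.m1
  by_cases hy : y ∈ h
  swap
  · exact .inl ⟨a, y, e, q hy⟩
  have e' := H.symm _ _ _ e
  have cp := Hs_compl H e
  obtain ⟨z1, a1, b1⟩ := s.c1
  obtain ⟨z2, a2, b2⟩ := s.c2
  refine .inr ?_
  by_cases c : ∀ z, z ∈ Hs φ y x → z ∈ h'
  · refine ⟨Hs φ x y, x, { s with
      i1 := ⟨_, _, _, e, rfl⟩, m1 := self_mem H e, d1 := fun z m => c z (cp ▸ m)
      c1 := ⟨z1, cp ▸ sub a1, b1⟩, c2 := ⟨z2, cp ▸ sub a2, b2⟩ }, ?_⟩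
    have h1 : ns φ (Hs φ x y)ᶜ x ≤ 1 := (ns_le_dl H (not_mem H e) x).trans (H.dl_st e').le
    have h2 : ns φ hᶜ y ≠ 0 := fun m => ((s.i1.compl H).cvx H).mem_of_ns H m hy
    omega
  · push Not at c
    obtain ⟨z, z3, z4⟩ := c
    have key : ∀ g, IsH st φ g → x ∈ g → (∃ w, w ∉ h ∧ w ∈ g) → y ∈ g := fun g a b ⟨w, w1, w2⟩ =>
      by_contra fun m => by
        rw [a.eq H e b m, ← Hs_compl H e'] at w2
        exact w2 (sub w1)
    refine ⟨h, y, { s with
      m1 := hy, m2 := key _ s.i2 s.m2 ⟨z1, a1, s.d1 _ a1⟩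
      m3 := key _ s.i3 s.m3 ⟨z2, a2, s.s1.d2 _ b2⟩, m4 := key _ s.i4 s.m4 ⟨z1, a1, s.d2 _ b1⟩ }, ?_⟩
    have := ns_step_le H (Q := h'ᶜ) e z4 z3
    have := ns_step_le H e b1 (sub a1)
    have := ns_step_le H e b2 (sub a2)
    omega

theorem Sq.false (hq : NoSq Γ) (s : Sq st φ h h' k k' x) : False := by
  induction hn : ns φ hᶜ x + ns φ h'ᶜ x + (ns φ kᶜ x + ns φ k'ᶜ x) using Nat.strong_induction_on
    generalizing h h' k k' x with
  | _ n ih =>
  rcases s.step H with ⟨a, y, e, rfl⟩ | ⟨g, y, t, l⟩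
  swap
  · exact ih _ (hn ▸ l) t rfl
  rcases s.s1.step H with ⟨a', y', e', rfl⟩ | ⟨g, y, t, l⟩
  swap
  · exact ih _ (by omega) t rfl
  rcases s.s2.step H with ⟨b, u, f, rfl⟩ | ⟨g, y, t, l⟩
  swap
  · exact ih _ (by omega) t rfl
  rcases s.s1.s2.step H with ⟨b', u', f', rfl⟩ | ⟨g, y, t, l⟩
  swap
  · exact ih _ (by omega) t rfl
  have ne : ∀ {a b : A} {y u : P}, st x a y → st x b u → (∃ z, z ∉ Hs φ x y ∧ z ∈ Hs φ x u) → a ≠ b :=
    fun e e' ⟨z, z1, z2⟩ m => z1 (H.det _ _ _ _ e (m ▸ e') ▸ z2)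
  obtain ⟨z1, a1, b1⟩ := s.c1
  obtain ⟨z2, a2, b2⟩ := s.c2
  obtain ⟨z3, a3, b3⟩ := s.c3
  obtain ⟨z4, a4, b4⟩ := s.c4
  rcases hq a b a' b' (adj_of_far H e f (ne e f ⟨z2, a2, s.s1.d2 _ b2⟩) s.c1)
    (adj_of_far H e' f (ne e' f ⟨z4, a4, s.s1.d2 _ b4⟩) s.c3).symm
    (adj_of_far H e' f' (ne e' f' ⟨z3, a3, s.d2 _ b3⟩) s.c4)
    (adj_of_far H e f' (ne e f' ⟨z1, a1, s.d2 _ b1⟩) s.c2).symm
    (ne e e' ⟨z1, a1, s.d1 _ a1⟩) (ne f f' ⟨z1, b1, s.d2 _ b1⟩) with j | j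
  · obtain ⟨w, w1, w2⟩ := far_of_adj H e e' j
    exact w2 (s.d1 w w1)
  · obtain ⟨w, w1, w2⟩ := far_of_adj H f f' j
    exact w2 (s.d2 w w1)

theorem helly4 (i1 : IsH st φ h) (i2 : IsH st φ h') (i3 : IsH st φ k) (i4 : IsH st φ k')
    (a : (h ∩ h').Nonempty) (b : (k ∩ k').Nonempty) (c1 : (h ∩ k).Nonempty) (c2 : (h ∩ k').Nonempty)
    (c3 : (h' ∩ k).Nonempty) (c4 : (h' ∩ k').Nonempty) : ∃ x, x ∈ h ∧ x ∈ h' ∧ x ∈ k ∧ x ∈ k' := by
  obtain ⟨p, p1, p2⟩ := a
  obtain ⟨q, q1, q2⟩ := b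
  obtain ⟨u, hu⟩ := exists_median H p c1.some c3.some
  obtain ⟨v, hv⟩ := exists_median H p c2.some c4.some
  obtain ⟨w, hw⟩ := exists_median H u v q
  exact ⟨w, hw _ i1 (.inl ⟨hu _ i1 (.inl ⟨p1, c1.some_mem.1⟩), hv _ i1 (.inl ⟨p1, c2.some_mem.1⟩)⟩),
    hw _ i2 (.inl ⟨hu _ i2 (.inr (.inr ⟨p2, c3.some_mem.1⟩)), hv _ i2 (.inr (.inr ⟨p2, c4.some_mem.1⟩))⟩),
    hw _ i3 (.inr (.inr ⟨hu _ i3 (.inr (.inl ⟨c1.some_mem.2, c3.some_mem.2⟩)), q1⟩)),
    hw _ i4 (.inr (.inl ⟨hv _ i4 (.inr (.inl ⟨c2.some_mem.2, c4.some_mem.2⟩)), q2⟩))⟩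

variable (R : Ori st φ O)
include R

omit H in
theorem Ori.ext {i j : O} (e : (∀ z, z ∈ i.1 ↔ z ∈ j.1) ∨ ∀ z, ¬(z ∈ i.1 ↔ z ∈ j.1)) : i = j :=
  e.elim (fun e => Subtype.ext (Set.ext e)) fun e => (R.not _ i.2 (by
    rw [show i.1ᶜ = j.1 from Set.ext fun z => by have := e z; rw [mem_compl_iff]; tauto]
    exact j.2)).elim

/-- the side `p` of a wall -/
theorem isH_side (i : O) (p : Prop) : IsH st φ {z | z ∈ i.1 ↔ p} := by
  by_cases c : p
  · simpa [c] using R.isH _ i.2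
  · simp only [c, iff_false]
    exact (R.isH _ i.2).compl H

theorem sid_finite (x y : P) : {i : O | sid O i x ≠ sid O i y}.Finite :=
  ((sepH_finite H x y).preimage Subtype.val_injective.injOn).subset fun i m =>
    ⟨R.isH _ i.2, fun e => m (sid_eq.2 e)⟩

/-- **the wall space** -/
theorem ws_lab (hq : NoSq Γ) {d : ℕ} (hd : ClB Γ d) : WS (sid O) d where
  fin := sid_finite H R
  inj x y e := eq_of_IsH H fun h hh m => (R.tot h hh).elim (fun o => (sid_eq.1 (e ⟨h, o⟩)).1 m)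
    fun o => by_contra fun n => (sid_eq.1 (e ⟨hᶜ, o⟩)).2 n m
  ext i j e := R.ext (e.imp (fun e z => sid_eq.1 (e z)) fun e z m => e z (sid_eq.2 m))
  med x y z := (exists_median H x y z).imp fun m hm i => by
    simp only [sid_eq]
    exact ⟨fun e => hm _ (isH_side H R i _) (.inl ⟨Iff.rfl, e.symm⟩),
      fun e => hm _ (isH_side H R i _) (.inr (.inl ⟨Iff.rfl, e.symm⟩)),
      fun e => hm _ (isH_side H R i _) (.inr (.inr ⟨Iff.rfl, e.symm⟩))⟩
  dim T c := by
    rcases T.eq_empty_or_nonempty with rfl | ⟨i0, -⟩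
    · simp
    obtain ⟨x0, -⟩ := (R.isH _ i0.2).ne H
    have c1 : ∀ i ∈ T, ∀ j ∈ T, i ≠ j →
        ({z | z ∈ i.1 ↔ x0 ∈ i.1}ᶜ ∩ {z | z ∈ j.1 ↔ x0 ∈ j.1}ᶜ).Nonempty := fun i hi j hj n =>
      ((c hi hj n).ex (x0 ∉ i.1) (x0 ∉ j.1)).imp fun z m =>
        ⟨fun q => iff_not_self (q.symm.trans m.1), fun q => iff_not_self (q.symm.trans m.2)⟩
    have c2 : ∀ i ∈ T, ∀ j ∈ T, i ≠ j →
        ({z | z ∈ i.1 ↔ x0 ∈ i.1}ᶜ ∩ {z | z ∈ j.1 ↔ x0 ∈ j.1}).Nonempty := fun i hi j hj n =>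
      ((c hi hj n).ex (x0 ∉ i.1) (x0 ∈ j.1)).imp fun z m =>
        ⟨fun q => iff_not_self (q.symm.trans m.1), m.2⟩
    obtain ⟨x, hx⟩ := touch H T (fun i => {z | z ∈ i.1 ↔ x0 ∈ i.1}) (fun i _ => isH_side H R i _)
      c1 c2 x0 fun _ _ => Iff.rfl
    have : Nonempty A := (R.isH _ i0.2).elim fun _ ⟨a, _⟩ => ⟨a⟩
    have : Nonempty P := ⟨x⟩
    choose! a y e q using hx
    have ne : ∀ i ∈ T, ∀ j ∈ T, i ≠ j → a i ≠ a j := fun i hi j hj n m => by
      obtain ⟨z, z1, z2⟩ := c2 i hi j hj n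
      rw [q i hi, H.det _ _ _ _ (e i hi) (m ▸ e j hj), ← q j hj] at z1
      exact z1 z2
    rw [← Finset.card_image_of_injOn (f := a) fun i hi j hj m => by_contra fun n => ne i hi j hj n m]
    refine hd _ ?_
    rw [Finset.coe_image]
    rintro _ ⟨i, hi, rfl⟩ _ ⟨j, hj, rfl⟩ n
    exact adj_of_far H (e i hi) (e j hj) n
      (q i hi ▸ q j hj ▸ c1 i hi j hj fun m => n (m ▸ rfl))
  nsq i i' j j' n n' c1 c2 c3 c4 := by
    by_contra c
    simp only [Cr, not_or, not_forall, not_exists, not_and] at c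
    obtain ⟨⟨p, p', hp⟩, q, q', hq'⟩ := c
    have side : ∀ (i : O) (p : Bool) z, sid O i z = p ↔ ¬(z ∈ i.1 ↔ p = false) := fun i p z => by
      cases p <;> simp [sid]
    have mt : ∀ (i i' : O) (p p' : Bool), i ≠ i' → (∀ z, sid O i z = p → ¬sid O i' z = p') →
        ({z | z ∈ i.1 ↔ p = false} ∩ {z | z ∈ i'.1 ↔ p' = false}).Nonempty := fun i i' p p' n m => by
      by_contra e
      simp only [Set.Nonempty, mem_inter_iff, mem_ofPred_eq, not_exists] at e
      simp only [side] at m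
      refine n (R.ext ?_)
      by_cases v : p = false ↔ p' = false
      · exact .inr fun z => by have := e z; have := m z; tauto
      · exact .inl fun z => by have := e z; have := m z; tauto
    have nr : ∀ {i j : O} (p q : Bool), Cr (sid O) i j →
        ({z | z ∈ i.1 ↔ p = false} ∩ {z | z ∈ j.1 ↔ q = false}).Nonempty := fun p q c => c.ex _ _
    have fr : ∀ {i j : O} (p q : Bool), Cr (sid O) i j →
        ({z | z ∈ i.1 ↔ p = false}ᶜ ∩ {z | z ∈ j.1 ↔ q = false}ᶜ).Nonempty := fun p q c =>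
      (c p q).imp fun z m => ⟨(side _ _ _).1 m.1, (side _ _ _).1 m.2⟩
    obtain ⟨x, m1, m2, m3, m4⟩ := helly4 H (isH_side H R i _) (isH_side H R i' _) (isH_side H R j _)
      (isH_side H R j' _) (mt i i' p p' n hp) (mt j j' q q' n' hq') (nr p q c1) (nr p q' c2)
      (nr p' q c3) (nr p' q' c4)
    exact Sq.false H hq ⟨isH_side H R i _, isH_side H R i' _, isH_side H R j _, isH_side H R j' _,
      m1, m2, m3, m4, fun z m => by_contra fun e => hp z ((side _ _ _).2 m) ((side _ _ _).2 e),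
      fun z m => by_contra fun e => hq' z ((side _ _ _).2 m) ((side _ _ _).2 e),
      fr p q c1, fr p q' c2, fr p' q c3, fr p' q' c4⟩

theorem card_sep (x y : P) : dl φ x y ≤ {i : O | sid O i x ≠ sid O i y}.ncard := by
  generalize hn : dl φ x y = n
  induction n generalizing y with
  | zero => exact Nat.zero_le _
  | succ n ih =>
    obtain ⟨a, u, e, h1, h2⟩ := exists_step H hn
    have e' := H.symm _ _ _ e
    have b1 := self_mem H e'
    have b2 := not_mem H e'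
    refine (ih u h1).trans_lt (ncard_lt_ncard ⟨fun i m q => m ?_, fun s => ?_⟩ (sid_finite H R x y))
    · rw [sid_eq] at q ⊢
      by_contra c
      rcases isH_edge H e (R.isH _ i.2) (fun w => c (q.trans w)) with w | w
      · rw [w, ← Hs_compl H e'] at c
        exact c (iff_of_false (fun v => v h2) fun v => v b1)
      · rw [w] at c
        exact c (iff_of_true h2 b1)
    · rcases R.tot _ ⟨_, _, _, e', rfl⟩ with o | o
      · exact s (a := ⟨_, o⟩) (fun v => b2 ((sid_eq.1 v).1 h2)) (sid_eq.2 (iff_of_true h2 b1))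
      · exact s (a := ⟨_, o⟩) (fun v => (sid_eq.1 v).2 b2 h2)
          (sid_eq.2 (iff_of_false (fun v => v h2) fun v => v b1))

end lab

section act
variable {G : Type*} [Group G] [MulAction G P]

theorem sid_act (ho : ∀ (g : G), ∀ h ∈ O, g • h ∈ O) (g : G) (i : O) :
    ∃ j : O, ∀ z, sid O j (g • z) = sid O i z :=
  ⟨⟨g • i.1, ho g _ i.2⟩, fun _ => sid_eq.2 smul_mem_smul_set_iff⟩

variable (H : Lab Γ st φ) (hi : ∀ (g : G) x a y, st x a y → ∃ b, st (g • x) b (g • y))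
include H hi

theorem isH_smul (hh : IsH st φ h) (g : G) : IsH st φ (g • h) := by
  obtain ⟨x, a, y, e, rfl⟩ := hh
  obtain ⟨b, e'⟩ := hi g x a y e
  exact ⟨_, b, _, e', smul_Hs H hi g x y⟩

/-- **an action without inversions preserves an orientation** -/
theorem exists_ori (ni : ∀ (g : G) x a y, st x a y → g • Hs φ x y ≠ Hs φ y x) :
    ∃ O, Ori st φ O ∧ ∀ (g : G), ∀ h ∈ O, g • h ∈ O := by
  let C : Set P → Set P → Prop := fun h k => ∃ g : G, k = g • h ∨ k = g • hᶜ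
  have c1 : ∀ (g : G) h, C (g • h) = C h := fun g h => funext fun k => propext
    ⟨fun ⟨u, e⟩ => ⟨u * g, by simpa [mul_smul, smul_set_compl] using e⟩,
      fun ⟨u, e⟩ => ⟨u * g⁻¹, by simpa [mul_smul, smul_set_compl] using e⟩⟩
  have c2 : ∀ h, C hᶜ = C h := fun h => funext fun k => by simp only [C, compl_compl, or_comm]
  refine ⟨{h | IsH st φ h ∧ ∃ g : G, Classical.epsilon (C h) = g • h}, ⟨fun _ h => h.1, fun h hh => ?_,
    fun h ⟨hh, g, e⟩ ⟨_, g', e'⟩ => ?_⟩, fun g h ⟨hh, u, e⟩ =>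
      ⟨isH_smul H hi hh g, u * g⁻¹, by rw [c1, e, mul_smul, inv_smul_smul]⟩⟩
  · obtain ⟨g, e | e⟩ := Classical.epsilon_spec (p := C h) ⟨h, 1, .inl (one_smul _ _).symm⟩
    exacts [.inl ⟨hh, g, e⟩, .inr ⟨hh.compl H, g, by rw [c2, e]⟩]
  · obtain ⟨x, a, y, s, rfl⟩ := hh
    rw [c2, e] at e'
    exact ni (g'⁻¹ * g) x a y s (by rw [mul_smul, e', inv_smul_smul, Hs_compl H s])

/-- everything that `WS.bic` needs -/
theorem exists_ws (hq : NoSq Γ) {d : ℕ} (hd : ClB Γ d) (hl : ∀ x, {y | ∃ a, st x a y}.Finite)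
    (ni : ∀ (g : G) x a y, st x a y → g • Hs φ x y ≠ Hs φ y x) :
    ∃ (ι : Type) (σ : ι → P → Bool), WS σ d ∧ (∀ (g : G) i, ∃ j, ∀ z, σ j (g • z) = σ i z) ∧
      ∀ v R, {w | {i | σ i v ≠ σ i w}.ncard ≤ R}.Finite := by
  obtain ⟨O, R, ho⟩ := exists_ori H hi ni
  exact ⟨O, sid O, ws_lab H R hq hd, sid_act ho, fun v n =>
    (ball_fin H hl v n).subset fun w m => (card_sep H R v w).trans m⟩

end act

end Crest.Agent.N233.Ou

end
end

-- ▼ part N233/Ou/Bi1
section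

/-!
# Row 233 (helper51): order of the walls separating two points, Helly, canonical vertices of cuts
-/

set_option autoImplicit false

noncomputable section

namespace Crest.Agent.N233.Ou

open Classical Finset

variable {ι P : Type*} {σ : ι → P → Bool} {d : ℕ} {a b c : P} {H K L H' K' : ι}

theorem bne {x y z : Bool} (h : x ≠ z) (k : y ≠ z) : x = y := by revert x y z; decide

theorem Cr.symm (h : Cr σ H K) : Cr σ K H := fun p q => (h q p).imp fun _ h => h.symm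

theorem Cr.ne (h : Cr σ H K) : H ≠ K := by
  rintro rfl
  obtain ⟨z, h1, h2⟩ := h true false
  simp [h1] at h2

variable (σ) in
/-- `H` is nearer to `a` than `K` -/
def Lt (a : P) (H K : ι) : Prop := H ≠ K ∧ ∀ z, σ H z = σ H a → σ K z = σ K a

variable (σ) in
/-- `H` separates `a` from `b` -/
def In (a b : P) (H : ι) : Prop := σ H a ≠ σ H b

variable (σ) in
def Le (a : P) (H K : ι) : Prop := H = K ∨ Lt σ a H K

theorem In.symm (h : In σ a b H) : In σ b a H := Ne.symm h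

theorem In_comm : In σ a b H ↔ In σ b a H := ⟨In.symm, In.symm⟩

theorem Lt.le (h : Lt σ a H K) : Le σ a H K := .inr h

theorem Lt.ncr (h : Lt σ a H K) : ¬Cr σ H K := fun k => by
  obtain ⟨z, h1, h2⟩ := k (σ H a) (!σ K a)
  simp [h.2 z h1] at h2

theorem Le.side (h : Le σ a H K) (z : P) (e : σ H z = σ H a) : σ K z = σ K a := by
  rcases h with rfl | h
  exacts [e, h.2 z e]

theorem Lt.rev (h : Lt σ a H K) (hH : In σ a b H) (hK : In σ a b K) : Lt σ b K H :=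
  ⟨h.1.symm, fun z e => bne (fun l => hK ((h.2 z l).symm.trans e)) hH.symm⟩

theorem tri (hH : In σ a b H) (hK : In σ a b K) : H = K ∨ Lt σ a H K ∨ Lt σ a K H ∨ Cr σ H K := by
  by_contra n
  simp only [not_or, Lt, not_and, not_forall] at n
  obtain ⟨n1, n2, n3, n4⟩ := n
  obtain ⟨z, z1, z2⟩ := n2 n1
  obtain ⟨w, w1, w2⟩ := n3 (Ne.symm n1)
  refine n4 fun p q => ?_
  by_cases e : p = σ H a <;> by_cases f : q = σ K a
  exacts [⟨a, e.symm, f.symm⟩, ⟨z, z1.trans e.symm, bne z2 f⟩, ⟨w, bne w2 e, w1.trans f.symm⟩,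
    ⟨b, bne hH.symm e, bne hK.symm f⟩]

/-- the walls crossing `H` form an order convex set -/
theorem Cr.cvx (h1 : Cr σ H K') (h2 : Cr σ H L) (k1 : Le σ a K' K) (k2 : Le σ a K L) : Cr σ H K := by
  intro p q
  by_cases f : q = σ K a
  · obtain ⟨z, z1, z2⟩ := h1 p (σ K' a)
    exact ⟨z, z1, f ▸ k1.side z z2⟩
  · obtain ⟨z, z1, z2⟩ := h2 p (!σ L a)
    exact ⟨z, z1, bne (fun l => by simp [k2.side z l] at z2) f⟩


namespace WS

variable (W : WS σ d)
include W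

theorem trans (h : Lt σ a H K) (k : Lt σ a K L) : Lt σ a H L := by
  refine ⟨fun e => h.1 (W.ext _ _ ?_), fun z e => k.2 z (h.2 z e)⟩
  subst e
  by_cases e : σ H a = σ K a
  · refine .inl fun z => ?_
    by_cases f : σ H z = σ H a
    exacts [f.trans (e.trans (h.2 z f).symm), bne (e ▸ f) fun l => f (k.2 z l)]
  · refine .inr fun z l => ?_
    by_cases f : σ H z = σ H a
    exacts [e (f.symm.trans (l.trans (h.2 z f))), f (k.2 z (l.symm.trans (bne f (Ne.symm e))))]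

theorem asymm (h : Lt σ a H K) (k : Lt σ a K H) : False := (W.trans h k).1 rfl

theorem le_lt (h : Le σ a H K) (k : Lt σ a K L) : Lt σ a H L := by
  rcases h with rfl | h
  exacts [k, W.trans h k]

theorem lt_le (h : Lt σ a H K) (k : Le σ a K L) : Lt σ a H L := by
  rcases k with rfl | k
  exacts [h, W.trans h k]

theorem le_le (h : Le σ a H K) (k : Le σ a K L) : Le σ a H L := by
  rcases k with rfl | k
  exacts [h, (W.le_lt h k).le]

theorem sq (n : H ≠ H') (m : ¬Cr σ H H') (k : Lt σ a K K') (h1 : Cr σ H K) (h2 : Cr σ H K')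
    (h3 : Cr σ H' K) (h4 : Cr σ H' K') : False :=
  (W.nsq _ _ _ _ n k.1 h1 h2 h3 h4).elim m k.ncr

/-- two chains of length two are not independent -/
theorem cmp (h : Lt σ a H H') (k : Lt σ a K K') (i1 : In σ a b H) (i2 : In σ a b H') (i3 : In σ a b K)
    (i4 : In σ a b K') (n : ¬Le σ a K H') : Le σ a H K' := by
  by_contra m
  have f : ∀ X Y, In σ a b X → In σ a b Y → Le σ a H X → Le σ a X H' → Le σ a K Y → Le σ a Y K' →
      Cr σ X Y := fun X Y j1 j2 l1 l2 l3 l4 => by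
    rcases tri j1 j2 with e | e | e | e
    · exact absurd (W.le_le l1 (e ▸ l4)) m
    · exact absurd (W.le_le l1 (W.lt_le e l4).le) m
    · exact absurd (W.le_le l3 (W.lt_le e l2).le) n
    · exact e
  exact W.sq h.1 h.ncr k (f _ _ i1 i3 (.inl rfl) h.le (.inl rfl) k.le)
    (f _ _ i1 i4 (.inl rfl) h.le k.le (.inl rfl)) (f _ _ i2 i3 h.le (.inl rfl) (.inl rfl) k.le)
    (f _ _ i2 i4 h.le (.inl rfl) k.le (.inl rfl))

theorem tr_card (n : H ≠ H') (m : ¬Cr σ H H') (T : Finset ι) (h : ∀ K ∈ T, Cr σ H K ∧ Cr σ H' K) :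
    #T ≤ d :=
  W.dim T fun K k K' k' e =>
    (W.nsq _ _ _ _ n e (h K k).1 (h K' k').1 (h K k).2 (h K' k').2).resolve_left m

theorem helly (τ : ι → Bool) (h : ∀ H K, ∃ z, σ H z = τ H ∧ σ K z = τ K) (T : Finset ι) :
    ∀ H K, ∃ z, σ H z = τ H ∧ σ K z = τ K ∧ ∀ L ∈ T, σ L z = τ L := by
  induction T using Finset.induction_on with
  | empty => simpa using h
  | insert L T _ ih =>
    intro H K
    obtain ⟨x, x1, x2, x3⟩ := ih H K
    obtain ⟨y, y1, y2, y3⟩ := ih H L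
    obtain ⟨z, z1, z2, z3⟩ := ih K L
    obtain ⟨m, hm⟩ := W.med x y z
    refine ⟨m, by rw [(hm H).1 (x1.trans y1.symm), x1], by rw [(hm K).2.2 (x2.trans z1.symm), x2], ?_⟩
    intro M hM
    rcases mem_insert.1 hM with rfl | hM
    · rw [(hm M).2.1 (y2.trans z2.symm), y2]
    · rw [(hm M).1 ((x3 M hM).trans (y3 M hM).symm), x3 M hM]

/-- the walls separating two points -/
def Sp (a b : P) : Finset ι := (W.fin a b).toFinset

@[simp] theorem mem_Sp : H ∈ W.Sp a b ↔ In σ a b H := Set.Finite.mem_toFinset _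

theorem Sp_comm (a b : P) : W.Sp a b = W.Sp b a := by ext; simp [In_comm]

/-- consistent orientations at finite distance are points -/
theorem ult (τ : ι → Bool) (h : ∀ H K, ∃ z, σ H z = τ H ∧ σ K z = τ K) (a : P)
    (f : {H | τ H ≠ σ H a}.Finite) : ∃ x, ∀ H, σ H x = τ H := by
  rcases isEmpty_or_nonempty ι with e | ⟨⟨H0⟩⟩
  · exact ⟨a, fun H => e.elim H⟩
  obtain ⟨x0, -, -, hx0⟩ := W.helly τ h f.toFinset H0 H0
  obtain ⟨x, hx, hm⟩ := (measure fun x => #(W.Sp a x)).wf.has_min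
    {x | ∀ L ∈ f.toFinset, σ L x = τ L} ⟨x0, hx0⟩
  refine ⟨x, fun H => by_contra fun n => ?_⟩
  have e : τ H = σ H a := by_contra fun k => n (hx H (f.mem_toFinset.2 k))
  obtain ⟨y, y1, -, y2⟩ := W.helly τ h f.toFinset H H
  obtain ⟨m, k⟩ := W.med a x y
  refine hm m (fun L l => by rw [(k L).2.1 ((hx L l).trans (y2 L l).symm), hx L l])
    (card_lt_card ⟨fun K l => ?_, fun l => ?_⟩)
  · rw [mem_Sp] at l ⊢
    exact fun j => l ((k K).1 j).symm
  · have := l (W.mem_Sp.2 (show In σ a x H from fun j => n (j.symm.trans e.symm)))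
    exact W.mem_Sp.1 this ((k H).2.2 (e.symm.trans y1.symm)).symm

/-- position of a wall between `a` and `b` -/
def pos (a b : P) (K : ι) : ℤ :=
  (#{H ∈ W.Sp a b | Lt σ a H K} : ℤ) - #{H ∈ W.Sp a b | Lt σ a K H}

theorem pos_lt (i : In σ a b H) (h : Lt σ a H K) : W.pos a b H < W.pos a b K := by
  have h1 : #{L ∈ W.Sp a b | Lt σ a L H} < #{L ∈ W.Sp a b | Lt σ a L K} :=
    card_lt_card ⟨fun L l => mem_filter.2 ⟨(mem_filter.1 l).1, W.trans (mem_filter.1 l).2 h⟩,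
      fun l => (mem_filter.1 (l (mem_filter.2 ⟨W.mem_Sp.2 i, h⟩))).2.1 rfl⟩
  have h2 : #{L ∈ W.Sp a b | Lt σ a K L} ≤ #{L ∈ W.Sp a b | Lt σ a H L} :=
    card_le_card fun L l => mem_filter.2 ⟨(mem_filter.1 l).1, W.trans h (mem_filter.1 l).2⟩
  unfold pos
  omega

theorem pos_le (i : In σ a b H) (h : Le σ a H K) : W.pos a b H ≤ W.pos a b K := by
  rcases h with rfl | h
  exacts [le_rfl, (W.pos_lt i h).le]

theorem pos_rev (i : In σ a b K) : W.pos b a K = -W.pos a b K := by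
  have h1 : {H ∈ W.Sp b a | Lt σ b H K} = {H ∈ W.Sp a b | Lt σ a K H} := by
    ext H
    simp only [mem_filter, mem_Sp]
    exact ⟨fun h => ⟨h.1.symm, h.2.rev h.1 i.symm⟩, fun h => ⟨h.1.symm, h.2.rev i h.1⟩⟩
  have h2 : {H ∈ W.Sp b a | Lt σ b K H} = {H ∈ W.Sp a b | Lt σ a H K} := by
    ext H
    simp only [mem_filter, mem_Sp]
    exact ⟨fun h => ⟨h.1.symm, h.2.rev i.symm h.1⟩, fun h => ⟨h.1.symm, h.2.rev h.1 i⟩⟩
  rw [pos, pos, h1, h2, neg_sub]

theorem pos_abs (a b : P) (K : ι) : -(#(W.Sp a b) : ℤ) ≤ W.pos a b K ∧ W.pos a b K ≤ #(W.Sp a b) := by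
  have h1 := card_filter_le (W.Sp a b) fun H => Lt σ a H K
  have h2 := card_filter_le (W.Sp a b) fun H => Lt σ a K H
  unfold pos
  omega

theorem anti_card (T : Finset ι) (i : ∀ K ∈ T, In σ a b K) (h : ∀ H ∈ T, ∀ K ∈ T, ¬Lt σ a H K) :
    #T ≤ d :=
  W.dim T fun H k K k' e => (((tri (i H k) (i K k')).resolve_left e).resolve_left
    (h H k K k')).resolve_left (h K k' H k)

theorem cls_card (T : Finset ι) (t : ℤ) (i : ∀ K ∈ T, In σ a b K ∧ W.pos a b K = t) : #T ≤ d :=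
  W.anti_card T (fun K k => (i K k).1) fun H k K k' l => by
    have := W.pos_lt (i H k).1 l
    rw [(i H k).2, (i K k').2] at this
    exact this.false

omit W in
variable (σ) in
/-- maximal elements -/
def Mx (a : P) (T : Finset ι) : Finset ι := {K ∈ T | ∀ L ∈ T, ¬Lt σ a K L}

theorem mx_card (T : Finset ι) (i : ∀ K ∈ T, In σ a b K) : #(Mx σ a T) ≤ d :=
  W.anti_card _ (fun K k => i K (mem_filter.1 k).1) fun _ k K k' =>
    (mem_filter.1 k).2 K (mem_filter.1 k').1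

theorem exists_mx {T : Finset ι} (i : ∀ K ∈ T, In σ a b K) (h : K ∈ T) :
    ∃ L ∈ Mx σ a T, Le σ a K L := by
  obtain ⟨L, l, m⟩ := exists_max_image {L ∈ T | Le σ a K L} (W.pos a b)
    ⟨K, mem_filter.2 ⟨h, .inl rfl⟩⟩
  obtain ⟨l1, l2⟩ := mem_filter.1 l
  refine ⟨L, mem_filter.2 ⟨l1, fun M k j => ?_⟩, l2⟩
  exact (W.pos_lt (i L l1) j).not_ge (m M (mem_filter.2 ⟨k, (W.le_lt l2 j).le⟩))

/-- Mirsky -/
theorem chain (n : ℕ) : ∀ T : Finset ι, (∀ K ∈ T, In σ a b K) → n * d < #T →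
    ∃ f : ℕ → ι, (∀ i ≤ n, f i ∈ T) ∧ ∀ i < n, Lt σ a (f i) (f (i + 1)) := by
  induction n with
  | zero =>
    intro T _ h
    obtain ⟨K, k⟩ := card_pos.1 (show 0 < #T by omega)
    exact ⟨fun _ => K, fun _ _ => k, fun _ h => by omega⟩
  | succ n ih =>
    intro T i h
    have h1 := W.mx_card T i
    have h2 := le_card_sdiff (Mx σ a T) T
    obtain ⟨f, f1, f2⟩ := ih (T \ Mx σ a T) (fun K k => i K (mem_sdiff.1 k).1)
      (by rw [add_mul] at h; omega)
    obtain ⟨k1, k2⟩ := mem_sdiff.1 (f1 n le_rfl)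
    simp only [Mx, mem_filter, k1, true_and, not_forall, not_not] at k2
    obtain ⟨L, l1, l2⟩ := k2
    refine ⟨fun j => if j ≤ n then f j else L, fun j _ => ?_, fun j hj => ?_⟩
    · dsimp only
      split_ifs with e
      exacts [(mem_sdiff.1 (f1 j e)).1, l1]
    · dsimp only
      rw [if_pos (by omega)]
      split_ifs with e
      · exact f2 j (by omega)
      · rwa [show j = n by omega]

end WS

variable (σ) in
/-- a chain of length four -/
def Ch4 (a : P) (T : ι → Prop) : Prop :=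
  ∃ x1 x2 x3 x4, T x1 ∧ T x2 ∧ T x3 ∧ T x4 ∧ Lt σ a x1 x2 ∧ Lt σ a x2 x3 ∧ Lt σ a x3 x4

variable (σ) in
/-- `H` crosses long chains on both sides of the cut `D` -/
def Mid (a b : P) (D : ι → Prop) (H : ι) : Prop :=
  Ch4 σ a (fun K => In σ a b K ∧ D K ∧ Cr σ H K) ∧ Ch4 σ a fun K => In σ a b K ∧ ¬D K ∧ Cr σ H K

variable (σ) in
/-- the orientation of a cut -/
def t0 (a b : P) (D : ι → Prop) (H : ι) : Bool := if D H then σ H b else σ H a

variable (σ) in
/-- the canonical orientation of a cut -/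
def tau (a b : P) (D : ι → Prop) (H : ι) : Bool := if Mid σ a b D H then true else t0 σ a b D H

variable (σ) in
/-- cuts -/
def Dn (a b : P) (D : ι → Prop) : Prop := ∀ H K, In σ a b H → Lt σ a H K → D K → D H

variable {D D' : ι → Prop}

theorem Dn.le (h : Dn σ a b D) (i : In σ a b H) (l : Le σ a H K) (k : D K) : D H := by
  rcases l with rfl | l
  exacts [k, h _ _ i l k]

theorem Ch4.mono {T T' : ι → Prop} (h : Ch4 σ a T) (k : ∀ x, T x → T' x) : Ch4 σ a T' := by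
  obtain ⟨x1, x2, x3, x4, h1, h2, h3, h4, h5⟩ := h
  exact ⟨x1, x2, x3, x4, k _ h1, k _ h2, k _ h3, k _ h4, h5⟩

theorem Ch4.rev {T : ι → Prop} (h : Ch4 σ a T) (k : ∀ x, T x → In σ a b x) : Ch4 σ b T := by
  obtain ⟨x1, x2, x3, x4, h1, h2, h3, h4, h5, h6, h7⟩ := h
  exact ⟨x4, x3, x2, x1, h4, h3, h2, h1, h7.rev (k _ h3) (k _ h4), h6.rev (k _ h2) (k _ h3),
    h5.rev (k _ h1) (k _ h2)⟩

theorem Mid.rev (h : Mid σ a b D H) (e : ∀ K, In σ a b K → (D' K ↔ ¬D K)) : Mid σ b a D' H :=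
  ⟨(h.2.rev fun _ k => k.1).mono fun x k => ⟨k.1.symm, (e x k.1).2 k.2.1, k.2.2⟩,
    (h.1.rev fun _ k => k.1).mono fun x k => ⟨k.1.symm, fun j => (e x k.1).1 j k.2.1, k.2.2⟩⟩

namespace WS

variable (W : WS σ d)
include W

theorem cmpD (hD : Dn σ a b D) (h : Lt σ a H H') (k : Lt σ a K K') (i1 : In σ a b H) (i2 : In σ a b H')
    (i3 : In σ a b K) (i4 : In σ a b K') (d1 : D H') (d2 : ¬D K) : Le σ a H K' :=
  W.cmp h k i1 i2 i3 i4 fun l => d2 (hD.le i3 l d1)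

theorem c0 (hD : Dn σ a b D) (H K : ι) : ∃ z, σ H z = t0 σ a b D H ∧ σ K z = t0 σ a b D K := by
  have key : ∀ H K, D H → ¬D K → ∃ z, σ H z = σ H b ∧ σ K z = σ K a := fun H K h k => by
    by_cases i : In σ a b H
    · by_cases j : In σ a b K
      · rcases tri i j with e | e | e | e
        · exact absurd (e ▸ h) k
        · by_contra n
          exact W.asymm e ⟨e.1.symm, fun z l => by_contra fun m => n ⟨z, bne m i.symm, l⟩⟩
        · exact absurd (hD _ _ j e h) k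
        · exact e _ _
      · exact ⟨b, rfl, (not_not.1 j).symm⟩
    · exact ⟨a, not_not.1 i, rfl⟩
  unfold t0
  split_ifs with h k k
  exacts [⟨b, rfl, rfl⟩, key H K h k, (key K H k h).imp fun _ h => h.symm, ⟨a, rfl, rfl⟩]

theorem mid_adj (hD : Dn σ a b D) (h : Mid σ a b D H) (n : H ≠ H') (p : Bool) :
    ∃ z, σ H z = p ∧ σ H' z = t0 σ a b D H' := by
  by_contra m
  have nc : ¬Cr σ H H' := fun k => m (k _ _)
  have key : ∀ (K : ι) (u : P), Cr σ H K → σ H' u = t0 σ a b D H' → σ K u ≠ t0 σ a b D K →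
      Cr σ H' K := fun K u k h1 h2 s t => by
    by_cases e : s = t0 σ a b D H'
    · by_cases f : t = t0 σ a b D K
      · rw [e, f]; exact W.c0 hD _ _
      · exact ⟨u, h1.trans e.symm, bne h2 f⟩
    · obtain ⟨z, z1, z2⟩ := k p t
      exact ⟨z, bne (fun l => m ⟨z, z1, l⟩) e, z2⟩
  by_cases e : σ H' a = t0 σ a b D H'
  · obtain ⟨x1, x2, -, -, h1, h2, -, -, l, -⟩ := h.1
    exact W.sq n nc l h1.2.2 h2.2.2 (key _ a h1.2.2 e (by rw [t0, if_pos h1.2.1]; exact h1.1))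
      (key _ a h2.2.2 e (by rw [t0, if_pos h2.2.1]; exact h2.1))
  · have e' : σ H' b = t0 σ a b D H' := by
      unfold t0 at e ⊢
      split_ifs at e ⊢
      exacts [rfl, absurd rfl e]
    obtain ⟨x1, x2, -, -, h1, h2, -, -, l, -⟩ := h.2
    exact W.sq n nc l h1.2.2 h2.2.2 (key _ b h1.2.2 e' (by rw [t0, if_neg h1.2.1]; exact h1.1.symm))
      (key _ b h2.2.2 e' (by rw [t0, if_neg h2.2.1]; exact h2.1.symm))

theorem mid_cr (hD : Dn σ a b D) (h : Mid σ a b D H) (h' : Mid σ a b D H') (n : H ≠ H') :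
    Cr σ H H' := by
  by_contra nc
  have key : ∀ H H' x y2 y3 y4, H ≠ H' → ¬Cr σ H H' → Mid σ a b D H → Cr σ H x → Le σ a x y2 →
      Lt σ a y2 y3 → Lt σ a y3 y4 → Cr σ H' y2 → In σ a b y3 ∧ D y3 ∧ Cr σ H' y3 →
      In σ a b y4 ∧ D y4 ∧ Cr σ H' y4 → False := fun H H' x y2 y3 y4 n nc h c l l2 l3 c2 c3 c4 => by
    obtain ⟨m1, m2, -, -, k1, k2, -, -, l', -⟩ := h.2
    have := W.cmpD hD l3 l' c3.1 c4.1 k1.1 k2.1 c4.2.1 k1.2.1
    exact W.sq n nc l2 (c.cvx k2.2.2 l (W.lt_le l2 this).le) (c.cvx k2.2.2 (W.le_lt l l2).le this)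
      c2 c3.2.2
  obtain ⟨x1, x2, x3, x4, h1, h2, h3, h4, l1, l2, l3⟩ := h.1
  obtain ⟨y1, y2, y3, y4, k1, k2, k3, k4, j1, j2, j3⟩ := h'.1
  by_cases e : Le σ a y1 x2
  · exact key H' H y1 x2 x3 x4 n.symm (fun k => nc k.symm) h' k1.2.2 e l2 l3 h2.2.2 h3 h4
  · exact key H H' x1 y2 y3 y4 n nc h h1.2.2 (W.cmp l1 j1 h1.1 h2.1 k1.1 k2.1 e) j2 j3 k2.2.2 k3 k4

theorem mid_fin (hD : Dn σ a b D) : {H | Mid σ a b D H}.Finite := by
  by_contra n
  obtain ⟨T, h1, h2⟩ := Set.Infinite.exists_subset_card_eq n (d + 1)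
  have := W.dim T fun H k K k' e => W.mid_cr hD (h1 k) (h1 k') e
  omega

/-- the canonical vertex of a cut -/
theorem exists_xv (hD : Dn σ a b D) : ∃ x, ∀ H, σ H x = tau σ a b D H := by
  refine W.ult _ (fun H K => ?_) a (((W.fin a b).union (W.mid_fin hD)).subset fun H h => ?_)
  · unfold tau
    split_ifs with h k k
    · by_cases e : H = K
      · obtain ⟨x, -, -, -, h1, -⟩ := h.1
        obtain ⟨z, z1, -⟩ := h1.2.2 true true
        exact ⟨z, z1, e ▸ z1⟩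
      · exact W.mid_cr hD h k e _ _
    · exact W.mid_adj hD h (fun e : H = K => k (e ▸ h)) _
    · exact (W.mid_adj hD k (fun e : K = H => h (e ▸ k)) _).imp fun _ h => h.symm
    · exact W.c0 hD H K
  · by_contra n
    simp only [Set.mem_union, Set.mem_ofPred_eq, not_or, not_not] at n
    refine h ?_
    rw [tau, if_neg n.2, t0]
    split_ifs
    exacts [n.1.symm, rfl]

end WS

end Crest.Agent.N233.Ou
end
end

-- ▼ part N233/Ou/Bi2
section

/-!
# Row 233 (helper51): the canonical bicombing of a median wall space without squares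
-/

set_option autoImplicit false

noncomputable section

namespace Crest.Agent.N233.Ou

open Classical Finset

variable {ι P : Type*} {σ : ι → P → Bool} {d : ℕ} {a b c : P} {H K L H' K' : ι}

namespace WS

variable (W : WS σ d)

theorem dn (a b : P) (t : ℤ) : Dn σ a b fun H => W.pos a b H ≤ t :=
  fun _ _ i l k => (W.pos_lt i l).le.trans k

/-- the canonical vertices -/
def X (a b : P) (t : ℤ) : P := (W.exists_xv (W.dn a b t)).choose

theorem X_spec (a b : P) (t : ℤ) (H : ι) : σ H (W.X a b t) = tau σ a b (fun H => W.pos a b H ≤ t) H :=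
  (W.exists_xv (W.dn a b t)).choose_spec H

theorem X_lo {t : ℤ} (h : ∀ H, In σ a b H → t < W.pos a b H) : W.X a b t = a :=
  W.inj _ _ fun H => by
    rw [W.X_spec, tau, if_neg fun ⟨⟨x, _, _, _, k, _⟩, _⟩ => (h x k.1).not_ge k.2.1, t0]
    split_ifs with e
    exacts [by_contra fun n => (h H (Ne.symm n)).not_ge e, rfl]

theorem X_hi {t : ℤ} (h : ∀ H, In σ a b H → W.pos a b H ≤ t) : W.X a b t = b :=
  W.inj _ _ fun H => by
    rw [W.X_spec, tau, if_neg fun ⟨_, x, _, _, _, k, _⟩ => k.2.1 (h x k.1), t0]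
    split_ifs with e
    exacts [rfl, by_contra fun n => e (h H n)]

omit W in
theorem mid_congr {D D' : ι → Prop} (e : ∀ K, In σ a b K → (D K ↔ D' K)) (h : Mid σ a b D H) :
    Mid σ a b D' H :=
  ⟨h.1.mono fun x k => ⟨k.1, (e x k.1).1 k.2.1, k.2.2⟩,
    h.2.mono fun x k => ⟨k.1, fun j => k.2.1 ((e x k.1).2 j), k.2.2⟩⟩

omit W in
theorem t0_congr {D D' : ι → Prop} (e : In σ a b H → (D H ↔ D' H)) : t0 σ a b D H = t0 σ a b D' H := by
  unfold t0
  by_cases i : In σ a b H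
  · exact if_congr (e i) rfl rfl
  · rw [show σ H a = σ H b from not_not.1 i, ite_self, ite_self]

omit W in
theorem t0_rev {D D' : ι → Prop} (e : In σ a b H → (D H ↔ ¬D' H)) : t0 σ b a D H = t0 σ a b D' H := by
  unfold t0
  by_cases i : In σ a b H
  · rw [if_congr (e i) rfl rfl, ite_not]
  · rw [show σ H a = σ H b from not_not.1 i, ite_self, ite_self]

theorem X_congr {s t : ℤ} (e : ∀ K, In σ a b K → (W.pos a b K ≤ s ↔ W.pos a b K ≤ t)) :
    W.X a b s = W.X a b t :=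
  W.inj _ _ fun H => by
    rw [W.X_spec, W.X_spec, tau, tau]
    exact if_congr ⟨mid_congr e, mid_congr fun K k => (e K k).symm⟩ rfl (t0_congr (e H))

theorem X_rev (a b : P) (t : ℤ) : W.X b a t = W.X a b (-t - 1) :=
  W.inj _ _ fun H => by
    rw [W.X_spec, W.X_spec, tau, tau]
    refine if_congr ⟨fun h => h.rev fun K k => ?_, fun h => h.rev fun K k => ?_⟩ rfl
      (t0_rev fun i => ?_)
    · rw [W.pos_rev k.symm]; omega
    · rw [W.pos_rev k]; omega
    · rw [W.pos_rev i]; omega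

/-- number of walls in position `t` -/
def cnt (a b : P) (t : ℤ) : ℕ := #{H ∈ W.Sp a b | W.pos a b H = t}

theorem cnt_le (a b : P) (t : ℤ) : W.cnt a b t ≤ d :=
  W.cls_card (a := a) (b := b) _ t fun _ k => by simpa using k

theorem cnt_rev (a b : P) (t : ℤ) : W.cnt b a t = W.cnt a b (-t) := by
  unfold cnt
  rw [W.Sp_comm b a]
  refine congrArg _ (filter_congr fun K k => ?_)
  rw [W.pos_rev (W.mem_Sp.1 k)]
  omega

theorem near (a b : P) (t : ℤ) : #(W.Sp (W.X a b (t - 1)) (W.X a b t)) ≤ 3 * d := by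
  have h1 := W.dim (W.mid_fin (W.dn a b t)).toFinset fun H k K k' e =>
    W.mid_cr (W.dn a b t) (by simpa using k) (by simpa using k') e
  have h2 := W.dim (W.mid_fin (W.dn a b (t - 1))).toFinset fun H k K k' e =>
    W.mid_cr (W.dn a b (t - 1)) (by simpa using k) (by simpa using k') e
  have h3 := W.cnt_le a b t
  have h4 := card_union_le (W.mid_fin (W.dn a b t)).toFinset (W.mid_fin (W.dn a b (t - 1))).toFinset
  refine (card_le_card (t := (W.mid_fin (W.dn a b t)).toFinset ∪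
    (W.mid_fin (W.dn a b (t - 1))).toFinset ∪ {H ∈ W.Sp a b | W.pos a b H = t}) fun H h => ?_).trans
    ((card_union_le _ _).trans (by unfold cnt at h3; omega))
  by_contra n
  simp only [mem_union, Set.Finite.mem_toFinset, Set.mem_ofPred_eq, mem_filter, mem_Sp, not_or,
    not_and] at n
  refine W.mem_Sp.1 h ?_
  rw [W.X_spec, W.X_spec, tau, tau, if_neg n.1.1, if_neg n.1.2]
  exact t0_congr fun i => by have := n.2 i; omega

/-- edges of the Rips graph -/
abbrev E : Type _ := {p : P × P // #(W.Sp p.1 p.2) ≤ 3 * d}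

/-- the reversed edge -/
def rv (e : W.E) : W.E := ⟨(e.1.2, e.1.1), (congrArg card (W.Sp_comm _ _)).trans_le e.2⟩

/-- the antisymmetric chain of an edge -/
def ch (e : W.E) : W.E →₀ ℤ := Finsupp.single e 1 - Finsupp.single (W.rv e) 1

/-- the step at position `t` -/
def stp (a b : P) (t : ℤ) : W.E := ⟨(W.X a b (t - 1), W.X a b t), W.near a b t⟩

/-- the contribution of position `t` -/
def tm (a b : P) (t : ℤ) : W.E →₀ ℤ := (d.factorial / W.cnt a b t : ℕ) • W.ch (W.stp a b t)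

/-- **the bicombing** -/
def q (a b : P) : W.E →₀ ℤ := ∑ K ∈ W.Sp a b, W.tm a b (W.pos a b K)

theorem tm_rev (a b : P) (t : ℤ) : W.tm b a (-t) = -W.tm a b t := by
  have e : W.stp b a (-t) = W.rv (W.stp a b t) :=
    Subtype.ext (Prod.ext ((W.X_rev _ _ _).trans (congrArg (W.X a b) (by omega)))
      ((W.X_rev _ _ _).trans (congrArg (W.X a b) (by omega))))
  rw [tm, tm, cnt_rev, neg_neg, ← smul_neg, e, ch, ch, neg_sub]
  rfl

theorem tm_supp (a b : P) (t : ℤ) : #(W.tm a b t).support ≤ 2 := by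
  refine (card_le_card (t := {W.stp a b t, W.rv (W.stp a b t)}) fun e he => ?_).trans card_le_two
  by_contra n
  simp only [mem_insert, mem_singleton, not_or] at n
  refine Finsupp.mem_support_iff.1 he ?_
  rw [tm, ch, Finsupp.smul_apply, Finsupp.sub_apply, Finsupp.single_eq_of_ne n.1,
    Finsupp.single_eq_of_ne n.2, sub_self, smul_zero]

/-- the boundary -/
def bdh : (W.E →₀ ℤ) →+ (P →₀ ℤ) :=
  Finsupp.mapDomain.addMonoidHom (fun e : W.E => e.1.2) -
    Finsupp.mapDomain.addMonoidHom fun e : W.E => e.1.1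

theorem bdh_ch (e : W.E) : W.bdh (W.ch e) = Finsupp.single e.1.2 2 - Finsupp.single e.1.1 2 := by
  have h : ∀ x : P, (Finsupp.single x 2 : P →₀ ℤ) = Finsupp.single x 1 + Finsupp.single x 1 :=
    fun x => by rw [← Finsupp.single_add]; rfl
  simp only [ch, map_sub, bdh, AddMonoidHom.sub_apply, Finsupp.mapDomain.addMonoidHom_apply,
    Finsupp.mapDomain_single, rv, h]
  abel

theorem bdh_q (a b : P) :
    W.bdh (W.q a b) = Finsupp.single b (2 * d.factorial : ℤ) - Finsupp.single a (2 * d.factorial : ℤ) := by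
  set n := #(W.Sp a b)
  let F : ℕ → P →₀ ℤ := fun i => Finsupp.single (W.X a b ((i : ℤ) - n - 1)) (2 * d.factorial : ℤ)
  have h1 : ∀ K ∈ W.Sp a b, (W.pos a b K + n).toNat ∈ range (2 * n + 1) := fun K _ => by
    have := W.pos_abs a b K
    rw [mem_range]
    omega
  have h2 : ∀ i ∈ range (2 * n + 1), ∑ K ∈ W.Sp a b with (W.pos a b K + n).toNat = i,
      W.bdh (W.tm a b (W.pos a b K)) = F (i + 1) - F i := fun i _ => by
    have e : {K ∈ W.Sp a b | (W.pos a b K + n).toNat = i} = {K ∈ W.Sp a b | W.pos a b K = i - n} :=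
      filter_congr fun K _ => by have := W.pos_abs a b K; omega
    rw [e, sum_congr rfl fun K k => by rw [(mem_filter.1 k).2], sum_const, ← cnt]
    have e1 : ((i + 1 : ℕ) : ℤ) - n - 1 = i - n := by omega
    simp only [F, e1]
    rcases (W.cnt a b (i - n)).eq_zero_or_pos with z | z
    · rw [z, zero_smul, W.X_congr (s := i - n) (t := i - n - 1), sub_self]
      intro K k
      have : W.pos a b K ≠ i - n := fun j => by
        have := card_pos.2 ⟨K, (mem_filter (p := fun H => W.pos a b H = i - n)).2 ⟨W.mem_Sp.2 k, j⟩⟩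
        unfold cnt at z
        omega
      omega
    · rw [tm, map_nsmul, smul_smul, Nat.mul_div_cancel' (Nat.dvd_factorial z (W.cnt_le _ _ _)), bdh_ch,
        smul_sub, Finsupp.smul_single, Finsupp.smul_single, nsmul_eq_mul, mul_comm (d.factorial : ℤ)]
      rfl
  rw [q, map_sum, ← sum_fiberwise_of_maps_to h1, sum_congr rfl h2, sum_range_sub]
  simp only [F]
  rw [W.X_hi, W.X_lo]
  · intro H _; have := W.pos_abs a b H; omega
  · intro H _; have := W.pos_abs a b H; omega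

section transport

variable {f : P → P} (hf : Function.Surjective f) {τ : ι ≃ ι} (hτ : ∀ H z, σ (τ H) (f z) = σ H z)
include hτ

omit W in
theorem in_map : In σ (f a) (f b) (τ H) ↔ In σ a b H := by simp [In, hτ]

include hf

omit W in
theorem lt_map : Lt σ (f a) (τ H) (τ K) ↔ Lt σ a H K := by
  rw [Lt, Lt, hf.forall]
  simp only [hτ, ne_eq, τ.injective.eq_iff]

omit W in
theorem cr_map : Cr σ (τ H) (τ K) ↔ Cr σ H K := 
  forall₂_congr fun _ _ => by rw [hf.exists]; simp only [hτ]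

omit hf in
theorem Sp_map (a b : P) : W.Sp (f a) (f b) = (W.Sp a b).map τ.toEmbedding := by
  ext H
  obtain ⟨K, rfl⟩ := τ.surjective H
  simp [in_map hτ]

theorem pos_map (a b : P) (K : ι) : W.pos (f a) (f b) (τ K) = W.pos a b K := by
  simp only [pos, W.Sp_map hτ, filter_map, card_map, Function.comp_def, Equiv.coe_toEmbedding,
    lt_map hf hτ]

theorem cnt_map (a b : P) (t : ℤ) : W.cnt (f a) (f b) t = W.cnt a b t := by
  simp only [cnt, W.Sp_map hτ, filter_map, card_map, Function.comp_def, Equiv.coe_toEmbedding,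
    W.pos_map hf hτ]

omit W in
theorem ch4_map (T : ι → Prop) : Ch4 σ (f a) T ↔ Ch4 σ a fun K => T (τ K) := by
  refine ⟨fun ⟨x1, x2, x3, x4, h⟩ => ?_, fun ⟨x1, x2, x3, x4, h⟩ => ⟨τ x1, τ x2, τ x3, τ x4, ?_⟩⟩
  · obtain ⟨y1, rfl⟩ := τ.surjective x1
    obtain ⟨y2, rfl⟩ := τ.surjective x2
    obtain ⟨y3, rfl⟩ := τ.surjective x3
    obtain ⟨y4, rfl⟩ := τ.surjective x4
    exact ⟨y1, y2, y3, y4, by simpa only [lt_map hf hτ] using h⟩
  · simpa only [lt_map hf hτ] using h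

theorem X_map (a b : P) (t : ℤ) : W.X (f a) (f b) t = f (W.X a b t) :=
  W.inj _ _ fun H => by
    obtain ⟨K, rfl⟩ := τ.surjective H
    rw [hτ, W.X_spec, W.X_spec]
    simp only [tau, t0, Mid, ch4_map hf hτ, hτ, W.pos_map hf hτ, in_map hτ, cr_map hf hτ]
    congr

end transport

section act

variable {G : Type*} [Group G] [MulAction G P] (act : ∀ (g : G) H, ∃ K, ∀ z, σ K (g • z) = σ H z)
include W act

theorem exists_tau (g : G) : ∃ τ : ι ≃ ι, ∀ H z, σ (τ H) (g • z) = σ H z := by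
  choose T hT using act
  have key : ∀ (g : G) H, T g⁻¹ (T g H) = H := fun g H => W.ext _ _ (.inl fun z => by
    rw [← hT g H z, ← hT g⁻¹ (T g H) (g • z), inv_smul_smul])
  exact ⟨⟨T g, T g⁻¹, key g, fun H => by simpa using key g⁻¹ H⟩, hT g⟩

theorem card_smul (g : G) (a b : P) : #(W.Sp (g • a) (g • b)) = #(W.Sp a b) := by
  obtain ⟨τ, hτ⟩ := W.exists_tau act g
  rw [W.Sp_map (f := fun z => g • z) hτ, card_map]

/-- the action on the edges -/
@[reducible] def eact : MulAction G W.E where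
  smul g e := ⟨g • e.1, (W.card_smul act g _ _).trans_le e.2⟩
  one_smul e := Subtype.ext (one_smul G e.1)
  mul_smul g h e := Subtype.ext (mul_smul g h e.1)

theorem q_smul (g : G) (a b : P) (e : W.E) :
    letI := W.eact act; W.q (g • a) (g • b) (g • e) = W.q a b e := by
  let _ := W.eact act
  obtain ⟨τ, hτ⟩ := W.exists_tau act g
  have hf : Function.Surjective fun z : P => g • z := MulAction.surjective g
  have h1 : ∀ t, W.stp (g • a) (g • b) t = g • W.stp a b t := fun t =>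
    Subtype.ext (Prod.ext (W.X_map hf hτ a b _) (W.X_map hf hτ a b _))
  have h2 : ∀ e', W.ch (g • e') (g • e) = W.ch e' e := fun e' => by
    have : ∀ e' : W.E, (Finsupp.single (g • e') (1 : ℤ)) (g • e) = Finsupp.single e' (1 : ℤ) e :=
      fun e' => Finsupp.single_apply_left (MulAction.injective g) _ _ _
    rw [ch, ch, Finsupp.sub_apply, Finsupp.sub_apply, this, ← this (W.rv e')]
    rfl
  rw [q, q, W.Sp_map (f := fun z => g • z) hτ, sum_map, Finsupp.finsetSum_apply,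
    Finsupp.finsetSum_apply]
  refine sum_congr rfl fun K _ => ?_
  rw [Equiv.coe_toEmbedding, W.pos_map hf hτ, tm, tm, W.cnt_map hf hτ, h1, Finsupp.smul_apply,
    Finsupp.smul_apply, h2]

end act

end WS

end Crest.Agent.N233.Ou
end
end

-- ▼ part N233/Ou/Bi3
section

/-!
# Row 233 (helper51): the bicombing is canonical along the legs of a triangle
-/

set_option autoImplicit false

noncomputable section

namespace Crest.Agent.N233.Ou

open Classical Finset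

variable {ι P : Type*} {σ : ι → P → Bool} {d : ℕ} {a b c : P} {H K L J M H' K' : ι} {D D' : ι → Prop}

section defs
variable (σ) (a b c)

/-- the leg at `a` -/
def Lg (H : ι) : Prop := In σ a b H ∧ In σ a c H

/-- exceptional walls -/
def Exc (H : ι) : Prop := ∃ J K, (In σ a b J ∨ In σ a c J) ∧ ¬Lg σ a b c J ∧ Lg σ a b c K ∧
  Cr σ H J ∧ Cr σ H K ∧ Lt σ a K J

/-- ordinary walls of the leg -/
def A0 (H : ι) : Prop := Lg σ a b c H ∧ (∃ K, Lg σ a b c K ∧ Lt σ a H K) ∧ ¬Exc σ a b c H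

/-- walls of the leg at `b` that reach into the leg at `a` -/
def Lam (J : ι) : Prop := In σ a b J ∧ ¬In σ a c J ∧
  ∃ K, Lg σ a b c K ∧ (∃ L, Lg σ a b c L ∧ Lt σ a K L) ∧ Cr σ K J

/-- special walls -/
def Z (z : ι) : Prop := (Lg σ a b c z ∧ ¬A0 σ a b c z) ∨ Lam σ a b c z

/-- a chain of length six -/
def Ch6 (T : ι → Prop) : Prop := ∃ f : ℕ → ι, (∀ i ≤ 5, T (f i)) ∧ ∀ i < 5, Lt σ a (f i) (f (i + 1))

end defs

theorem Lg.symm (h : Lg σ a b c H) : Lg σ a c b H := ⟨h.2, h.1⟩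

theorem Exc.symm (h : Exc σ a b c H) : Exc σ a c b H := by
  obtain ⟨J, K, h1, h2, h3, h4⟩ := h
  exact ⟨J, K, h1.symm, fun k => h2 k.symm, h3.symm, h4⟩

theorem A0.symm (h : A0 σ a b c H) : A0 σ a c b H :=
  ⟨h.1.symm, h.2.1.imp fun _ k => ⟨k.1.symm, k.2⟩, fun k => h.2.2 k.symm⟩

theorem Lg.down (h : Lg σ a b c K) (l : Lt σ a H K) (i : In σ a b H) : Lg σ a b c H := by
  refine ⟨i, fun e => h.2 (l.2 c e.symm).symm⟩

theorem Lg.cr (h : Lg σ a b c K) (i : In σ a b J) (n : ¬Lg σ a b c J) (l : ¬Lt σ a K J) : Cr σ K J :=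
  (((tri h.1 i).resolve_left fun e => n (e ▸ h)).resolve_left l).resolve_left fun k => n (h.down k i)

theorem Ch6.ch4 {T : ι → Prop} (h : Ch6 σ a T) : Ch4 σ a T := by
  obtain ⟨f, h1, h2⟩ := h
  exact ⟨f 0, f 1, f 2, f 3, h1 _ (by omega), h1 _ (by omega), h1 _ (by omega), h1 _ (by omega),
    h2 _ (by omega), h2 _ (by omega), h2 _ (by omega)⟩

theorem Ch6.mono {T T' : ι → Prop} (h : Ch6 σ a T) (k : ∀ x, T x → T' x) : Ch6 σ a T' :=
  h.imp fun _ h => ⟨fun i j => k _ (h.1 i j), h.2⟩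

namespace WS

variable (W : WS σ d)

theorem mid4 {T : ι → Prop} (h : Ch6 σ a T) (c1 : Cr σ H K) (c2 : Cr σ H L)
    (lo : ∀ x y, T x → T y → Lt σ a x y → Le σ a K y) (hi : ∀ x y, T x → T y → Lt σ a x y → Le σ a x L)
    (W : WS σ d) : Ch4 σ a fun M => T M ∧ Cr σ H M := by
  obtain ⟨f, h1, h2⟩ := h
  have l := lo _ _ (h1 0 (by omega)) (h1 1 (by omega)) (h2 0 (by omega))
  have u := hi _ _ (h1 4 (by omega)) (h1 5 (by omega)) (h2 4 (by omega))
  have l1 := h2 1 (by omega)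
  have l2 := h2 2 (by omega)
  have l3 := h2 3 (by omega)
  exact ⟨f 1, f 2, f 3, f 4,
    ⟨h1 _ (by omega), c1.cvx c2 l (W.lt_le (W.trans l1 (W.trans l2 l3)) u).le⟩,
    ⟨h1 _ (by omega), c1.cvx c2 (W.le_lt l l1).le (W.lt_le (W.trans l2 l3) u).le⟩,
    ⟨h1 _ (by omega), c1.cvx c2 (W.le_lt l (W.trans l1 l2)).le (W.lt_le l3 u).le⟩,
    ⟨h1 _ (by omega), c1.cvx c2 (W.le_lt l (W.trans l1 (W.trans l2 l3))).le u⟩, l1, l2, l3⟩

theorem pos_sub (h : A0 σ a b c H) (k : A0 σ a b c K) (e : Cr σ H K) :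
    W.pos a b H - W.pos a b K = W.pos a c H - W.pos a c K := by
  have h1 : ∀ H, Lg σ a b c H → {L ∈ W.Sp a b | Lt σ a L H} = {L ∈ W.Sp a c | Lt σ a L H} :=
    fun H h => by
      ext L
      simp only [mem_filter, mem_Sp]
      exact ⟨fun l => ⟨(h.down l.2 l.1).2, l.2⟩, fun l => ⟨(h.symm.down l.2 l.1).2, l.2⟩⟩
  have h2 : ∀ (b c : P) H, #{L ∈ W.Sp a b | Lt σ a H L} =
      #{L ∈ W.Sp a b ∩ W.Sp a c | Lt σ a H L} + #{L ∈ W.Sp a b \ W.Sp a c | Lt σ a H L} :=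
    fun b c H => by
      rw [← card_union_of_disjoint (disjoint_filter_filter (disjoint_sdiff_inter _ _).symm),
        ← filter_union, union_comm, sdiff_union_inter]
  have h3 : ∀ (b c : P) H K, A0 σ a b c K → Lg σ a b c H → Cr σ H K →
      {L ∈ W.Sp a b \ W.Sp a c | Lt σ a H L} ⊆ {L ∈ W.Sp a b \ W.Sp a c | Lt σ a K L} :=
    fun b c H K k h e L l => by
      simp only [mem_filter, mem_sdiff, mem_Sp] at l ⊢
      have n : ¬Lg σ a b c L := fun j => l.1.2 j.2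
      exact ⟨l.1, by_contra fun m => k.2.2 ⟨L, H, .inl l.1.1, n, h, k.1.cr l.1.1 n m, e.symm, l.2⟩⟩
  have e1 := Subset.antisymm (h3 b c H K k h.1 e) (h3 b c K H h k.1 e.symm)
  have e2 := Subset.antisymm (h3 c b H K k.symm h.1.symm e) (h3 c b K H h.symm k.1.symm e.symm)
  simp only [pos, h1 H h.1, h1 K k.1, h2 b c, e1]
  rw [h2 c b, h2 c b, e2, inter_comm (W.Sp a c)]
  omega

theorem pos_le_iff (h : A0 σ a b c H) (k : A0 σ a b c K) :
    W.pos a b H ≤ W.pos a b K ↔ W.pos a c H ≤ W.pos a c K := by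
  rcases tri h.1.1 k.1.1 with e | e | e | e
  · simp [e]
  · exact iff_of_true (W.pos_lt h.1.1 e).le (W.pos_lt h.1.2 e).le
  · exact iff_of_false (W.pos_lt k.1.1 e).not_ge (W.pos_lt k.1.2 e).not_ge
  · have := W.pos_sub h k e
    omega

variable (a b c) in
/-- `K` is far from all special walls -/
structure Far (K : ι) : Prop where
  ne : ∀ z, Z σ a b c z → W.pos a b z ≠ W.pos a b K
  lo : ∀ z, Z σ a b c z → W.pos a b z < W.pos a b K →
    Ch6 σ a fun M => A0 σ a b c M ∧ W.pos a b z < W.pos a b M ∧ W.pos a b M < W.pos a b K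
  hi : ∀ z, Z σ a b c z → W.pos a b K < W.pos a b z →
    Ch6 σ a fun M => A0 σ a b c M ∧ W.pos a b K < W.pos a b M ∧ W.pos a b M < W.pos a b z
  lam : ∀ J, Lam σ a b c J → Lt σ a K J →
    Ch6 σ a fun M => A0 σ a b c M ∧ W.pos a b K < W.pos a b M ∧ Lt σ a M J
  top : Ch6 σ a fun M => A0 σ a b c M ∧ W.pos a b K < W.pos a b M

variable (a b c) in
/-- corresponding cuts at a good wall -/
structure Cut (K : ι) (D D' : ι → Prop) : Prop where
  a0 : A0 σ a b c K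
  f1 : W.Far a b c K
  f2 : W.Far a c b K
  d1 : Dn σ a b D
  d2 : Dn σ a c D'
  l1 : ∀ H, W.pos a b H < W.pos a b K → D H
  u1 : ∀ H, D H → W.pos a b H ≤ W.pos a b K
  l2 : ∀ H, W.pos a c H < W.pos a c K → D' H
  u2 : ∀ H, D' H → W.pos a c H ≤ W.pos a c K
  eq : ∀ M, A0 σ a b c M → (D M ↔ D' M)

variable {W}

theorem Cut.symm (h : W.Cut a b c K D D') : W.Cut a c b K D' D :=
  ⟨h.a0.symm, h.f2, h.f1, h.d2, h.d1, h.l2, h.u2, h.l1, h.u1, fun M k => (h.eq M k.symm).symm⟩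

theorem lam_of (k : A0 σ a b c K) (i : In σ a b J) (n : ¬Lg σ a b c J) (l : ¬Lt σ a K J) :
    Lam σ a b c J := ⟨i, fun j => n ⟨i, j⟩, K, k.1, k.2.1, k.1.cr i n l⟩

theorem z_of (k : A0 σ a b c K) (i : In σ a b J) (n : ¬A0 σ a b c J) (l : W.pos a b J ≤ W.pos a b K) :
    Z σ a b c J := by
  by_cases e : Lg σ a b c J
  exacts [.inl ⟨e, n⟩, .inr (lam_of k i e fun j => (W.pos_lt k.1.1 j).not_ge l)]

theorem Far.up (h : W.Far a b c K) (i : In σ a b J) (n : ¬Lg σ a b c J) (l : Lt σ a K J) :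
    Ch6 σ a fun M => A0 σ a b c M ∧ W.pos a b K < W.pos a b M ∧ Lt σ a M J := by
  by_cases e : Lam σ a b c J
  · exact h.lam J e l
  · exact h.top.mono fun M m => ⟨m.1, m.2, by_contra fun j => e (lam_of m.1 i n j)⟩

theorem Cut.mid (h : W.Cut a b c K D D') (m : Mid σ a b D H) : Mid σ a c D' H := by
  obtain ⟨⟨x1, x2, x3, x4, p1, p2, p3, p4, r1, r2, r3⟩, y1, y2, y3, y4, q1, q2, q3, q4, s1, s2, s3⟩ := m
  have nd : ∀ M, W.pos a b K < W.pos a b M → ¬D M := fun M l k => l.not_ge (h.u1 M k)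
  have ge : ∀ M, ¬D M → W.pos a b K ≤ W.pos a b M := fun M k => not_lt.1 fun l => k (h.l1 M l)
  constructor
  · by_cases e : A0 σ a b c x4
    · have d4 := (h.eq _ e).1 p4.2.1
      have g3 := e.1.down r3 p3.1
      have g2 := g3.down r2 p2.1
      have g1 := g2.down r1 p1.1
      have d3 := h.d2 _ _ g3.2 r3 d4
      have d2 := h.d2 _ _ g2.2 r2 d3
      exact ⟨x1, x2, x3, x4, ⟨g1.2, h.d2 _ _ g1.2 r1 d2, p1.2.2⟩, ⟨g2.2, d2, p2.2.2⟩,
        ⟨g3.2, d3, p3.2.2⟩, ⟨e.1.2, d4, p4.2.2⟩, r1, r2, r3⟩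
    · have z := z_of h.a0 p4.1 e (h.u1 _ p4.2.1)
      refine (mid4 (h.f1.lo _ z ((h.u1 _ p4.2.1).lt_of_ne (h.f1.ne _ z))) p3.2.2 q2.2.2
        (fun u v hu hv l => W.cmp r3 l p3.1 p4.1 hu.1.1.1 hv.1.1.1 fun j =>
          hu.2.1.not_ge (W.pos_le hu.1.1.1 j))
        (fun u v hu hv l => W.cmpD h.d1 l s1 hu.1.1.1 hv.1.1.1 q1.1 q2.1 (h.l1 _ hv.2.2) q1.2.1)
        W).mono fun M k => ⟨k.1.1.1.2, (h.eq M k.1.1).1 (h.l1 M k.1.2.2), k.2⟩
  have lo : ∀ u v, A0 σ a b c u → A0 σ a b c v → W.pos a b K < W.pos a b u → Lt σ a u v →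
      Le σ a x1 v := fun u v hu hv k l => W.cmpD h.d1 r1 l p1.1 p2.1 hu.1.1 hv.1.1 p2.2.1 (nd u k)
  by_cases e : Lg σ a b c y4
  · have g3 := e.down s3 q3.1
    have g2 := g3.down s2 q2.1
    have g1 := g2.down s1 q1.1
    by_cases e' : A0 σ a b c y1
    · have d1 : ¬D' y1 := fun k => q1.2.1 ((h.eq _ e').2 k)
      have d2 : ¬D' y2 := fun k => d1 (h.d2 _ _ g1.2 s1 k)
      have d3 : ¬D' y3 := fun k => d2 (h.d2 _ _ g2.2 s2 k)
      exact ⟨y1, y2, y3, y4, ⟨g1.2, d1, q1.2.2⟩, ⟨g2.2, d2, q2.2.2⟩, ⟨g3.2, d3, q3.2.2⟩,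
        ⟨e.2, fun k => d3 (h.d2 _ _ g3.2 s3 k), q4.2.2⟩, s1, s2, s3⟩
    · have z : Z σ a b c y1 := .inl ⟨g1, e'⟩
      refine (mid4 (h.f1.hi _ z ((ge _ q1.2.1).lt_of_ne (h.f1.ne _ z).symm)) p1.2.2 q2.2.2
        (fun u v hu hv l => lo u v hu.1 hv.1 hu.2.1 l)
        (fun u v hu hv l => W.cmp l s1 hu.1.1.1 hv.1.1.1 q1.1 q2.1 fun j =>
          hv.2.2.not_ge (W.pos_le q1.1 j))
        W).mono fun M k => ⟨k.1.1.1.2, fun j => nd M k.1.2.1 ((h.eq M k.1.1).2 j), k.2⟩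
  · have l : Lt σ a K y4 := by_contra fun n => by
      have cK := h.a0.1.cr q4.1 e n
      have n3 : ¬Lt σ a K y3 := fun j => n (W.trans j s3)
      by_cases g : Lg σ a b c y3
      · rcases tri h.a0.1.1 q3.1 with j | j | j | j
        · exact n (j ▸ s3)
        · exact n3 j
        · exact (W.pos_lt q3.1 j).not_ge (ge _ q3.2.1)
        · exact h.a0.2.2 ⟨y4, y3, .inl q4.1, e, g, cK, j, s3⟩
      · obtain ⟨L, l1, l2⟩ := h.a0.2.1
        exact W.sq l2.1 l2.ncr s3 (h.a0.1.cr q3.1 g n3) cK (l1.cr q3.1 g fun j => n3 (W.trans l2 j))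
          (l1.cr q4.1 e fun j => n (W.trans l2 j))
    exact (mid4 (h.f1.up q4.1 e l) p1.2.2 q4.2.2 (fun u v hu hv l => lo u v hu.1 hv.1 hu.2.1 l)
      (fun u v hu _ _ => hu.2.2.le) W).mono
      fun M k => ⟨k.1.1.1.2, fun j => nd M k.1.2.1 ((h.eq M k.1.1).2 j), k.2⟩

theorem Cut.mid_lg (h : W.Cut a b c K D D') (g : Lg σ a b c H) (h1 : D H) (h2 : ¬D' H) :
    Mid σ a b D H := by
  have n : ¬A0 σ a b c H := fun e => h2 ((h.eq H e).1 h1)
  have z : Z σ a b c H := .inl ⟨g, n⟩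
  have z' : Z σ a c b H := .inl ⟨g.symm, fun e => n e.symm⟩
  have g1 := h.u1 H h1
  have g2 : W.pos a c K ≤ W.pos a c H := not_lt.1 fun l => h2 (h.l2 H l)
  refine ⟨(h.f1.lo H z (g1.lt_of_ne (h.f1.ne H z))).ch4.mono fun M m => ⟨m.1.1.1, h.l1 M m.2.2, ?_⟩,
    (h.f2.hi H z' (g2.lt_of_ne (h.f2.ne H z').symm)).ch4.mono fun M m =>
      ⟨m.1.1.2, fun k => m.2.1.not_ge (h.u2 M ((h.eq M m.1.symm).1 k)), ?_⟩⟩
  · rcases tri g.1 m.1.1.1 with j | j | j | j
    · exact absurd (j ▸ m.1) n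
    · exact absurd (h.d2 _ _ g.2 j ((h.eq M m.1).1 (h.l1 M m.2.2))) h2
    · exact absurd (W.pos_lt m.1.1.1 j) m.2.1.not_gt
    · exact j
  · rcases tri g.1 m.1.1.2 with j | j | j | j
    · exact absurd (j ▸ m.1.symm) n
    · exact absurd (W.pos_lt g.2 j) m.2.2.not_gt
    · exact absurd (h.u2 M ((h.eq M m.1.symm).1 (h.d1 _ _ m.1.1.2 j h1))) m.2.1.not_ge
    · exact j

theorem Cut.mid_lam (h : W.Cut a b c K D D') (i : In σ a b J) (n : ¬Lg σ a b c J) (h1 : D J) :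
    Mid σ a b D J := by
  have g1 := h.u1 J h1
  have z := z_of h.a0 i (fun e => n e.1) g1
  refine ⟨(h.f1.lo J z (g1.lt_of_ne (h.f1.ne J z))).ch4.mono fun M m => ⟨m.1.1.1, h.l1 M m.2.2,
    (m.1.1.cr i n fun j => (W.pos_lt m.1.1.1 j).not_gt m.2.1).symm⟩,
    h.f1.top.ch4.mono fun M m => ⟨m.1.1.1, fun k => m.2.not_ge (h.u1 M k),
      (m.1.1.cr i n fun j => (W.pos_lt m.1.1.1 j).not_gt (g1.trans_lt m.2)).symm⟩⟩

theorem Cut.tau_eq (h : W.Cut a b c K D D') (H : ι) : tau σ a b D H = tau σ a c D' H := by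
  unfold tau
  by_cases m : Mid σ a b D H
  · rw [if_pos m, if_pos (h.mid m)]
  have m' : ¬Mid σ a c D' H := fun k => m (h.symm.mid k)
  rw [if_neg m, if_neg m']
  by_cases g : Lg σ a b c H
  · unfold t0
    rw [bne g.1.symm g.2.symm]
    exact if_congr ⟨fun k => by_contra fun n => m (h.mid_lg g k n),
      fun k => by_contra fun n => m' (h.symm.mid_lg g.symm k n)⟩ rfl rfl
  · have key : ∀ (b c : P) D D', W.Cut a b c K D D' → ¬Mid σ a b D H → ¬Lg σ a b c H →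
        t0 σ a b D H = σ H a := fun b c D D' h m g => by
      unfold t0
      split_ifs with e
      exacts [by_contra fun n => m (h.mid_lam (Ne.symm n) g e), rfl]
    rw [key b c D D' h m g, key c b D' D h.symm m' fun k => g k.symm]

/-- **good walls contribute the same to both sides** -/
theorem tm_eq (k : A0 σ a b c K) (f1 : W.Far a b c K) (f2 : W.Far a c b K) :
    W.tm a b (W.pos a b K) = W.tm a c (W.pos a c K) := by
  have h1 : W.X a b (W.pos a b K) = W.X a c (W.pos a c K) := W.inj _ _ fun H => by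
    rw [W.X_spec, W.X_spec]
    exact Cut.tau_eq ⟨k, f1, f2, W.dn _ _ _, W.dn _ _ _, fun _ l => l.le, fun _ l => l, fun _ l => l.le,
      fun _ l => l, fun M m => W.pos_le_iff m k⟩ H
  have h2 : W.X a b (W.pos a b K - 1) = W.X a c (W.pos a c K - 1) := W.inj _ _ fun H => by
    rw [W.X_spec, W.X_spec]
    exact Cut.tau_eq ⟨k, f1, f2, W.dn _ _ _, W.dn _ _ _, fun _ l => by omega, fun _ l => by omega,
      fun _ l => by omega, fun _ l => by omega, fun M m => by have := W.pos_le_iff k m; omega⟩ H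
  have key : ∀ b c : P, A0 σ a b c K → W.Far a b c K →
      {H ∈ W.Sp a b | W.pos a b H = W.pos a b K} ⊆ {H ∈ W.Sp a c | W.pos a c H = W.pos a c K} :=
    fun b c k f H l => by
      simp only [mem_filter, mem_Sp] at l ⊢
      have m : A0 σ a b c H := by_contra fun n => f.ne H (z_of k l.1 n l.2.le) l.2
      exact ⟨m.1.2, ((W.pos_le_iff m k).1 l.2.le).antisymm ((W.pos_le_iff k m).1 l.2.ge)⟩
  have h3 : W.cnt a b (W.pos a b K) = W.cnt a c (W.pos a c K) :=
    congrArg card (Subset.antisymm (key b c k f1) (key c b k.symm f2))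
  rw [tm, tm, h3, show W.stp a b (W.pos a b K) = W.stp a c (W.pos a c K) from
    Subtype.ext (Prod.ext h2 h1)]

end WS

end Crest.Agent.N233.Ou
end
end

-- ▼ part N233/Ou/Bi4
section

/-!
# Row 233 (helper51): bounded triangle defect of the bicombing
-/

set_option autoImplicit false

noncomputable section

namespace Crest.Agent.N233.Ou

open Classical Finset

variable {ι P : Type*} {σ : ι → P → Bool} {d : ℕ} {a b c : P} {H K L J M H' K' : ι}

namespace WS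

variable (W : WS σ d)

theorem lam_card (a b c : P) : #{J ∈ W.Sp a b | Lam σ a b c J} ≤ d * d := by
  let T := {K ∈ W.Sp a b | Lg σ a b c K ∧ ∃ L, Lg σ a b c L ∧ Lt σ a K L}
  have hT : ∀ K ∈ T, In σ a b K := fun K k => W.mem_Sp.1 (mem_filter.1 k).1
  refine (card_le_card (t := (Mx σ a T).biUnion fun K => {J ∈ W.Sp a b | ¬Lg σ a b c J ∧ Cr σ K J})
    fun J j => ?_).trans ((card_biUnion_le_card_mul _ _ d fun K k => ?_).trans
      (Nat.mul_le_mul_right _ (W.mx_card T hT)))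
  · obtain ⟨j1, j2, j3, K, k1, k2, k3⟩ := mem_filter.1 j
    obtain ⟨M, m1, m2⟩ := W.exists_mx hT (mem_filter.2 ⟨W.mem_Sp.2 k1.1, k1, k2⟩ : K ∈ T)
    have n : ¬Lg σ a b c J := fun e => j3 e.2
    exact mem_biUnion.2 ⟨M, m1, mem_filter.2 ⟨j1, n,
      (mem_filter.1 (mem_filter.1 m1).1).2.1.cr j2 n fun l => (W.le_lt m2 l).ncr k3⟩⟩
  · obtain ⟨-, k1, L, l1, l2⟩ := mem_filter.1 (mem_filter.1 k).1
    refine W.tr_card l2.1 l2.ncr _ fun J j => ?_
    obtain ⟨j1, j2, j3⟩ := mem_filter.1 j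
    exact ⟨j3, l1.cr (W.mem_Sp.1 j1) j2 fun l => (W.trans l2 l).ncr j3⟩

theorem exc_card (a b c : P) (J : ι) : #{H ∈ W.Sp a b | Lg σ a b c H ∧ Cr σ H J ∧
    ∃ K, Lg σ a b c K ∧ Cr σ H K ∧ Lt σ a K J} ≤ d * d := by
  let T := {K ∈ W.Sp a b | Lt σ a K J}
  have hT : ∀ K ∈ T, In σ a b K := fun K k => W.mem_Sp.1 (mem_filter.1 k).1
  refine (card_le_card (t := (Mx σ a T).biUnion fun K => {H ∈ W.Sp a b | Cr σ K H ∧ Cr σ J H})
    fun H h => ?_).trans ((card_biUnion_le_card_mul _ _ d fun K k => ?_).trans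
      (Nat.mul_le_mul_right _ (W.mx_card T hT)))
  · obtain ⟨j1, j2, j3, K, k1, k2, k3⟩ := mem_filter.1 h
    obtain ⟨M, m1, m2⟩ := W.exists_mx hT (mem_filter.2 ⟨W.mem_Sp.2 k1.1, k3⟩ : K ∈ T)
    have l := (mem_filter.1 (mem_filter.1 m1).1).2
    refine mem_biUnion.2 ⟨M, m1, mem_filter.2 ⟨j1, ?_, j3.symm⟩⟩
    rcases tri (hT M (mem_filter.1 m1).1) j2.1 with e | e | e | e
    · exact absurd j3 (e ▸ l.ncr)
    · exact absurd k2.symm (W.le_lt m2 e).ncr
    · exact absurd j3 (W.trans e l).ncr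
    · exact e
  · have l := (mem_filter.1 (mem_filter.1 k).1).2
    exact W.tr_card l.1 l.ncr _ fun H h => (mem_filter.1 h).2

theorem na0_card (a b c : P) :
    #{H ∈ W.Sp a b | Lg σ a b c H ∧ ¬A0 σ a b c H} ≤ d + (d * d + d * d) * (d * d) := by
  let T := {K ∈ W.Sp a b | Lg σ a b c K}
  have hT : ∀ K ∈ T, In σ a b K := fun K k => W.mem_Sp.1 (mem_filter.1 k).1
  refine (card_le_card (t := Mx σ a T ∪ ({J ∈ W.Sp a b | Lam σ a b c J} ∪
    {J ∈ W.Sp a c | Lam σ a c b J}).biUnion fun J => {H ∈ W.Sp a b | Lg σ a b c H ∧ Cr σ H J ∧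
      ∃ K, Lg σ a b c K ∧ Cr σ H K ∧ Lt σ a K J}) fun H h => ?_).trans ((card_union_le _ _).trans
      (add_le_add (W.mx_card T hT) ((card_biUnion_le_card_mul _ _ _ fun J _ => W.exc_card a b c J).trans
        (Nat.mul_le_mul_right _ ((card_union_le _ _).trans
          (add_le_add (W.lam_card a b c) (W.lam_card a c b)))))))
  obtain ⟨h1, h2, h3⟩ := mem_filter.1 h
  by_cases e : ∃ K, Lg σ a b c K ∧ Lt σ a H K
  · obtain ⟨J, K, j1, j2, j3, j4, j5, j6⟩ : Exc σ a b c H := by_contra fun n => h3 ⟨h2, e, n⟩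
    refine mem_union_right _ (mem_biUnion.2 ⟨J, ?_, mem_filter.2 ⟨h1, h2, j4, K, j3, j5, j6⟩⟩)
    rcases j1 with j1 | j1
    · exact mem_union_left _ (mem_filter.2 ⟨W.mem_Sp.2 j1, j1, fun k => j2 ⟨j1, k⟩, H, h2, e, j4⟩)
    · exact mem_union_right _ (mem_filter.2 ⟨W.mem_Sp.2 j1, j1, fun k => j2 ⟨k, j1⟩, H, h2.symm,
        e.imp fun _ k => ⟨k.1.symm, k.2⟩, j4⟩)
  · exact mem_union_left _ (mem_filter.2 ⟨mem_filter.2 ⟨h1, h2⟩,
      fun L l k => e ⟨L, (mem_filter.1 l).2, k⟩⟩)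

theorem bad_card (a b : P) (s : ℤ) (hs : s ≠ 0) (T : ι → Prop) :
    #{K ∈ W.Sp a b | T K ∧ ¬Ch6 σ a fun M => T M ∧ s * W.pos a b K < s * W.pos a b M} ≤ 6 * d := by
  rcases eq_empty_or_nonempty
    {K ∈ W.Sp a b | T K ∧ ¬Ch6 σ a fun M => T M ∧ s * W.pos a b K < s * W.pos a b M} with e | e
  · rw [e]; exact Nat.zero_le _
  obtain ⟨K, k, m⟩ := exists_min_image _ (fun K => s * W.pos a b K) e
  have h1 : #{M ∈ W.Sp a b | T M ∧ s * W.pos a b K < s * W.pos a b M} ≤ 5 * d := not_lt.1 fun l => by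
    obtain ⟨f, f1, f2⟩ := W.chain (a := a) (b := b) 5 _ (fun K k => W.mem_Sp.1 (mem_filter.1 k).1) l
    exact (mem_filter.1 k).2.2 ⟨f, fun i j => (mem_filter.1 (f1 i j)).2, f2⟩
  have h2 := W.cnt_le a b (W.pos a b K)
  refine (card_le_card (t := {M ∈ W.Sp a b | T M ∧ s * W.pos a b K < s * W.pos a b M} ∪
    {M ∈ W.Sp a b | W.pos a b M = W.pos a b K}) fun M l => ?_).trans
      ((card_union_le _ _).trans (by unfold cnt at h2; omega))
  rcases (m M l).lt_or_eq with j | j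
  · exact mem_union_left _ (mem_filter.2 ⟨(mem_filter.1 l).1, (mem_filter.1 l).2.1, j⟩)
  · exact mem_union_right _ (mem_filter.2 ⟨(mem_filter.1 l).1, (mul_left_cancel₀ hs j).symm⟩)

omit W in
/-- the bound for the number of ordinary walls close to a special one -/
def Nf (d : ℕ) : ℕ := (d + (d * d + d * d) * (d * d) + d * d) * (d + 6 * d + 6 * d) + d * d * (6 * d) + 6 * d

theorem far_card (a b c : P) : #{K ∈ W.Sp a b | A0 σ a b c K ∧ ¬W.Far a b c K} ≤ Nf d := by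
  let B : ℤ → (ι → Prop) → Finset ι := fun s T =>
    {K ∈ W.Sp a b | T K ∧ ¬Ch6 σ a fun M => T M ∧ s * W.pos a b K < s * W.pos a b M}
  refine (card_le_card (t := ({H ∈ W.Sp a b | Lg σ a b c H ∧ ¬A0 σ a b c H} ∪
    {J ∈ W.Sp a b | Lam σ a b c J}).biUnion (fun z => {M ∈ W.Sp a b | W.pos a b M = W.pos a b z} ∪
      B (-1) (fun M => A0 σ a b c M ∧ W.pos a b z < W.pos a b M) ∪
      B 1 (fun M => A0 σ a b c M ∧ W.pos a b M < W.pos a b z)) ∪
    ({J ∈ W.Sp a b | Lam σ a b c J}.biUnion fun J => B 1 fun M => A0 σ a b c M ∧ Lt σ a M J) ∪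
    B 1 (A0 σ a b c)) fun K k => ?_).trans ((card_union_le _ _).trans (add_le_add
      ((card_union_le _ _).trans (add_le_add
        ((card_biUnion_le_card_mul _ _ _ fun z _ => (card_union_le _ _).trans (add_le_add
          ((card_union_le _ _).trans (add_le_add (W.cnt_le a b _) (W.bad_card a b _ (by omega) _)))
          (W.bad_card a b _ one_ne_zero _))).trans (Nat.mul_le_mul_right _
            ((card_union_le _ _).trans (add_le_add (W.na0_card a b c) (W.lam_card a b c)))))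
        ((card_biUnion_le_card_mul _ _ _ fun z _ => W.bad_card a b _ one_ne_zero _).trans
          (Nat.mul_le_mul_right _ (W.lam_card a b c))))) (W.bad_card a b _ one_ne_zero _)))
  obtain ⟨k1, k2, k3⟩ := mem_filter.1 k
  by_contra n
  simp only [mem_union, mem_biUnion, not_or, not_exists, not_and, B, mem_filter, k1, k2, true_and,
    not_not, one_mul, neg_mul, neg_lt_neg_iff] at n
  obtain ⟨⟨n1, n2⟩, n3⟩ := n
  have hz : ∀ z, Z σ a b c z → (z ∈ W.Sp a b ∧ Lg σ a b c z ∧ ¬A0 σ a b c z) ∨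
      (z ∈ W.Sp a b ∧ Lam σ a b c z) := fun z h =>
    h.imp (fun h => ⟨W.mem_Sp.2 h.1.1, h⟩) fun h => ⟨W.mem_Sp.2 h.1, h⟩
  exact k3 ⟨fun z h e => (n1 z (hz z h)).1.1 e.symm,
    fun z h l => ((n1 z (hz z h)).1.2 l).mono fun M m => ⟨m.1.1, m.1.2, m.2⟩,
    fun z h l => ((n1 z (hz z h)).2 l).mono fun M m => ⟨m.1.1, m.2, m.1.2⟩,
    fun J h l => (n2 J ⟨W.mem_Sp.2 h.1, h⟩ l).mono fun M m => ⟨m.1.1, m.2, m.1.2⟩, n3⟩

/-- the defect along one leg -/
def leg (a b c : P) : W.E →₀ ℤ :=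
  ∑ K ∈ W.Sp a b ∩ W.Sp a c, (W.tm a b (W.pos a b K) - W.tm a c (W.pos a c K))

omit W in
/-- the bound for the support of the defect along one leg -/
def Nl (d : ℕ) : ℕ := (d + (d * d + d * d) * (d * d) + Nf d + Nf d) * (2 + 2)

theorem leg_card (a b c : P) : #(W.leg a b c).support ≤ Nl d := by
  let B := {H ∈ W.Sp a b | Lg σ a b c H ∧ ¬A0 σ a b c H} ∪
    {K ∈ W.Sp a b | A0 σ a b c K ∧ ¬W.Far a b c K} ∪ {K ∈ W.Sp a c | A0 σ a c b K ∧ ¬W.Far a c b K}
  have hB : B ⊆ W.Sp a b ∩ W.Sp a c := fun K k => by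
    simp only [B, mem_union, mem_filter, mem_inter, mem_Sp] at k ⊢
    rcases k with (k | k) | k
    exacts [k.2.1, k.2.1.1, k.2.1.1.symm]
  rw [leg, ← sum_subset hB fun K k n => ?_]
  · refine (card_le_card Finsupp.support_finsetSum).trans ((card_biUnion_le_card_mul _ _ (2 + 2)
      fun K _ => ?_).trans (Nat.mul_le_mul_right _ ((card_union_le _ _).trans (add_le_add
        ((card_union_le _ _).trans (add_le_add (W.na0_card a b c) (W.far_card a b c)))
        (W.far_card a c b)))))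
    exact (card_le_card Finsupp.support_sub).trans ((card_union_le _ _).trans
      (add_le_add (W.tm_supp _ _ _) (W.tm_supp _ _ _)))
  · simp only [B, mem_union, mem_filter, mem_inter, mem_Sp, not_or, not_and, not_not] at k n
    have e := n.1.1 k.1 k
    rw [tm_eq e (n.1.2 k.1 e) (n.2 k.2 e.symm), sub_self]

theorem sum_split (f : ι → W.E →₀ ℤ) (a b c : P) :
    ∑ K ∈ W.Sp a b, f K = ∑ K ∈ W.Sp a b ∩ W.Sp a c, f K + ∑ K ∈ W.Sp b c ∩ W.Sp b a, f K := by
  rw [← sum_inter_add_sum_sdiff (W.Sp a b) (W.Sp a c)]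
  congr 2
  ext K
  simp only [mem_sdiff, mem_inter, mem_Sp, In]
  generalize σ K a = x, σ K b = y, σ K c = z
  revert x y z
  decide

theorem defect (a b c : P) : W.q a b + W.q b c - W.q a c = W.leg a b c + W.leg b c a + W.leg c a b := by
  have r : ∀ (a b : P) (S : Finset ι), S ⊆ W.Sp a b →
      ∑ K ∈ S, W.tm b a (W.pos b a K) = -∑ K ∈ S, W.tm a b (W.pos a b K) := fun a b S h => by
    rw [← sum_neg_distrib]
    exact sum_congr rfl fun K k => by rw [W.pos_rev (W.mem_Sp.1 (h k)), tm_rev]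
  have e : W.q a c = -W.q c a := r c a _ (W.Sp_comm a c).subset |>.trans (by rw [q, W.Sp_comm c a])
  rw [e, q, q, q, W.sum_split _ a b c, W.sum_split _ b c a, W.sum_split _ c a b]
  simp only [leg, sum_sub_distrib]
  rw [r c a (W.Sp a b ∩ W.Sp a c) (inter_subset_right.trans (W.Sp_comm a c).subset),
    r a b (W.Sp b c ∩ W.Sp b a) (inter_subset_right.trans (W.Sp_comm b a).subset),
    r b c (W.Sp c a ∩ W.Sp c b) (inter_subset_right.trans (W.Sp_comm c b).subset)]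
  abel

theorem defect_card (a b c : P) : #(W.q a b + W.q b c - W.q a c).support ≤ Nl d + Nl d + Nl d := by
  rw [defect]
  exact (card_le_card Finsupp.support_add).trans ((card_union_le _ _).trans (add_le_add
    ((card_le_card Finsupp.support_add).trans ((card_union_le _ _).trans
      (add_le_add (W.leg_card _ _ _) (W.leg_card _ _ _)))) (W.leg_card _ _ _)))

/-- **an exact bicombing with bounded triangle defect** -/
theorem bic {G : Type*} [Group G] [MulAction G P] (act : ∀ (g : G) H, ∃ K, ∀ z, σ K (g • z) = σ H z)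
    (lf : ∀ (v : P) (R : ℕ), {w | {H | σ H v ≠ σ H w}.ncard ≤ R}.Finite)
    (cof : ∃ B : Set P, B.Finite ∧ ∀ v, ∃ g : G, g • v ∈ B)
    (st : ∀ v : P, {g : G | g • v = v}.Finite) (ne : Nonempty P) :
    @Bic G P W.E _ _ (W.eact act) (fun e => e.1.1) (fun e => e.1.2) W.q (2 * d.factorial)
      (Nl d + Nl d + Nl d) := by
  let _ := W.eact act
  refine ⟨fun _ _ => rfl, fun _ _ => rfl, fun v => ?_, cof, st, ne,
    mul_ne_zero two_ne_zero (Nat.cast_ne_zero.2 d.factorial_ne_zero), W.bdh_q, W.q_smul act,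
    W.defect_card⟩
  have h : ∀ x y, {H | σ H x ≠ σ H y}.ncard = #(W.Sp x y) := fun x y => Set.ncard_eq_toFinset_card _ _
  refine Set.Finite.of_finite_image (f := Subtype.val) ((((lf v (3 * d)).image fun w => (v, w)).union
    ((lf v (3 * d)).image fun w => (w, v))).subset ?_) Subtype.val_injective.injOn
  rintro _ ⟨⟨⟨x, y⟩, k⟩, rfl | rfl, rfl⟩
  · exact .inl ⟨y, (h _ _).trans_le k, rfl⟩
  · exact .inr ⟨x, ((h _ _).trans (congrArg card (W.Sp_comm _ _))).trans_le k, rfl⟩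

end WS

end Crest.Agent.N233.Ou
end
end

-- ▼ part N233/Rg/Inn
section

/-!
# Row 233 (helper27): an automorphism that coarsely preserves the hyperplane stabilisers has an inner power
-/

set_option autoImplicit false

noncomputable section

namespace Crest.Agent.N233.Rg

open N255.Ra N255.Fa N233.Hyp Relation
open scoped Pointwise

variable {A P : Type} {Γ : SimpleGraph A} {st : P → A → P → Prop} {G : Type} [Group G] [MulAction G P]

variable (st G) in
/-- free cocompact actions on a locally finite graph; `B` meets every orbit -/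
structure Act (B : Set P) : Prop where
  hi : ∀ (g : G) x a y, st x a y → ∃ b, st (g • x) b (g • y)
  hl : ∀ x, {y | ∃ a, st x a y}.Finite
  free : ∀ (g : G) (x : P), g • x = x → g = 1
  fin : B.Finite
  cc : ∀ x, ∃ g : G, g • x ∈ B

/-- twisted equivariance -/
def Eqv (β : MulAut G) (q : P → P) : Prop := ∀ (g : G) x, q (g • x) = β g • q x

/-- the orbit of `β J` -/
def Orb (β : MulAut G) (J : Subgroup G) (x : P) : Set P := (fun j => β j • x) '' (J : Set G)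

/-- finite Hausdorff distance -/
def HD (φ : P → W Γ) (U V : Set P) : Prop := Near φ U V ∧ Near φ V U

variable {φ : P → W Γ} {B h h' U V T : Set P} {x y z : P} {a : A} {K R : ℕ} {β : MulAut G}

theorem HD.symm (e : HD φ U V) : HD φ V U := ⟨e.2, e.1⟩

theorem HD.trans (e : HD φ U V) (e' : HD φ V T) : HD φ U T := ⟨e.1.trans e'.1, e'.2.trans e.2⟩

theorem Near.image {q : P → P} (l : Lip φ K q) (e : Near φ U V) : Near φ (q '' U) (q '' V) := by
  obtain ⟨R, e⟩ := e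
  refine ⟨K * R, ?_⟩
  rintro _ ⟨u, hu, rfl⟩
  obtain ⟨v, hv, d⟩ := e u hu
  exact ⟨_, ⟨v, hv, rfl⟩, (l u v).trans (Nat.mul_le_mul_left K d)⟩

theorem HD.image {q : P → P} (l : Lip φ K q) (e : HD φ U V) : HD φ (q '' U) (q '' V) :=
  ⟨e.1.image l, e.2.image l⟩

theorem Eqv.symm {q : P ≃ P} (e : Eqv β q) : Eqv β⁻¹ q.symm := fun g x => by
  rw [Equiv.symm_apply_eq, e]
  simp

theorem Eqv.image {q : P → P} (e : Eqv β q) (g : G) (U : Set P) : q '' (g • U) = β g • q '' U := by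
  rw [← Set.image_smul, ← Set.image_smul, Set.image_image, Set.image_image]
  simp only [e g]

theorem Eqv.orb {q : P → P} (e : Eqv β q) (γ : MulAut G) (J : Subgroup G) (x : P) :
    q '' Orb γ J x = Orb (β * γ) J (q x) := by
  rw [Orb, Orb, Set.image_image]
  simp only [e _, MulAut.mul_apply]

theorem exists_eqv (fr : ∀ (g : G) (x : P), g • x = x → g = 1) (β : MulAut G) : ∃ q : P ≃ P, Eqv β q := by
  let r : P → P := fun x => (Quotient.mk (MulAction.orbitRel G P) x).out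
  have r1 : ∀ (g : G) x, r (g • x) = r x := fun g x =>
    congrArg Quotient.out (Quotient.sound (MulAction.mem_orbit x g))
  have r2 : ∀ x, ∃ g : G, g • r x = x := fun x =>
    (MulAction.orbitRel G P).symm (Quotient.exact (Quotient.out_eq (Quotient.mk _ x)))
  choose c hc using r2
  have c1 : ∀ (g : G) x, c (g • r x) = g := fun g x => by
    have e := hc (g • r x)
    have e' : r (r x) = r x := by rw [← r1 (c x), hc]
    rw [r1, e', ← inv_smul_eq_iff, smul_smul] at e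
    exact (inv_mul_eq_one.1 (fr _ _ e)).symm
  have inv : ∀ (β γ : MulAut G) x, γ * β = 1 → γ (c (β (c x) • r x)) • r (β (c x) • r x) = x :=
    fun β γ x e => by
      rw [c1, ← MulAut.mul_apply, e, MulAut.one_apply, r1, ← r1 (c x), hc, hc]
  refine ⟨⟨fun x => β (c x) • r x, fun x => β⁻¹ (c x) • r x, fun x => inv _ _ x (inv_mul_cancel β),
    fun x => inv _ _ x (mul_inv_cancel β)⟩, fun g x => ?_⟩
  change β (c (g • x)) • r (g • x) = β g • β (c x) • r x
  rw [r1, smul_smul, ← map_mul, ← c1 (g * c x) x, mul_smul, hc]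

section lab
variable (H : Lab Γ st φ) (C : Act st G B)
include H C

theorem dl_smul (g : G) (x y : P) : dl φ (g • x) (g • y) = dl φ x y :=
  le_antisymm (H.dl_map_le (C.hi g) _ x y rfl)
    (by simpa using H.dl_map_le (C.hi g⁻¹) _ (g • x) (g • y) rfl)

theorem Hs_smul (g : G) (x y : P) : g • Hs φ x y = Hs φ (g • x) (g • y) := by
  ext z
  rw [Set.mem_smul_set_iff_inv_smul_mem, Hs, Hs, Set.mem_ofPred_eq, Set.mem_ofPred_eq,
    ← dl_smul H C g, ← dl_smul H C g _ y, smul_inv_smul]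

theorem IsH.smul (hh : IsH st φ h) (g : G) : IsH st φ (g • h) := by
  obtain ⟨x, a, y, e, rfl⟩ := hh
  obtain ⟨b, e'⟩ := C.hi g _ _ _ e
  exact ⟨_, b, _, e', Hs_smul H C g x y⟩

theorem dp_smul_le (hh : IsH st φ h) (g : G) (z : P) : dp φ (g • h) (g • z) ≤ dp φ h z :=
  add_le_add ((hh.cvx H).ns_map_le H (C.hi g) (fun _ m => Set.smul_mem_smul_set m) z)
    (((hh.compl H).cvx H).ns_map_le H (C.hi g) (Q' := (g • h)ᶜ)
      (fun _ m n => m (Set.smul_mem_smul_set_iff.1 n)) z)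

theorem RelR.smul {q : P → P} (e : Eqv β q) (hh : IsH st φ h) (r : RelR φ R q h h') (g : G) :
    RelR φ R q (g • h) (β g • h') := fun z d => by
  obtain ⟨z, rfl⟩ := (MulAction.toPerm g).surjective z
  change q (g • z) ∈ _ ↔ g • z ∈ _
  rw [e, Set.smul_mem_smul_set_iff, Set.smul_mem_smul_set_iff]
  exact r z (d.trans (dp_smul_le H C hh g z))

theorem Rel.smul {q : P ≃ P} (e : Eqv β q) (hh : IsH st φ h) (hh' : IsH st φ h') (r : Rel φ q h h')
    (g : G) : Rel φ q (g • h) (β g • h') :=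
  ⟨r.1.imp fun _ r => r.smul H C e hh g, r.2.imp fun _ r => by simpa using r.smul H C e.symm hh' (β g)⟩

theorem HD.smul (e : HD φ U V) (g : G) : HD φ (g • U) (g • V) :=
  e.image (K := 1) (q := fun x => g • x) fun x y => by rw [dl_smul H C, one_mul]

theorem hd_orb (β : MulAut G) (J : Subgroup G) (x y : P) : HD φ (Orb β J x) (Orb β J y) := by
  have : ∀ x y, Near φ (Orb β J x) (Orb β J y) := fun x y => ⟨dl φ x y, by
    rintro _ ⟨j, hj, rfl⟩
    exact ⟨_, ⟨j, hj, rfl⟩, (dl_smul H C _ x y).le⟩⟩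
  exact ⟨this x y, this y x⟩

omit H in
theorem edges_finite : {e : P × P | e.1 ∈ B ∧ ∃ a, st e.1 a e.2}.Finite :=
  (C.fin.biUnion fun x _ => (C.hl x).image fun y => (x, y)).subset fun e he =>
    Set.mem_biUnion he.1 ⟨e.2, he.2, rfl⟩

theorem Eqv.lip {q : P → P} (e : Eqv β q) : ∃ K, Lip φ K q := by
  obtain ⟨K, hK⟩ := ((edges_finite C).image fun e => dl φ (q e.1) (q e.2)).bddAbove
  refine ⟨K, lip_of_st H fun x a y s => ?_⟩
  obtain ⟨g, hg⟩ := C.cc x
  rw [← dl_smul H C (β g), ← e, ← e]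
  exact hK ⟨(g • x, g • y), ⟨hg, C.hi g _ _ _ s⟩, rfl⟩

omit H in
theorem bd_smul (g : G) {w : P} (m : w ∈ bd st U) : g • w ∈ bd st (g • U) := by
  obtain ⟨h1, a, y, h2, h3⟩ := m
  obtain ⟨b, e⟩ := C.hi g _ _ _ h2
  exact ⟨Set.smul_mem_smul_set h1, b, _, e, fun n => h3 (Set.smul_mem_smul_set_iff.1 n)⟩

omit H in
theorem bd_smul_eq (g : G) (U : Set P) : bd st (g • U) = g • bd st U :=
  Set.ext fun w => ⟨fun m => Set.mem_smul_set_iff_inv_smul_mem.2 (by simpa using bd_smul C g⁻¹ m), by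
    rintro ⟨w, m, rfl⟩
    exact bd_smul C g m⟩

/-- the stabiliser of a half space acts cocompactly on its boundary -/
theorem hd_bd (hh : IsH st φ h) (x : P) : HD φ (bd st h) (Orb 1 (MulAction.stabilizer G h) x) := by
  constructor
  · have : ∀ e : P × P, ∃ w : P, (∃ g : G, g • Hs φ e.1 e.2 = h) →
        ∃ g : G, g • Hs φ e.1 e.2 = h ∧ w = g • e.1 := fun e => by
      by_cases c : ∃ g : G, g • Hs φ e.1 e.2 = h
      · obtain ⟨g, c⟩ := c
        exact ⟨g • e.1, fun _ => ⟨g, c, rfl⟩⟩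
      · exact ⟨x, fun n => absurd n c⟩
    choose w hw using this
    obtain ⟨D, hD⟩ := ((edges_finite C).image fun e => dl φ (w e) x).bddAbove
    refine ⟨D, fun u ⟨u1, a, v, u2, u3⟩ => ?_⟩
    obtain ⟨g, hg⟩ := C.cc u
    have e1 : g⁻¹ • Hs φ (g • u) (g • v) = h := by
      rw [← Hs_smul H C, inv_smul_smul, hh.eq H u2 u1 u3]
    obtain ⟨g', e2, e3⟩ := hw (g • u, g • v) ⟨_, e1⟩
    refine ⟨_, ⟨(g' * g)⁻¹, ?_, rfl⟩, ?_⟩
    · refine inv_mem (show (g' * g) • h = h from ?_)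
      rw [mul_smul, ← e1, smul_inv_smul, e1, e2]
    · change dl φ u ((g' * g)⁻¹ • x) ≤ D
      rw [← dl_smul H C (g' * g), smul_inv_smul, mul_smul, ← e3]
      exact hD ⟨_, ⟨hg, C.hi g _ _ _ u2⟩, rfl⟩
  · obtain ⟨w, hw, -⟩ := hh.exists_bd H x
    refine ⟨dl φ x w, ?_⟩
    rintro _ ⟨j, hj, rfl⟩
    exact ⟨j • w, (show j • h = h from hj) ▸ bd_smul C j hw, (dl_smul H C _ x w).le⟩

theorem disp_finite (D : ℕ) : {γ : G | ∃ b ∈ B, dl φ b (γ • b) ≤ D}.Finite := by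
  have b := ball_finite H.isGM fun x => ((C.hl x).insert x).subset fun y hy => by
    change dl φ x y ≤ 1 at hy
    rcases Nat.eq_zero_or_pos (dl φ x y) with h | h
    · exact Or.inl (H.eq_of_dl h).symm
    · obtain ⟨a, z, h1, h2⟩ := H.step (n := 0) (x := x) (y := y) (by omega)
      exact Or.inr ⟨a, H.eq_of_dl h2 ▸ H.symm _ _ _ h1⟩
  refine (C.fin.biUnion fun x _ => (b x D).preimage (f := fun γ : G => γ • x) fun g _ g' _ e => ?_).subset
    fun γ ⟨x, h1, h2⟩ => Set.mem_biUnion h1 h2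
  exact (inv_mul_eq_one.1 (C.free (g⁻¹ * g') x (by rw [mul_smul, inv_smul_eq_iff]; exact e.symm)))

/-- an automorphism induced by a `1`-Lipschitz map has an inner power -/
theorem inner_of_tau [Group.FG G] (o : P) {τ : P → P} (l : Lip φ 1 τ) (e : Eqv β τ) :
    ∃ n, 0 < n ∧ ∃ g : G, ∀ s, (β ^ n) s = g * s * g⁻¹ := by
  obtain ⟨S, hS⟩ := Group.fg_def.1 (inferInstance : Group.FG G)
  have l' : ∀ m x y, dl φ (τ^[m] x) (τ^[m] y) ≤ dl φ x y := fun m => by
    induction m with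
    | zero => exact fun _ _ => le_rfl
    | succ m ih => exact fun x y => (ih _ _).trans (by simpa using l x y)
  have e' : ∀ m, Eqv (β ^ m) τ^[m] := fun m => by
    induction m with
    | zero => exact fun _ _ => rfl
    | succ m ih => exact fun g x => by rw [Function.iterate_succ_apply, e, ih, pow_succ]; rfl
  choose c hc using C.cc
  obtain ⟨m, m', lt, eq⟩ := Set.Finite.exists_lt_map_eq_of_forall_mem
    (f := fun (m : ℕ) (s : S) => c (τ^[m] o) * (β ^ m) s * (c (τ^[m] o))⁻¹)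
    (t := {f | ∀ s : S, f s ∈ {γ : G | ∃ b ∈ B, dl φ b (γ • b) ≤ dl φ o ((s : G) • o)}})
    (fun m s => ⟨_, hc (τ^[m] o), by
      rw [mul_smul, inv_smul_smul, mul_smul, dl_smul H C, ← e' m]
      exact l' m _ _⟩)
    (Set.Finite.pi' fun s : S => disp_finite H C (dl φ o ((s : G) • o)))
  have all : ∀ s, c (τ^[m] o) * (β ^ m) s * (c (τ^[m] o))⁻¹ =
      c (τ^[m'] o) * (β ^ m') s * (c (τ^[m'] o))⁻¹ := fun s =>
    DFunLike.congr_fun (MonoidHom.eq_of_eqOn_dense hS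
      (f := (MulAut.conj (c (τ^[m] o)) * β ^ m).toMonoidHom)
      (g := (MulAut.conj (c (τ^[m'] o)) * β ^ m').toMonoidHom) fun s hs => congrFun eq ⟨s, hs⟩) s
  refine ⟨m' - m, by omega, (c (τ^[m'] o))⁻¹ * c (τ^[m] o), fun s => ?_⟩
  obtain ⟨s, rfl⟩ := (β ^ m).surjective s
  rw [← MulAut.mul_apply, ← pow_add, Nat.sub_add_cancel lt.le, mul_inv_rev, inv_inv, ← mul_assoc,
    mul_assoc _ (c _), mul_assoc _ _ (c _)⁻¹, all]
  group

variable (L : Loc Γ st)
include L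

/-- **coarse hyperplanes ⇒ cubical** -/
theorem exists_cubical (hβ : ∀ x ∈ B, ∀ a y, st x a y → ∃ g : G,
      HD φ (Orb β (MulAction.stabilizer G (Hs φ x y)) x)
        (g • Orb 1 (MulAction.stabilizer G (Hs φ x y)) x)) :
    ∃ τ : P → P, Lip φ 1 τ ∧ Eqv β τ := by
  obtain ⟨q, e⟩ := exists_eqv C.free β
  obtain ⟨K, l⟩ := e.lip H C
  obtain ⟨K', l'⟩ := e.symm.lip H C
  have key : ∀ x ∈ B, ∀ a y, st x a y → ∃ g : G,
      Rel φ q (Hs φ x y) (g • Hs φ x y) ∨ Rel φ q (Hs φ x y) (g • Hs φ x y)ᶜ := fun x hx a y s => by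
    obtain ⟨g, d⟩ := hβ x hx a y s
    have hh : IsH st φ (Hs φ x y) := ⟨_, _, _, s, rfl⟩
    have d1 := (hd_bd H C hh x).image l
    rw [e.orb, mul_one] at d1
    have d2 := (d1.trans (hd_orb H C _ _ _ x)).trans (d.trans ((hd_bd H C hh x).symm.smul H C g))
    rw [← bd_smul_eq C] at d2
    have d3 := d2.2.image l'
    rw [q.symm_image_image] at d3
    exact ⟨g, rel_or H L l hh (hh.smul H C g) (cl_of_near H l hh d2.1)
      (cl_of_near H l' (hh.smul H C g) d3)⟩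
  have rep : ∀ h, IsH st φ h → ∃ g : G, ∃ x ∈ B, ∃ a y, st x a y ∧ h = g • Hs φ x y := by
    rintro _ ⟨x, a, y, s, rfl⟩
    obtain ⟨g, hg⟩ := C.cc x
    obtain ⟨b, s'⟩ := C.hi g _ _ _ s
    exact ⟨g⁻¹, _, hg, b, _, s', by rw [← Hs_smul H C, inv_smul_smul]⟩
  have un : ∀ e : P × P, ∃ R, (e.1 ∈ B ∧ ∃ a, st e.1 a e.2) →
      ∃ h', IsH st φ h' ∧ Rel φ q (Hs φ e.1 e.2) h' ∧ RelR φ R q (Hs φ e.1 e.2) h' := fun e => by
    by_cases c : e.1 ∈ B ∧ ∃ a, st e.1 a e.2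
    · obtain ⟨c, a, s⟩ := c
      have hh : IsH st φ (Hs φ e.1 e.2) := ⟨_, _, _, s, rfl⟩
      obtain ⟨g, r | r⟩ := key _ c a _ s
      · exact r.1.imp fun R r' _ => ⟨_, hh.smul H C g, r, r'⟩
      · exact r.1.imp fun R r' _ => ⟨_, (hh.smul H C g).compl H, r, r'⟩
    · exact ⟨0, fun n => absurd n c⟩
  choose R hR using un
  obtain ⟨D, hD⟩ := ((edges_finite C).image R).bddAbove
  have sur : ∀ h', IsH st φ h' → ∃ h, IsH st φ h ∧ Rel φ q h h' := fun h hh => by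
    obtain ⟨g, x, hx, a, y, s, rfl⟩ := rep h hh
    have h0 : IsH st φ (Hs φ x y) := ⟨_, _, _, s, rfl⟩
    obtain ⟨g', r⟩ := key x hx a y s
    obtain ⟨c, hc⟩ := β.surjective (g * g'⁻¹)
    have k : ∀ h, IsH st φ h → Rel φ q h (g' • Hs φ x y) → ∃ h, IsH st φ h ∧ Rel φ q h (g • Hs φ x y) :=
      fun h hh r => by
        have := r.smul H C e hh (h0.smul H C g') c
        rw [hc, smul_smul, inv_mul_cancel_right] at this
        exact ⟨_, hh.smul H C c, this⟩
    rcases r with r | r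
    · exact k _ h0 r
    · exact k _ (h0.compl H) (by have := r.compl; rwa [compl_compl] at this)
  obtain ⟨τ, t1, t2⟩ := exists_tau H L C.hl (q := q) (R := D) (fun h hh => by
    obtain ⟨g, x, hx, a, y, s, rfl⟩ := rep h hh
    have h0 : IsH st φ (Hs φ x y) := ⟨_, _, _, s, rfl⟩
    obtain ⟨h', h1, h2, h3⟩ := hR (x, y) ⟨hx, a, s⟩
    exact ⟨_, h1.smul H C (β g), h2.smul H C e h0 h1 g,
      (h3.mono (hD ⟨(x, y), ⟨hx, a, s⟩, rfl⟩)).smul H C e h0 g⟩) sur
  refine ⟨τ, t1, fun g x => eq_of_IsH H fun h' hh' m => ?_⟩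
  obtain ⟨h, hh, r⟩ := sur h' hh'
  rw [t2 _ _ _ hh hh' r, ← Set.mem_inv_smul_set_iff,
    ← t2 _ _ _ (hh.smul H C _) (hh'.smul H C _) (r.smul H C e hh hh' g⁻¹), map_inv,
    Set.mem_inv_smul_set_iff] at m
  exact m

/-- **R3** for one automorphism -/
theorem inner_of_hd [Group.FG G] (o : P) (hβ : ∀ x ∈ B, ∀ a y, st x a y → ∃ g : G,
      HD φ (Orb β (MulAction.stabilizer G (Hs φ x y)) x)
        (g • Orb 1 (MulAction.stabilizer G (Hs φ x y)) x)) :
    ∃ n, 0 < n ∧ ∃ g : G, ∀ s, (β ^ n) s = g * s * g⁻¹ := by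
  obtain ⟨τ, l, e⟩ := exists_cubical H C L hβ
  exact inner_of_tau H C o l e

/-- **R3**: finitely many coarse images of every hyperplane ⇒ `Out G` is torsion -/
theorem inner [Group.FG G] (o : P) (hR : ∀ x ∈ B, ∀ a y, st x a y → ∃ F : Set (Set P), F.Finite ∧
      ∀ α : MulAut G, ∃ Z ∈ F, ∃ g : G, HD φ (Orb α (MulAction.stabilizer G (Hs φ x y)) x) (g • Z))
    (α : MulAut G) : ∃ n, 0 < n ∧ ∃ g : G, ∀ s, (α ^ n) s = g * s * g⁻¹ := by
  let E := {e : P × P | e.1 ∈ B ∧ ∃ a, st e.1 a e.2}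
  have : Finite E := (edges_finite C).to_subtype
  choose F F1 F2 using fun e : E => hR e.1.1 e.2.1 e.2.2.choose e.1.2 e.2.2.choose_spec
  choose Z Z1 g Z2 using F2
  obtain ⟨m, m', lt, eq⟩ := Set.Finite.exists_lt_map_eq_of_forall_mem
    (f := fun (m : ℕ) (e : E) => Z e (α ^ m)) (t := {f | ∀ e, f e ∈ F e}) (fun m e => Z1 e _)
    (Set.Finite.pi' F1)
  obtain ⟨n, n0, c, hc⟩ := inner_of_hd H C L (β := α ^ (m' - m)) o fun x hx a y s => by
    let e : E := ⟨(x, y), hx, a, s⟩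
    obtain ⟨q, q1⟩ := exists_eqv C.free (α ^ m)⁻¹
    obtain ⟨K, l⟩ := q1.lip H C
    have d1 := (Z2 e (α ^ m)).smul H C (g e (α ^ m') * (g e (α ^ m))⁻¹)
    rw [smul_smul, inv_mul_cancel_right, show Z e (α ^ m) = Z e (α ^ m') from congrFun eq e] at d1
    have d2 := ((Z2 e (α ^ m')).trans d1.symm).image l
    rw [q1.image, q1.orb, q1.orb, inv_mul_cancel, show (α ^ m)⁻¹ * α ^ m' = α ^ (m' - m) by
      rw [inv_mul_eq_iff_eq_mul, ← pow_add, Nat.add_sub_cancel' lt.le]] at d2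
    exact ⟨_, ((hd_orb H C _ _ _ _).trans d2).trans ((hd_orb H C _ _ _ _).smul H C _)⟩
  exact ⟨(m' - m) * n, Nat.mul_pos (by omega) n0, c, fun s => by rw [pow_mul, hc]⟩

end lab

end Crest.Agent.N233.Rg

end
end

-- ▼ part N233/Rg/Fin
section

/-!
# Row 233 (helper27): finitely many coarse images of the hyperplanes ⇒ `Out G` is finite
-/

set_option autoImplicit false

noncomputable section

namespace Crest.Agent.N233.Rg

open N255.Ra N255.Fa N233.Hyp Relation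
open scoped Pointwise

variable {A P : Type} {Γ : SimpleGraph A} {st : P → A → P → Prop} {G : Type} [Group G] [MulAction G P]
variable {φ : P → W Γ} {B : Set P} {β : MulAut G}

/-- finitely many classes, and equal classes differ by a finite set modulo inner automorphisms -/
theorem finiteIndex_of_cls {X : Type} {F : Set X} (hF : F.Finite) (Z : MulAut G → X) (hZ : ∀ α, Z α ∈ F)
    {T : Set (MulAut G)} (hT : T.Finite)
    (h : ∀ α α', Z α = Z α' → ∃ g : G, MulAut.conj g * (α⁻¹ * α') ∈ T) :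
    (MulAut.conj : G →* MulAut G).range.FiniteIndex := by
  have : Finite (MulAut G ⧸ (MulAut.conj : G →* MulAut G).range) := by
    refine Set.finite_univ_iff.1 (((hF.prod hT).image fun p =>
      QuotientGroup.mk (Function.invFun Z p.1 * p.2)).subset fun c _ => ?_)
    obtain ⟨α, rfl⟩ := QuotientGroup.mk_surjective c
    obtain ⟨g, hg⟩ := h (Function.invFun Z (Z α)) α (Function.invFun_eq ⟨α, rfl⟩)
    refine ⟨(Z α, _), ⟨hZ α, hg⟩, QuotientGroup.eq.2 ?_⟩
    generalize Function.invFun Z (Z α) = γ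
    refine ⟨(γ⁻¹ * α)⁻¹ g⁻¹, ?_⟩
    ext s
    simp
  exact Subgroup.finiteIndex_of_finite_quotient

section lab
variable (H : Lab Γ st φ) (C : Act st G B)
include H C

/-- finitely many cubical automorphisms modulo `G` -/
theorem exists_cub_finite [Group.FG G] (o : P) : ∃ T : Set (MulAut G), T.Finite ∧
    ∀ (β : MulAut G) (τ : P → P), Lip φ 1 τ → Eqv β τ → ∃ g : G, MulAut.conj g * β ∈ T := by
  obtain ⟨S, hS⟩ := Group.fg_def.1 (inferInstance : Group.FG G)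
  refine ⟨(fun (γ : MulAut G) (s : S) => γ s) ⁻¹'
    {f | ∀ s : S, f s ∈ {γ : G | ∃ b ∈ B, dl φ b (γ • b) ≤ dl φ o ((s : G) • o)}},
    (Set.Finite.pi' fun s : S => disp_finite H C _).preimage fun γ _ γ' _ e => ?_, fun β τ l e => ?_⟩
  · ext s
    exact DFunLike.congr_fun (MonoidHom.eq_of_eqOn_dense hS (f := γ.toMonoidHom) (g := γ'.toMonoidHom)
      fun s hs => congrFun e ⟨s, hs⟩) s
  · obtain ⟨g, hg⟩ := C.cc (τ o)
    refine ⟨g, fun s => ⟨_, hg, ?_⟩⟩
    change dl φ _ ((g * β s * g⁻¹) • _) ≤ _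
    rw [mul_smul, inv_smul_smul, mul_smul, dl_smul H C, ← e]
    simpa using l o ((s : G) • o)

variable (L : Loc Γ st)
include L

/-- **R3**: finitely many coarse images of every hyperplane ⇒ `Inn G` has finite index in `Aut G` -/
theorem fin_of_hd [Group.FG G] (o : P) (hR : ∀ x ∈ B, ∀ a y, st x a y → ∃ F : Set (Set P), F.Finite ∧
      ∀ α : MulAut G, ∃ Z ∈ F, ∃ g : G, HD φ (Orb α (MulAction.stabilizer G (Hs φ x y)) x) (g • Z)) :
    (MulAut.conj : G →* MulAut G).range.FiniteIndex := by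
  let E := {e : P × P | e.1 ∈ B ∧ ∃ a, st e.1 a e.2}
  have : Finite E := (edges_finite C).to_subtype
  choose F F1 F2 using fun e : E => hR e.1.1 e.2.1 e.2.2.choose e.1.2 e.2.2.choose_spec
  choose Z Z1 g Z2 using F2
  obtain ⟨T, T1, T2⟩ := exists_cub_finite H C o
  refine finiteIndex_of_cls (Set.Finite.pi' F1) (fun α e => Z e α) (fun α e => Z1 e α) T1
    fun α α' eq => ?_
  obtain ⟨τ, l, e⟩ := exists_cubical H C L (β := α⁻¹ * α') fun x hx a y s => by
    let e : E := ⟨(x, y), hx, a, s⟩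
    obtain ⟨q, q1⟩ := exists_eqv C.free α⁻¹
    obtain ⟨K, l⟩ := q1.lip H C
    have d1 := (Z2 e α).smul H C (g e α' * (g e α)⁻¹)
    rw [smul_smul, inv_mul_cancel_right, show Z e α = Z e α' from congrFun eq e] at d1
    have d2 := ((Z2 e α').trans d1.symm).image l
    rw [q1.image, q1.orb, q1.orb, inv_mul_cancel] at d2
    exact ⟨_, ((hd_orb H C _ _ _ _).trans d2).trans ((hd_orb H C _ _ _ _).smul H C _)⟩
  exact T2 _ τ l e

omit L in
/-- a finite index subgroup has a coarsely equal orbit -/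
theorem hd_of_finiteIndex (α : MulAut G) (J : Subgroup G) (K : Subgroup J) [K.FiniteIndex] (x : P) :
    HD φ (Orb α J x) (Orb α (K.map J.subtype) x) := by
  refine ⟨?_, .of_subset (Set.image_mono (Subgroup.map_subtype_le K))⟩
  obtain ⟨D, hD⟩ := (Set.finite_range fun c : J ⧸ K => dl φ (α (c.out⁻¹ : J) • x) x).bddAbove
  refine ⟨D, ?_⟩
  rintro _ ⟨j, hj, rfl⟩
  obtain ⟨k, hk⟩ := QuotientGroup.mk_out_eq_mul K (⟨j, hj⟩ : J)⁻¹
  refine ⟨_, ⟨_, ⟨k, k.2, rfl⟩, rfl⟩, ?_⟩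
  have e : j = (k : J) * ((((⟨j, hj⟩ : J)⁻¹ : J) : J ⧸ K).out⁻¹ : J) := by rw [hk]; simp
  have := hD ⟨((⟨j, hj⟩ : J)⁻¹ : J), rfl⟩
  change dl φ (α j • x) (α (k : J) • x) ≤ D
  rw [e, map_mul, mul_smul, dl_smul H C]
  exact this

/-- **R3**, in the form of Delzant's theorem (`Ou.delzant`) -/
theorem fin_of_delzant [Group.FG G] (o : P) (hR : ∀ x ∈ B, ∀ a y, st x a y →
      ∃ F : Set (Subgroup G), F.Finite ∧ ∀ f : MulAction.stabilizer G (Hs φ x y) →* G,
        Function.Injective f → ∃ K : Subgroup (MulAction.stabilizer G (Hs φ x y)), K.FiniteIndex ∧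
          ∃ g : G, (K.map f).map (MulAut.conj g).toMonoidHom ∈ F) :
    (MulAut.conj : G →* MulAut G).range.FiniteIndex := by
  refine fin_of_hd H C L o fun x hx a y s => ?_
  obtain ⟨F, F1, F2⟩ := hR x hx a y s
  refine ⟨_, F1.image fun M => Orb 1 M x, fun α => ?_⟩
  obtain ⟨K, K1, g, K2⟩ := F2 (α.toMonoidHom.comp (Subgroup.subtype _))
    (α.injective.comp Subtype.val_injective)
  refine ⟨_, ⟨_, K2, rfl⟩, g⁻¹, (hd_of_finiteIndex H C α _ K x).trans ?_⟩
  refine HD.trans ?_ ((hd_orb H C 1 _ (g • x) x).smul H C g⁻¹)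
  have : g⁻¹ • Orb 1 ((K.map (α.toMonoidHom.comp (Subgroup.subtype _))).map
      (MulAut.conj g).toMonoidHom) (g • x) = Orb α (K.map (Subgroup.subtype _)) x := by
    rw [← Set.image_smul, Orb, Orb, Subgroup.coe_map, Subgroup.coe_map, Subgroup.coe_map]
    simp only [Set.image_image]
    refine Set.image_congr fun k _ => ?_
    simp [smul_smul]
  rw [this]
  exact ⟨.of_subset subset_rfl, .of_subset subset_rfl⟩

end lab

end Crest.Agent.N233.Rg

end
end

-- ▼ part N233/Hi/Fin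

/-!
# Row 233 (helper25): `Out G` is finite
-/

set_option autoImplicit false

noncomputable section

namespace Crest.Agent.N233.Hi

open Crest.GroupTheory Crest.Agent.N255.Ra Crest.Agent.N255.Pt Crest.Agent.N233.Hyp
  Crest.Agent.N233.PS Crest.Agent.N233.Rg
open scoped Pointwise

/-- **FIN**, abstract form -/
theorem fin_of_lab {A P G : Type} [DecidableEq A] {Γ : SimpleGraph A} {st : P → A → P → Prop}
    {φ : P → W Γ} [Group G] [MulAction G P] {B : Set P} (H : Lab Γ st φ) (hq : NoSq Γ) {d : ℕ}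
    (hd : ClB Γ d) (C : Act st G B) (M : ∀ x, Lp.Psm Γ {a | ∃ y, st x a y})
    (ni : ∀ (g : G) x a y, st x a y → g • Hs φ x y ≠ Hs φ y x) (o : P) :
    (MulAut.conj : G →* MulAut G).range.FiniteIndex := by
  have fs : ∀ v : P, {g : G | g • v = v}.Finite := fun v =>
    (Set.finite_singleton 1).subset fun g e => C.free g v e
  obtain ⟨S, hS, -⟩ := H.hyp hq hd C.hi C.hl C.fin C.cc o (fs o)
  have : Group.FG G := Group.fg_def.2 ⟨S, hS⟩
  obtain ⟨ι, σ, w, a, l⟩ := Ou.exists_ws H C.hi hq hd C.hl ni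
  let := w.eact a
  exact fin_of_delzant H C (Lp.loc_of hq M) o fun x _ _ y e =>
    Ou.r2_sub H C.hi C.free C.hl C.fin C.cc (Lp.lk1_of M) (w.bic a l ⟨B, C.fin, C.cc⟩ fs ⟨o⟩) e

section par

variable {A P : Type} {Γ : SimpleGraph A} {st : P → A → P → Prop} {φ : P → W Γ} (H : Lab Γ st φ)
  {x y u v : P} {a b : A} (e : st x a y)
include H e

theorem bd_ind {Q : P → Prop} (h0 : Q x) (hs : ∀ u c v, Q u → st u c v → Γ.Adj a c → Q v) {z : P}
    (hz : z ∈ bd st (Hs φ x y)) : Q z := by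
  generalize hn : dl φ x z = n
  induction n generalizing z with
  | zero => exact H.eq_of_dl hn ▸ h0
  | succ n ih =>
    obtain ⟨w, ⟨c, s⟩, hw⟩ := Ou.exists_dn H e ⟨z, hz⟩ hn
    exact hs w c z (ih w.2 hw) (H.symm _ _ _ s) (Ou.bd_adj H e hz w.2 s)

open N255.Fa in
theorem par (e' : st u b v) (h : Hs φ u v = Hs φ x y) : a = b ∧ u ∈ bd st (Hs φ x y) := by
  have hu := h ▸ self_mem H e'
  have hv := h ▸ not_mem H e'
  refine ⟨?_, hu, b, v, e', hv⟩
  rw [mem_Hs H e] at hu hv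
  have r : hp φ x a = hp φ u b := by_contra fun n => hv ((sd_st H e' n).trans hu)
  exact Dv.eq_of_conj (Γ := Γ) (u := (φ x)⁻¹ * φ u) (by
    have : φ x * gen Γ a * (φ x)⁻¹ = φ u * gen Γ b * (φ u)⁻¹ := r
    calc _ = (φ u)⁻¹ * (φ x * gen Γ a * (φ x)⁻¹) * φ u := by group
      _ = _ := by rw [this]; group)

end par

/-- no element of `G` is conjugate to an element of the stabiliser of a wall that swaps its sides -/
def NI {S F : Type} {Γ : SimpleGraph S} [Group F] {ρ : F →* (Γ ≃g Γ)}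
    (G : Subgroup (W Γ ⋊[autHom ρ] F)) : Prop :=
  ∀ g ∈ G, g.right = 1 → ∀ v a, ∀ u ∈ WT Γ (Γ.neighborSet a), g.left ≠ v * (u * gen Γ a) * v⁻¹

variable {ι I Tor K : Type} [Finite ι] [Finite I] [Finite Tor] (D : Dt ι I Tor K)
  {X : Set (St ι I Tor) → Prop} (hX : ∀ A, X A ↔ D.Gt.IsClique A) {F : Type} [Group F]
  (j : F →* FreeGroup ι) (ρ : F →* (ps X ≃g ps X)) (hρ : ∀ f a, car (ρ f a) = (j f • ·) '' car a)
  (hj : Function.Injective j) [j.range.FiniteIndex]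
  (G : Subgroup (W (ps X) ⋊[autHom ρ] F)) [G.FiniteIndex]

include hρ hj in
theorem actD_act : letI := actD j ρ; ∃ B, Act (mst (ps X) (sr ι) (tg ι) (Ts Tc)) G B := by
  let := actD j ρ
  obtain ⟨B, hB, h⟩ := cof_sub (actD_cof j ρ) G
  exact ⟨B, fun g _ _ _ e => ⟨_, actD_st j ρ hρ g e⟩, mstD_finite,
    fun g x e => Subtype.ext (actD_free j ρ hj g x e), hB, h⟩

omit [Finite ι] [Finite I] [Finite Tor] [j.range.FiniteIndex] in
include hX hρ hj in
/-- `F` acts freely on the vertices -/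
theorem free_ps (f : F) (a : PV X) (h : ρ f a = a) : f = 1 := by
  obtain ⟨s, hs⟩ := car_nonempty a
  have h1 : j f • s ∈ car a := by rw [← h, hρ]; exact ⟨s, hs, rfl⟩
  have h2 : j f • s = s := by_contra fun n =>
    D.cl_ne ((hX _).1 (car_face a) h1 hs n) (D.cl_smul _ _)
  exact hj ((L.free _ _ h2).trans (map_one j).symm)

omit [Finite ι] [Finite I] [Finite Tor] [j.range.FiniteIndex] [G.FiniteIndex] in
include hX hρ hj in
/-- **no inversion** -/
theorem niD (n : NI G) {φ : W (ps X) × FreeGroup ι → W (cone (ps X) (sr ι) (tg ι) (Ts Tc))}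
    (H : Lab _ (mst (ps X) (sr ι) (tg ι) (Ts Tc)) φ) : letI := actD j ρ; ∀ g ∈ G, ∀ z a y,
      mst (ps X) (sr ι) (tg ι) (Ts Tc) z a y → g • Hs φ z y ≠ Hs φ y z := by
  let := actD j ρ
  intro g hg z a y e h
  rw [Ou.smul_Hs H fun g _ _ _ e => ⟨_, actD_st j ρ hρ g e⟩] at h
  have e' := H.symm _ _ _ e
  obtain ⟨h1, h2⟩ := par H e' (actD_st j ρ hρ g e) h
  rcases a with s | d
  · have r := free_ps D hX j ρ hρ hj _ _ (Sum.inl.inj h1).symm
    obtain ⟨u, hu, k⟩ := bd_ind H e' (Q := fun w => ∃ u ∈ WT _ ((ps X).neighborSet s), w.1 = y.1 * u)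
      ⟨1, one_mem _, (mul_one _).symm⟩ (by
        rintro w (c | c) w' ⟨u, hu, k⟩ m l
        · exact ⟨u * gen _ c, mul_mem hu (gen_mem_WT l), by rw [m.2, ← mul_assoc, ← k]⟩
        · exact ⟨u, hu, m.1.trans k⟩) h2
    refine n g hg r y.1 s u hu ?_
    rw [actD_def, r, map_one, MulAut.one_apply] at k
    rw [eq_mul_inv_of_mul_eq k, e'.2]
    simp [mul_assoc]
  · have r : j g.right = 1 := mul_eq_right.1 (congrArg Prod.fst (Sum.inr.inj h1)).symm
    have k := bd_ind H e' (Q := fun w => w.2 = y.2) rfl (by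
      rintro w (c | c) w' k m l
      · rw [m.2, k]
      · exact l.elim) h2
    obtain ⟨i, k', -⟩ := End.x e'.2
    rw [actD_def, r, one_mul, k'] at k
    exact x_ne_one i (mul_eq_left.1 k)

include hX hρ hj in
/-- **FIN** for the subdivided cover -/
theorem finD [DecidableEq (PV X ⊕ FreeGroup ι × ι)]
    (M : ∀ z, Lp.Psm (cone (ps X) (sr ι) (tg ι) (Ts Tc))
      {a | ∃ y, mst (ps X) (sr ι) (tg ι) (Ts Tc) z a y}) (n : NI G) :
    (MulAut.conj : G →* MulAut G).range.FiniteIndex := by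
  let := actD j ρ
  obtain ⟨φ, H⟩ := (mirD D hX).lab
  obtain ⟨B, C⟩ := actD_act j ρ hρ hj G
  exact fin_of_lab H (nsqD D hX) (clbD D hX) C M (fun g => niD D hX j ρ hρ hj G n H g g.2) (1, 1)

end Crest.Agent.N233.Hi

end
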